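import Vale.Agent.P141.PL.H48.Main424

/-!
# P141: Gram families and matrices of labelled functions
-/

namespace Vale.Agent.P141.PL.H48

set_option linter.unusedSectionVars false

open Finset Matrix Vale.Agent.P075 Vale.Agent.P141.PL

noncomputable section

variable {J' J : Type} [Fintype J'] [DecidableEq J'] [Fintype J] [DecidableEq J]

/-- Samples of the labelled function `F (outer label) (middle label) (outer) (middle)`. -/
def smp (a b : ℕ) (F : J' → J → ℤ → ℤ → ℝ) (n m : ℤ) : Matrix (IL J' a) (IL J b) ℝ :=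
  fun i j => F (lb a i) (lb b j) (2 ^ a * n + vl a i) (2 ^ b * m + vl b j)

/-- the flipped function -/
def fl (F : J' → J → ℤ → ℤ → ℝ) : J → J' → ℤ → ℤ → ℝ := fun j j' x y => F j' j y x

theorem smp_fl (a b : ℕ) (F : J' → J → ℤ → ℤ → ℝ) (n m : ℤ) :
    smp b a (fl F) m n = (smp a b F n m)ᵀ := rfl

theorem sum_IL_succ {M : Type*} [AddCommMonoid M] (k : ℕ) (f : J → ℕ → M) :
    ∑ i : IL J (k + 1), f (lb (k + 1) i) (vl (k + 1) i)
      = ∑ i : IL J k, f (lb k i) (vl k i) + ∑ i : IL J k, f (lb k i) (2 ^ k + vl k i) := by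
  have h1 : ∑ i : IL J (k + 1), f (lb (k + 1) i) (vl (k + 1) i)
      = ∑ i : IL J k ⊕ IL J k, f (lb (k + 1) i) (vl (k + 1) i) := rfl
  rw [h1, Fintype.sum_sum_type]
  rfl

theorem sum_IL {M : Type*} [AddCommMonoid M] (k : ℕ) (f : J → ℕ → M) :
    ∑ i : IL J k, f (lb k i) (vl k i) = ∑ j : J, ∑ i ∈ range (2 ^ k), f j i := by
  induction k generalizing f with
  | zero =>
    have : ∑ i : IL J 0, f (lb 0 i) (vl 0 i) = ∑ j : J, f j 0 := rfl
    rw [this]; simp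
  | succ k ih =>
    rw [sum_IL_succ, ih f, ih (fun j i => f j (2 ^ k + i)), ← sum_add_distrib]
    refine sum_congr rfl fun j _ => ?_
    rw [pow_succ, mul_two, Finset.sum_range_add]

/-- Gram family of a labelled function (middle variable second). -/
def gX (a b : ℕ) (F : J' → J → ℤ → ℤ → ℝ) (n m : ℤ) : Matrix (IL J b) (IL J b) ℝ :=
  ((2 : ℝ) ^ a * 2 ^ b)⁻¹ • ((smp a b F n m)ᵀ * smp a b F n m)

theorem gX_apply (a b : ℕ) (F : J' → J → ℤ → ℤ → ℝ) (n m : ℤ) (j j' : IL J b) :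
    gX a b F n m j j' = ((2 : ℝ) ^ a * 2 ^ b)⁻¹ *
      ∑ i : IL J' a, F (lb a i) (lb b j) (2 ^ a * n + vl a i) (2 ^ b * m + vl b j)
        * F (lb a i) (lb b j') (2 ^ a * n + vl a i) (2 ^ b * m + vl b j') := by
  simp only [gX, Matrix.smul_apply, smul_eq_mul, Matrix.mul_apply, Matrix.transpose_apply, smp]

theorem gX_row (a b : ℕ) (F : J' → J → ℤ → ℤ → ℝ) (n m : ℤ) :
    gX (a + 1) b F n m = (1 / 2 : ℝ) • (gX a b F (2 * n) m + gX a b F (2 * n + 1) m) := by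
  ext j j'
  rw [gX_apply, Matrix.smul_apply, Matrix.add_apply, gX_apply, gX_apply, smul_eq_mul]
  rw [sum_IL_succ a (fun l v => F l (lb b j) (2 ^ (a + 1) * n + (v : ℤ)) (2 ^ b * m + vl b j)
        * F l (lb b j') (2 ^ (a + 1) * n + (v : ℤ)) (2 ^ b * m + vl b j'))]
  have e0 : (2 : ℤ) ^ (a + 1) * n = 2 ^ a * (2 * n) := by ring
  have e : ∀ i : IL J' a, (2 : ℤ) ^ (a + 1) * n + ((2 ^ a + vl a i : ℕ) : ℤ)
      = 2 ^ a * (2 * n + 1) + vl a i := by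
    intro i; push_cast; ring
  simp only [e]
  simp only [e0]
  rw [← mul_add, pow_succ]
  have : ((2 : ℝ) ^ a * 2 * 2 ^ b)⁻¹ = (1 / 2) * ((2 : ℝ) ^ a * 2 ^ b)⁻¹ := by
    rw [show (2 : ℝ) ^ a * 2 * 2 ^ b = 2 * ((2 : ℝ) ^ a * 2 ^ b) by ring, mul_inv]
    norm_num
  rw [this, mul_assoc]

/-- The Gram family of a labelled function. -/
def ofFun (F : J' → J → ℤ → ℤ → ℝ) : GF J where
  X a b n m := gX a b F n m
  psd a b n m := (psd_transpose_mul _).smul (by positivity)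
  row a b n m := gX_row a b F n m
  ll a b n m := by
    ext j j'
    have h : Matrix.toBlocks₁₁ (n := IL J b) (o := IL J b) (l := IL J b) (m := IL J b)
        (gX a (b + 1) F n m) j j' = ((2 : ℝ) ^ a * 2 ^ (b + 1))⁻¹ *
        ∑ i : IL J' a, F (lb a i) (lb b j) (2 ^ a * n + vl a i) (2 ^ (b + 1) * m + vl b j)
          * F (lb a i) (lb b j') (2 ^ a * n + vl a i) (2 ^ (b + 1) * m + vl b j') :=
      gX_apply a (b + 1) F n m (Sum.inl j) (Sum.inl j')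
    rw [h, Matrix.smul_apply, gX_apply, smul_eq_mul, H588.half_pow, mul_assoc,
      show (2 : ℤ) ^ (b + 1) * m = 2 ^ b * (2 * m) by ring]
  rr a b n m := by
    ext j j'
    have h : Matrix.toBlocks₂₂ (n := IL J b) (o := IL J b) (l := IL J b) (m := IL J b)
        (gX a (b + 1) F n m) j j' = ((2 : ℝ) ^ a * 2 ^ (b + 1))⁻¹ *
        ∑ i : IL J' a, F (lb a i) (lb b j) (2 ^ a * n + vl a i)
            (2 ^ (b + 1) * m + ((2 ^ b + vl b j : ℕ) : ℤ))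
          * F (lb a i) (lb b j') (2 ^ a * n + vl a i)
            (2 ^ (b + 1) * m + ((2 ^ b + vl b j' : ℕ) : ℤ)) :=
      gX_apply a (b + 1) F n m (Sum.inr j) (Sum.inr j')
    rw [h, Matrix.smul_apply, gX_apply, smul_eq_mul, H588.half_pow, mul_assoc]
    have e : ∀ j : IL J b, (2 : ℤ) ^ (b + 1) * m + ((2 ^ b + vl b j : ℕ) : ℤ)
        = 2 ^ b * (2 * m + 1) + vl b j := by
      intro j
      push_cast; ring
    rw [e, e]

@[simp] theorem ofFun_X (F : J' → J → ℤ → ℤ → ℝ) (a b : ℕ) (n m : ℤ) :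
    (ofFun F).X a b n m = gX a b F n m := rfl

/-- normalised matrix of a labelled function on the square of scale `k` -/
def mat (k : ℕ) (F : J' → J → ℤ → ℤ → ℝ) (n m : ℤ) : Matrix (IL J' k) (IL J k) ℝ :=
  ((2 : ℝ) ^ k)⁻¹ • smp k k F n m

theorem mat_col (k : ℕ) (F : J' → J → ℤ → ℤ → ℝ) (n m : ℤ) :
    (mat k F n m)ᵀ * mat k F n m = gX k k F n m := by
  rw [mat, transpose_smul, Matrix.smul_mul, Matrix.mul_smul, smul_smul, gX, mul_inv]

theorem mat_row (k : ℕ) (F : J' → J → ℤ → ℤ → ℝ) (n m : ℤ) :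
    mat k F n m * (mat k F n m)ᵀ = gX k k (fl F) m n := by
  rw [← mat_col, mat, mat, smp_fl, transpose_smul, transpose_smul, transpose_transpose]

/-- sum over the points of an interval -/
theorem sum_iv (k : ℕ) (m : ℤ) {M : Type*} [AddCommMonoid M] (f : ℤ → M) :
    ∑ x ∈ iv k m, f x = ∑ i ∈ range (2 ^ k), f (2 ^ k * m + i) := by
  symm
  refine sum_nbij (fun i => 2 ^ k * m + (i : ℤ)) ?_ ?_ ?_ (fun _ _ => rfl)
  · intro i hi
    have := mem_range.mp hi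
    rw [iv, mem_Ico]
    constructor
    · linarith [Int.natCast_nonneg i]
    · have : (i : ℤ) < 2 ^ k := by exact_mod_cast this
      linarith
  · intro i _ j _ h
    simpa using h
  · intro x hx
    have hx' := mem_Ico.mp (by simpa [iv] using hx)
    refine ⟨(x - 2 ^ k * m).toNat, ?_, ?_⟩
    · simp only [coe_range, Set.mem_Iio]
      zify
      rw [Int.toNat_of_nonneg (by linarith)]
      linarith
    · simp only
      rw [Int.toNat_of_nonneg (by linarith)]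
      ring

/-- sum over the rows / columns of a block -/
theorem sum_IL_iv {M : Type*} [AddCommMonoid M] (k : ℕ) (m : ℤ) (f : J → ℤ → M) :
    ∑ i : IL J k, f (lb k i) (2 ^ k * m + vl k i) = ∑ j : J, ∑ x ∈ iv k m, f j x := by
  rw [sum_IL k (fun j v => f j (2 ^ k * m + (v : ℤ)))]
  exact sum_congr rfl fun j _ => (sum_iv k m (f j)).symm

theorem hs_mat (k : ℕ) (F : J' → J → ℤ → ℤ → ℝ) (n m : ℤ) :
    hs (mat k F n m) = ((4 : ℝ) ^ k)⁻¹ * ∑ j' : J', ∑ j : J, ∑ x ∈ iv k n, ∑ y ∈ iv k m,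
      F j' j x y ^ 2 := by
  rw [hs_eq]
  simp only [mat, Matrix.smul_apply, smul_eq_mul, mul_pow, ← mul_sum]
  have e : (((2 : ℝ) ^ k)⁻¹) ^ 2 = ((4 : ℝ) ^ k)⁻¹ := by
    rw [inv_pow, ← pow_mul, mul_comm k 2, pow_mul]; norm_num
  rw [e]
  congr 1
  simp only [smp]
  have h1 : ∀ i : IL J' k, ∑ j : IL J k, F (lb k i) (lb k j) (2 ^ k * n + vl k i)
      (2 ^ k * m + vl k j) ^ 2 = ∑ j : J, ∑ y ∈ iv k m, F (lb k i) j (2 ^ k * n + vl k i) y ^ 2 :=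
    fun i => sum_IL_iv k m (fun j y => F (lb k i) j (2 ^ k * n + vl k i) y ^ 2)
  simp only [h1]
  rw [sum_IL_iv k n (fun j' x => ∑ j : J, ∑ y ∈ iv k m, F j' j x y ^ 2)]
  refine sum_congr rfl fun j' _ => ?_
  rw [sum_comm]

theorem vl_lt : ∀ (k : ℕ) (i : IL J k), vl k i < 2 ^ k
  | 0, _ => by simp [vl]
  | k + 1, Sum.inl i => by
    have := vl_lt k i
    change vl k i < 2 ^ (k + 1)
    rw [pow_succ]; omega
  | k + 1, Sum.inr i => by
    have := vl_lt k i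
    change 2 ^ k + vl k i < 2 ^ (k + 1)
    rw [pow_succ]; omega

/-- the sign of a point of the left / right half -/
theorem hs_vl (k : ℕ) (m : ℤ) (i : IL J k ⊕ IL J k) :
    Vale.Agent.P141.PL.hs (k + 1) (2 ^ (k + 1) * m + vl (k + 1) (i : IL J (k + 1)))
      = Sum.elim (fun _ => 1) (fun _ => -1) i := by
  unfold Vale.Agent.P141.PL.hs ix
  rw [Nat.add_sub_cancel]
  have h2 : (0 : ℤ) < 2 ^ k := by positivity
  rcases i with i | i
  · have hv : (vl (k + 1) (Sum.inl i : IL J (k + 1))) = vl k i := rfl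
    have hlt' : (vl k i : ℤ) < 2 ^ k := by exact_mod_cast vl_lt k i
    have e : ((2 : ℤ) ^ (k + 1) * m + vl (k + 1) (Sum.inl i : IL J (k + 1))) / 2 ^ k = 2 * m := by
      rw [hv, pow_succ, show (2 : ℤ) ^ k * 2 * m + vl k i = vl k i + 2 ^ k * (2 * m) by ring,
        Int.add_mul_ediv_left _ _ h2.ne', Int.ediv_eq_zero_of_lt (by positivity) hlt', zero_add]
    rw [e]
    simp
  · have hv : (vl (k + 1) (Sum.inr i : IL J (k + 1))) = 2 ^ k + vl k i := rfl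
    have hlt' : (vl k i : ℤ) < 2 ^ k := by exact_mod_cast vl_lt k i
    have e : ((2 : ℤ) ^ (k + 1) * m + vl (k + 1) (Sum.inr i : IL J (k + 1))) / 2 ^ k
        = 2 * m + 1 := by
      rw [hv, pow_succ]
      push_cast
      rw [show (2 : ℤ) ^ k * 2 * m + (2 ^ k + vl k i) = vl k i + 2 ^ k * (2 * m + 1) by ring,
        Int.add_mul_ediv_left _ _ h2.ne', Int.ediv_eq_zero_of_lt (by positivity) hlt', zero_add]
    rw [e]
    have : (2 * m + 1) % 2 = 1 := by omega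
    rw [this]
    simp

theorem hd_diag (k : ℕ) (m : ℤ) : hd J (k + 1) = Matrix.diagonal
    (fun i : IL J (k + 1) => Vale.Agent.P141.PL.hs (k + 1) (2 ^ (k + 1) * m + vl (k + 1) i)) := by
  have h1 : hd J (k + 1) = (rad (IL J k) : Matrix (IL J k ⊕ IL J k) (IL J k ⊕ IL J k) ℝ) := rfl
  have h2 : (Matrix.diagonal (fun i : IL J (k + 1) =>
      Vale.Agent.P141.PL.hs (k + 1) (2 ^ (k + 1) * m + vl (k + 1) i)) :
      Matrix (IL J (k + 1)) (IL J (k + 1)) ℝ)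
      = (Matrix.diagonal (fun i : IL J k ⊕ IL J k =>
      Vale.Agent.P141.PL.hs (k + 1) (2 ^ (k + 1) * m + vl (k + 1) (i : IL J (k + 1)))) :
      Matrix (IL J k ⊕ IL J k) (IL J k ⊕ IL J k) ℝ) := rfl
  rw [h1, h2]
  simp only [hs_vl]
  rw [rad]
  ext i j
  rcases i with i | i <;> rcases j with j | j <;>
    simp [Matrix.diagonal_apply, Matrix.one_apply]
  split_ifs <;> simp

/-- The trilinear local form of labelled functions (a SUM over the box `p = (n0, n1, n2)` of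
scale `k`). -/
def tri3 {J0 J1 J2 : Type} [Fintype J0] [Fintype J1] [Fintype J2] (k : ℕ) (p : ℤ × ℤ × ℤ)
    (A : J0 → J1 → ℤ → ℤ → ℝ) (B : J1 → J2 → ℤ → ℤ → ℝ) (C : J0 → J2 → ℤ → ℤ → ℝ) : ℝ :=
  ∑ x0 ∈ iv k p.1, ∑ x1 ∈ iv k p.2.1, ∑ x2 ∈ iv k p.2.2,
    Vale.Agent.P141.PL.hs k x0 * Vale.Agent.P141.PL.hs k x1 * Vale.Agent.P141.PL.hs k x2 *
      ∑ j0, ∑ j1, ∑ j2, A j0 j1 x0 x1 * B j1 j2 x1 x2 * C j0 j2 x0 x2

theorem TF_diag {P Q R' : Type} [Fintype P] [DecidableEq P] [Fintype Q] [DecidableEq Q]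
    [Fintype R'] [DecidableEq R'] (d0 : P → ℝ) (d1 : Q → ℝ) (d2 : R' → ℝ) (a : Matrix P Q ℝ)
    (b : Matrix Q R' ℝ) (c : Matrix P R' ℝ) :
    TF (Matrix.diagonal d0) (Matrix.diagonal d1) (Matrix.diagonal d2) a b c
      = ∑ i, ∑ j, ∑ l, d0 i * d1 j * d2 l * (a i j * b j l * c i l) := by
  have h : TF (Matrix.diagonal d0) (Matrix.diagonal d1) (Matrix.diagonal d2) a b c
      = ((Matrix.diagonal d0 * a * Matrix.diagonal d1) * (b * Matrix.diagonal d2) * cᵀ).trace := by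
    rw [TF]; simp only [Matrix.mul_assoc]
  have e1 : ∀ i j, (Matrix.diagonal d0 * a * Matrix.diagonal d1) i j = d0 i * a i j * d1 j := by
    intro i j
    rw [Matrix.mul_diagonal, Matrix.diagonal_mul]
  have e2 : ∀ j l, (b * Matrix.diagonal d2) j l = b j l * d2 l := by
    intro j l
    rw [Matrix.mul_diagonal]
  rw [h]
  generalize Matrix.diagonal d0 * a * Matrix.diagonal d1 = M at *
  generalize b * Matrix.diagonal d2 = N at *
  simp only [Matrix.trace, Matrix.diag_apply, Matrix.mul_apply, Matrix.transpose_apply, e1, e2,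
    Finset.sum_mul]
  refine sum_congr rfl fun i _ => ?_
  rw [sum_comm]
  refine sum_congr rfl fun j _ => sum_congr rfl fun l _ => ?_
  ring

theorem TF_mat {J0 J1 J2 : Type} [Fintype J0] [DecidableEq J0] [Fintype J1] [DecidableEq J1]
    [Fintype J2] [DecidableEq J2] (k : ℕ) (p : ℤ × ℤ × ℤ)
    (A : J0 → J1 → ℤ → ℤ → ℝ) (B : J1 → J2 → ℤ → ℤ → ℝ) (C : J0 → J2 → ℤ → ℤ → ℝ) :
    TF (hd J0 (k + 1)) (hd J1 (k + 1)) (hd J2 (k + 1)) (mat (k + 1) A p.1 p.2.1)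
      (mat (k + 1) B p.2.1 p.2.2) (mat (k + 1) C p.1 p.2.2)
      = ((8 : ℝ) ^ (k + 1))⁻¹ * tri3 (k + 1) p A B C := by
  rw [hd_diag k p.1, hd_diag k p.2.1, hd_diag k p.2.2]
  unfold TF
  simp only [mat, transpose_smul, Matrix.mul_smul, Matrix.smul_mul, trace_smul, smul_eq_mul]
  rw [← mul_assoc, ← mul_assoc]
  have e8 : ((2 : ℝ) ^ (k + 1))⁻¹ * ((2 : ℝ) ^ (k + 1))⁻¹ * ((2 : ℝ) ^ (k + 1))⁻¹
      = ((8 : ℝ) ^ (k + 1))⁻¹ := by
    rw [← mul_inv, ← mul_inv, ← mul_pow, ← mul_pow]; norm_num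
  rw [e8]
  congr 1
  unfold tri3
  have h := TF_diag (fun i : IL J0 (k + 1) => Vale.Agent.P141.PL.hs (k + 1)
      (2 ^ (k + 1) * p.1 + vl (k + 1) i)) (fun i : IL J1 (k + 1) => Vale.Agent.P141.PL.hs (k + 1)
      (2 ^ (k + 1) * p.2.1 + vl (k + 1) i)) (fun i : IL J2 (k + 1) => Vale.Agent.P141.PL.hs (k + 1)
      (2 ^ (k + 1) * p.2.2 + vl (k + 1) i)) (smp (k + 1) (k + 1) A p.1 p.2.1)
      (smp (k + 1) (k + 1) B p.2.1 p.2.2) (smp (k + 1) (k + 1) C p.1 p.2.2)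
  rw [TF] at h
  rw [h]
  simp only [smp]
  have s2 : ∀ (i : IL J0 (k + 1)) (j : IL J1 (k + 1)), ∑ l : IL J2 (k + 1),
      Vale.Agent.P141.PL.hs (k + 1) (2 ^ (k + 1) * p.1 + vl (k + 1) i)
      * Vale.Agent.P141.PL.hs (k + 1) (2 ^ (k + 1) * p.2.1 + vl (k + 1) j)
      * Vale.Agent.P141.PL.hs (k + 1) (2 ^ (k + 1) * p.2.2 + vl (k + 1) l)
      * (A (lb (k + 1) i) (lb (k + 1) j) (2 ^ (k + 1) * p.1 + vl (k + 1) i)
          (2 ^ (k + 1) * p.2.1 + vl (k + 1) j)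
        * B (lb (k + 1) j) (lb (k + 1) l) (2 ^ (k + 1) * p.2.1 + vl (k + 1) j)
          (2 ^ (k + 1) * p.2.2 + vl (k + 1) l)
        * C (lb (k + 1) i) (lb (k + 1) l) (2 ^ (k + 1) * p.1 + vl (k + 1) i)
          (2 ^ (k + 1) * p.2.2 + vl (k + 1) l))
      = ∑ j2 : J2, ∑ x2 ∈ iv (k + 1) p.2.2,
        Vale.Agent.P141.PL.hs (k + 1) (2 ^ (k + 1) * p.1 + vl (k + 1) i)
      * Vale.Agent.P141.PL.hs (k + 1) (2 ^ (k + 1) * p.2.1 + vl (k + 1) j)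
      * Vale.Agent.P141.PL.hs (k + 1) x2
      * (A (lb (k + 1) i) (lb (k + 1) j) (2 ^ (k + 1) * p.1 + vl (k + 1) i)
          (2 ^ (k + 1) * p.2.1 + vl (k + 1) j)
        * B (lb (k + 1) j) j2 (2 ^ (k + 1) * p.2.1 + vl (k + 1) j) x2
        * C (lb (k + 1) i) j2 (2 ^ (k + 1) * p.1 + vl (k + 1) i) x2) := by
    intro i j
    exact sum_IL_iv (k + 1) p.2.2 (fun j2 x2 =>
        Vale.Agent.P141.PL.hs (k + 1) (2 ^ (k + 1) * p.1 + vl (k + 1) i)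
      * Vale.Agent.P141.PL.hs (k + 1) (2 ^ (k + 1) * p.2.1 + vl (k + 1) j)
      * Vale.Agent.P141.PL.hs (k + 1) x2
      * (A (lb (k + 1) i) (lb (k + 1) j) (2 ^ (k + 1) * p.1 + vl (k + 1) i)
          (2 ^ (k + 1) * p.2.1 + vl (k + 1) j)
        * B (lb (k + 1) j) j2 (2 ^ (k + 1) * p.2.1 + vl (k + 1) j) x2
        * C (lb (k + 1) i) j2 (2 ^ (k + 1) * p.1 + vl (k + 1) i) x2))
  simp only [s2]
  have s1 : ∀ (i : IL J0 (k + 1)), ∑ j : IL J1 (k + 1), ∑ j2 : J2, ∑ x2 ∈ iv (k + 1) p.2.2,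
        Vale.Agent.P141.PL.hs (k + 1) (2 ^ (k + 1) * p.1 + vl (k + 1) i)
      * Vale.Agent.P141.PL.hs (k + 1) (2 ^ (k + 1) * p.2.1 + vl (k + 1) j)
      * Vale.Agent.P141.PL.hs (k + 1) x2
      * (A (lb (k + 1) i) (lb (k + 1) j) (2 ^ (k + 1) * p.1 + vl (k + 1) i)
          (2 ^ (k + 1) * p.2.1 + vl (k + 1) j)
        * B (lb (k + 1) j) j2 (2 ^ (k + 1) * p.2.1 + vl (k + 1) j) x2
        * C (lb (k + 1) i) j2 (2 ^ (k + 1) * p.1 + vl (k + 1) i) x2)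
      = ∑ j1 : J1, ∑ x1 ∈ iv (k + 1) p.2.1, ∑ j2 : J2, ∑ x2 ∈ iv (k + 1) p.2.2,
        Vale.Agent.P141.PL.hs (k + 1) (2 ^ (k + 1) * p.1 + vl (k + 1) i)
      * Vale.Agent.P141.PL.hs (k + 1) x1
      * Vale.Agent.P141.PL.hs (k + 1) x2
      * (A (lb (k + 1) i) j1 (2 ^ (k + 1) * p.1 + vl (k + 1) i) x1
        * B j1 j2 x1 x2 * C (lb (k + 1) i) j2 (2 ^ (k + 1) * p.1 + vl (k + 1) i) x2) := by
    intro i
    exact sum_IL_iv (k + 1) p.2.1 (fun j1 x1 => ∑ j2 : J2, ∑ x2 ∈ iv (k + 1) p.2.2,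
        Vale.Agent.P141.PL.hs (k + 1) (2 ^ (k + 1) * p.1 + vl (k + 1) i)
      * Vale.Agent.P141.PL.hs (k + 1) x1
      * Vale.Agent.P141.PL.hs (k + 1) x2
      * (A (lb (k + 1) i) j1 (2 ^ (k + 1) * p.1 + vl (k + 1) i) x1
        * B j1 j2 x1 x2 * C (lb (k + 1) i) j2 (2 ^ (k + 1) * p.1 + vl (k + 1) i) x2))
  simp only [s1]
  rw [sum_IL_iv (k + 1) p.1 (fun j0 x0 => ∑ j1 : J1, ∑ x1 ∈ iv (k + 1) p.2.1, ∑ j2 : J2,
        ∑ x2 ∈ iv (k + 1) p.2.2,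
        Vale.Agent.P141.PL.hs (k + 1) x0
      * Vale.Agent.P141.PL.hs (k + 1) x1
      * Vale.Agent.P141.PL.hs (k + 1) x2
      * (A j0 j1 x0 x1 * B j1 j2 x1 x2 * C j0 j2 x0 x2))]
  -- reorder the sums
  rw [sum_comm]
  refine sum_congr rfl fun x0 _ => ?_
  have r1 : ∀ j0 : J0, ∑ j1 : J1, ∑ x1 ∈ iv (k + 1) p.2.1, ∑ j2 : J2,
        ∑ x2 ∈ iv (k + 1) p.2.2,
        Vale.Agent.P141.PL.hs (k + 1) x0
      * Vale.Agent.P141.PL.hs (k + 1) x1
      * Vale.Agent.P141.PL.hs (k + 1) x2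
      * (A j0 j1 x0 x1 * B j1 j2 x1 x2 * C j0 j2 x0 x2)
      = ∑ x1 ∈ iv (k + 1) p.2.1, ∑ j1 : J1, ∑ x2 ∈ iv (k + 1) p.2.2, ∑ j2 : J2,
        Vale.Agent.P141.PL.hs (k + 1) x0
      * Vale.Agent.P141.PL.hs (k + 1) x1
      * Vale.Agent.P141.PL.hs (k + 1) x2
      * (A j0 j1 x0 x1 * B j1 j2 x1 x2 * C j0 j2 x0 x2) := by
    intro j0
    rw [sum_comm]
    exact sum_congr rfl fun x1 _ => sum_congr rfl fun j1 _ => sum_comm
  simp only [r1]
  rw [sum_comm]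
  refine sum_congr rfl fun x1 _ => ?_
  have r2 : ∀ j0 : J0, ∑ j1 : J1, ∑ x2 ∈ iv (k + 1) p.2.2, ∑ j2 : J2,
        Vale.Agent.P141.PL.hs (k + 1) x0
      * Vale.Agent.P141.PL.hs (k + 1) x1
      * Vale.Agent.P141.PL.hs (k + 1) x2
      * (A j0 j1 x0 x1 * B j1 j2 x1 x2 * C j0 j2 x0 x2)
      = ∑ x2 ∈ iv (k + 1) p.2.2, ∑ j1 : J1, ∑ j2 : J2,
        Vale.Agent.P141.PL.hs (k + 1) x0
      * Vale.Agent.P141.PL.hs (k + 1) x1
      * Vale.Agent.P141.PL.hs (k + 1) x2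
      * (A j0 j1 x0 x1 * B j1 j2 x1 x2 * C j0 j2 x0 x2) := fun j0 => sum_comm
  simp only [r2]
  rw [sum_comm]
  refine sum_congr rfl fun x2 _ => ?_
  simp only [mul_sum]

end

end Vale.Agent.P141.PL.H48
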