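import Vale.Agent.P141.PL.H48.T424

/-!
# P141: one-sided bounds of remainders, telescoping of the trilinear form along a lattice path

`Bd κ K a p` : `p pᵀ ≤ K φ(κ a aᵀ)` and `pᵀ p ≤ K φ(κ aᵀ a)`. The remainders `a - tr κ a` satisfy
this with `K = 4/κ`. If the first matrix is a level piece (`Fac`) and the two others satisfy `Bd`
then the trilinear form is bounded by the two vertex densities at the ends of the first edge.
-/

namespace Vale.Agent.P141.PL.H48

set_option linter.unusedSectionVars false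

open Finset Matrix Vale.Agent.P075 Vale.Agent.P141.PL

noncomputable section

variable {P Q R' : Type} [Fintype P] [DecidableEq P] [Fintype Q] [DecidableEq Q]
  [Fintype R'] [DecidableEq R']

/-- one-sided bounds at level `κ` -/
def Bd (κ K : ℝ) (a p : Matrix P Q ℝ) : Prop :=
  (K • phi (XR κ a) - p * pᵀ).PosSemidef ∧ (K • phi (XC κ a) - pᵀ * p).PosSemidef

theorem XR_transpose (κ : ℝ) (a : Matrix P Q ℝ) : XR κ aᵀ = XC κ a := by
  rw [XR, XC, transpose_transpose]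

theorem Bd.transpose {κ K : ℝ} {a p : Matrix P Q ℝ} (h : Bd κ K a p) : Bd κ K aᵀ pᵀ := by
  refine ⟨?_, ?_⟩
  · rw [XR_transpose, transpose_transpose]; exact h.2
  · rw [XC_transpose, transpose_transpose]; exact h.1

theorem tr_transpose {κ : ℝ} (hκ : 0 ≤ κ) (a : Matrix P Q ℝ) : (tr κ a)ᵀ = tr κ aᵀ := by
  have h := push_phi hκ a
  have h1 : tr κ a = phi (XR κ a) * phi (XR κ a) * a := by
    rw [tr, ← Matrix.mul_assoc, h, Matrix.mul_assoc, h, ← Matrix.mul_assoc]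
  rw [h1, transpose_mul, transpose_mul, phi_symm (XR_psd hκ a), tr, XC_transpose]

theorem bd_rem {κ : ℝ} (hκ : 0 < κ) (a : Matrix P Q ℝ) : Bd κ (4 * κ⁻¹) a (a - tr κ a) := by
  have key : ∀ {P Q : Type} [Fintype P] [DecidableEq P] [Fintype Q] [DecidableEq Q]
      (a : Matrix P Q ℝ), ((4 * κ⁻¹) • phi (XC κ a)
        - (a - tr κ a)ᵀ * (a - tr κ a)).PosSemidef := by
    intro P Q _ _ _ _ a
    have hX := XC_psd hκ.le a
    have hs := res_symm hX
    have e2 : (a * res (XC κ a))ᵀ * (a * res (XC κ a))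
        = κ⁻¹ • (res (XC κ a) - res (XC κ a) * res (XC κ a)) := by
      rw [res_sub_sq hX, transpose_mul, hs]
      have e2 : XC κ a = κ • (aᵀ * a) := rfl
      conv_rhs => rw [e2]
      rw [Matrix.mul_smul, Matrix.smul_mul, smul_smul, inv_mul_cancel₀ hκ.ne', one_smul, ← e2]
      simp only [Matrix.mul_assoc]
    set A := res (XC κ a) with hA
    have e4 : phi (XC κ a) = 1 - A := rfl
    have e1 : a - tr κ a = a * A * ((2 : ℝ) • (1 : Matrix Q Q ℝ) - A) := by
      rw [tr, e4]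
      simp only [Matrix.mul_sub, Matrix.sub_mul, Matrix.mul_one, Matrix.one_mul, Matrix.mul_smul,
        Matrix.mul_assoc]
      module
    have e3 : (a - tr κ a)ᵀ * (a - tr κ a)
        = κ⁻¹ • (((2 : ℝ) • (1 : Matrix Q Q ℝ) - A) * (A - A * A)
          * ((2 : ℝ) • (1 : Matrix Q Q ℝ) - A)) := by
      rw [e1, transpose_mul, transpose_sub, transpose_smul, transpose_one, hs,
        Matrix.mul_assoc, ← Matrix.mul_assoc (a * A)ᵀ, e2]
      simp only [Matrix.smul_mul, Matrix.mul_smul, Matrix.mul_assoc]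
    have e5 : (4 * κ⁻¹) • phi (XC κ a) - (a - tr κ a)ᵀ * (a - tr κ a)
        = κ⁻¹ • ((4 : ℝ) • ((1 - A) * (1 - A)) + (3 : ℝ) • (A * (1 - A) * A)
          + (A - A * A) * (A - A * A)) := by
      rw [e3, e4, mul_comm (4 : ℝ), mul_smul, ← smul_sub]
      congr 1
      simp only [Matrix.sub_mul, Matrix.mul_sub, Matrix.smul_mul, Matrix.mul_smul, Matrix.one_mul,
        Matrix.mul_one, ← Matrix.mul_assoc]
      module
    rw [e5]
    refine (((psd_sq ?_).smul (by norm_num)).add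
      ((psd_conj_symm (one_sub_res_psd hX) hs).smul (by norm_num)) |>.add (psd_sq ?_)).smul
      (by positivity)
    · rw [transpose_sub, transpose_one, hs]
    · rw [transpose_sub, transpose_mul, hs]
  refine ⟨?_, key a⟩
  have h := key aᵀ
  rw [XC_transpose, ← tr_transpose hκ.le, ← transpose_sub, transpose_transpose] at h
  exact h

theorem res_one : res (1 : Matrix P P ℝ) = (1 / 2 : ℝ) • (1 : Matrix P P ℝ) := by
  have h := res_mul_one_add (X := (1 : Matrix P P ℝ)) PosSemidef.one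
  rw [Matrix.mul_add, Matrix.mul_one, ← two_smul ℝ] at h
  have h2 := congrArg (fun M => (1 / 2 : ℝ) • M) h
  simpa [smul_smul] using h2

theorem bd_self {κ : ℝ} (hκ : 0 < κ) {a : Matrix P Q ℝ} (h : OB κ⁻¹ a) : Bd κ (2 * κ⁻¹) a a := by
  have key : ∀ {P Q : Type} [Fintype P] [DecidableEq P] [Fintype Q] [DecidableEq Q]
      (a : Matrix P Q ℝ), OB κ⁻¹ a → ((2 * κ⁻¹) • phi (XC κ a) - aᵀ * a).PosSemidef := by
    intro P Q _ _ _ _ a h
    have hX := XC_psd hκ.le a
    have hX' := XR_psd hκ.le a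
    have h1 : (1 - XR κ a).PosSemidef := by
      have := h.2.smul hκ.le
      rwa [smul_sub, smul_smul, mul_inv_cancel₀ hκ.ne', one_smul] at this
    have h2 := res_anti hX' h1
    rw [add_sub_cancel, res_one] at h2
    have e1 : phi (XC κ a) = κ • (aᵀ * res (XR κ a) * a) := by
      rw [← mul_res_phi hX]
      have e2 : XC κ a = κ • (aᵀ * a) := rfl
      conv_lhs => rw [show XC κ a * res (XC κ a) = (κ • (aᵀ * a)) * res (XC κ a) by rw [← e2]]
      rw [Matrix.smul_mul, Matrix.mul_assoc, push_res hκ.le, Matrix.mul_assoc]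
    have e3 : (2 * κ⁻¹) • phi (XC κ a) - aᵀ * a
        = (2 : ℝ) • (aᵀ * (res (XR κ a) - (1 / 2 : ℝ) • (1 : Matrix P P ℝ)) * aᵀᵀ) := by
      rw [e1, smul_smul, mul_assoc, inv_mul_cancel₀ hκ.ne', mul_one, transpose_transpose,
        Matrix.mul_sub, Matrix.sub_mul, smul_sub, Matrix.mul_smul, Matrix.smul_mul, smul_smul,
        Matrix.mul_one]
      norm_num
    rw [e3]
    exact (psd_conj h2 aᵀ).smul (by norm_num)
  refine ⟨?_, key a h⟩
  have := key aᵀ h.transpose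
  rwa [XC_transpose, transpose_transpose] at this

theorem Bd.mono {κ K K' : ℝ} (hκ : 0 ≤ κ) (hK : K ≤ K') {a p : Matrix P Q ℝ} (h : Bd κ K a p) :
    Bd κ K' a p := by
  have n1 : ((K' - K) • phi (XR κ a)).PosSemidef := (phi_psd (XR_psd hκ a)).smul (sub_nonneg.2 hK)
  have n2 : ((K' - K) • phi (XC κ a)).PosSemidef := (phi_psd (XC_psd hκ a)).smul (sub_nonneg.2 hK)
  refine ⟨?_, ?_⟩
  · have e : K' • phi (XR κ a) - p * pᵀ = (K' - K) • phi (XR κ a) + (K • phi (XR κ a) - p * pᵀ) := by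
      rw [sub_smul]; abel
    rw [e]; exact n1.add h.1
  · have e : K' • phi (XC κ a) - pᵀ * p = (K' - K) • phi (XC κ a) + (K • phi (XC κ a) - pᵀ * p) := by
      rw [sub_smul]; abel
    rw [e]; exact n2.add h.2

section

variable {r0 : Matrix P P ℝ} {r1 : Matrix Q Q ℝ} {r2 : Matrix R' R' ℝ}
  {a pa : Matrix P Q ℝ} {b pb : Matrix Q R' ℝ} {c pc : Matrix P R' ℝ}
  {κ μ ν K L M : ℝ}

/-- Hilbert-Schmidt norm of a half vertex -/
theorem hs_half {X Y : Matrix P P ℝ} {r : Matrix P P ℝ} (hX : X.PosSemidef)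
    (hr : rᵀ = r) {L : ℝ} {p : Matrix P Q ℝ}
    (hp : (L • phi Y - p * pᵀ).PosSemidef) : hs (phi X * r * p) ≤ L * vd X Y r := by
  have e : hs (phi X * r * p) = ((phi X * phi X) * (r * (p * pᵀ) * r)).trace := by
    rw [hs, transpose_mul, transpose_mul, hr, phi_symm hX]
    rw [show phi X * r * p * (pᵀ * (r * phi X)) = phi X * (r * (p * pᵀ) * r * phi X) by
      simp only [Matrix.mul_assoc], trace_mul_comm]
    rw [Matrix.mul_assoc, trace_mul_comm]
  have p1 : (r * (p * pᵀ) * r).PosSemidef := psd_conj_symm (psd_mul_transpose p) hr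
  have h1 := trace_mul_le_left p1 (phi_sub_sq_psd hX)
  have p2 : (r * (L • phi Y) * r - r * (p * pᵀ) * r).PosSemidef := by
    have := psd_conj_symm hp hr
    rwa [Matrix.mul_sub, Matrix.sub_mul] at this
  have h2 := trace_mul_le_right (phi_psd hX) p2
  have e2 : (phi X * (r * (L • phi Y) * r)).trace = L * vd X Y r := by
    rw [Matrix.mul_smul, Matrix.smul_mul, Matrix.mul_smul, trace_smul, smul_eq_mul, vd]
  rw [e]
  linarith

/-- step on the edge `a`: vertices 0 and 1 -/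
theorem tf_a (hr0 : r0ᵀ = r0) (hr1 : r1ᵀ = r1) (hr2 : r2ᵀ = r2) (hr2' : r2 * r2 = 1)
    (hκ : 0 ≤ κ) (hμ : 0 ≤ μ) (hν : 0 ≤ ν) (hK : 0 ≤ K) (hL : 0 ≤ L) (hM : 0 ≤ M)
    (ha : Fac κ K a pa) (hb : Bd μ L b pb) (hc : Bd ν M c pc) :
    TF r0 r1 r2 pa pb pc ^ 2 ≤ (K * L * M) * vd (XR κ a) (XR ν c) r0 * vd (XC κ a) (XR μ b) r1 := by
  obtain ⟨m, rfl, hm⟩ := ha
  have e : TF r0 r1 r2 (phi (XR κ a) * m * phi (XC κ a)) pb pc
      = ((m * (phi (XC κ a) * r1 * pb) * r2) * (pcᵀ * r0 * phi (XR κ a))).trace := by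
    rw [TF]
    rw [show m * (phi (XC κ a) * r1 * pb) * r2 * (pcᵀ * r0 * phi (XR κ a))
        = (m * phi (XC κ a) * r1 * pb * r2 * pcᵀ) * (r0 * phi (XR κ a)) by
      simp only [Matrix.mul_assoc],
      trace_mul_comm (m * phi (XC κ a) * r1 * pb * r2 * pcᵀ) (r0 * phi (XR κ a))]
    refine congrArg Matrix.trace ?_
    simp only [Matrix.mul_assoc]
  rw [e]
  refine (trace_sq_le_hs _ _).trans ?_
  have h1 : hs (m * (phi (XC κ a) * r1 * pb) * r2) ≤ 1 * (K * (L * vd (XC κ a) (XR μ b) r1)) := by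
    refine ((ob_refl hr2 hr2').hs_right _).trans ?_
    refine mul_le_mul_of_nonneg_left ((hm.hs_left _).trans ?_) zero_le_one
    exact mul_le_mul_of_nonneg_left (hs_half (XC_psd hκ a) hr1 hb.1) hK
  have h2 : hs (pcᵀ * r0 * phi (XR κ a)) ≤ M * vd (XR κ a) (XR ν c) r0 := by
    rw [← hs_transpose, transpose_mul, transpose_mul, transpose_transpose, hr0,
      phi_symm (XR_psd hκ a), ← Matrix.mul_assoc]
    exact hs_half (XR_psd hκ a) hr0 hc.1
  have n1 := vd_nonneg (XC_psd hκ a) (XR_psd hμ b) hr1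
  calc _ ≤ (1 * (K * (L * vd (XC κ a) (XR μ b) r1))) * (M * vd (XR κ a) (XR ν c) r0) :=
        mul_le_mul h1 h2 (hs_nonneg _) (by positivity)
    _ = _ := by ring

/-- step on the edge `b`: vertices 1 and 2 -/
theorem tf_b (hr0 : r0ᵀ = r0) (hr0' : r0 * r0 = 1) (hr1 : r1ᵀ = r1) (hr2 : r2ᵀ = r2)
    (hκ : 0 ≤ κ) (hμ : 0 ≤ μ) (hν : 0 ≤ ν) (hK : 0 ≤ K) (hL : 0 ≤ L) (hM : 0 ≤ M)
    (ha : Bd κ K a pa) (hb : Fac μ L b pb) (hc : Bd ν M c pc) :
    TF r0 r1 r2 pa pb pc ^ 2 ≤ (K * L * M) * vd (XC κ a) (XR μ b) r1 * vd (XC μ b) (XC ν c) r2 := by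
  rw [TF_cyc hr0 hr1 hr2]
  have h := tf_a (r0 := r1) (r1 := r2) (r2 := r0) hr1 hr2 hr0 hr0' hμ hν hκ hL hM hK hb
    hc.transpose ha.transpose
  rw [XR_transpose, XR_transpose] at h
  calc _ ≤ _ := h
    _ = _ := by rw [vd_comm (X := XR μ b)]; ring

/-- step on the edge `c`: vertices 2 and 0 -/
theorem tf_c (hr0 : r0ᵀ = r0) (hr1 : r1ᵀ = r1) (hr1' : r1 * r1 = 1) (hr2 : r2ᵀ = r2)
    (hκ : 0 ≤ κ) (hμ : 0 ≤ μ) (hν : 0 ≤ ν) (hK : 0 ≤ K) (hL : 0 ≤ L) (hM : 0 ≤ M)
    (ha : Bd κ K a pa) (hb : Bd μ L b pb) (hc : Fac ν M c pc) :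
    TF r0 r1 r2 pa pb pc ^ 2 ≤ (K * L * M) * vd (XC μ b) (XC ν c) r2 * vd (XR κ a) (XR ν c) r0 := by
  rw [TF_cyc hr0 hr1 hr2, TF_cyc hr1 hr2 hr0, transpose_transpose]
  have h := tf_a (r0 := r2) (r1 := r0) (r2 := r1) hr2 hr0 hr1 hr1' hν hκ hμ hM hK hL
    (hc.transpose hν) ha hb.transpose
  rw [XR_transpose, XR_transpose, XC_transpose] at h
  calc _ ≤ _ := h
    _ = _ := by rw [vd_comm (X := XC ν c), vd_comm (X := XR ν c)]; ring

end

/-! ### remainders -/

/-- remainder of level `i` -/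
def rm (i : ℕ) (a : Matrix P Q ℝ) : Matrix P Q ℝ :=
  match i with
  | 0 => a
  | i + 1 => a - tr (4 ^ i) a

theorem rm_succ (i : ℕ) (a : Matrix P Q ℝ) : rm i a = rm (i + 1) a + pcs i a := by
  cases i with
  | zero => simp [rm, pcs]
  | succ i => simp only [rm, pcs]; abel

theorem bd_rm (i : ℕ) {a : Matrix P Q ℝ} (h : OB 1 a) : Bd (lv i) (4 * (lv i)⁻¹) a (rm i a) := by
  cases i with
  | zero =>
    have e : lv 0 = 1 := by simp [lv]
    rw [e, inv_one, mul_one]
    have := bd_self (κ := 1) one_pos (a := a) (by rwa [inv_one])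
    rw [inv_one, mul_one] at this
    exact this.mono zero_le_one (by norm_num)
  | succ i =>
    have e : lv (i + 1) = 4 ^ i := by simp [lv]
    rw [e]
    exact bd_rem (by positivity) a

theorem ob_rm {i : ℕ} (hi : 1 ≤ i) (a : Matrix P Q ℝ) : OB (lv i)⁻¹ (rm i a) := by
  obtain ⟨i, rfl⟩ : ∃ k, i = k + 1 := ⟨i - 1, by omega⟩
  have e : lv (i + 1) = 4 ^ i := by simp [lv]
  rw [e]
  exact ob_rem (by positivity) a

theorem hs_rm_le (i : ℕ) (a : Matrix P Q ℝ) : hs (rm i a) ≤ 4 * hs a := by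
  cases i with
  | zero =>
    have := hs_nonneg a
    simp only [rm]; linarith
  | succ i =>
    have h4 : (0 : ℝ) < 4 ^ i := by positivity
    have hX := XC_psd h4.le a
    set A := res (XC (4 ^ i) a) with hA
    have e4 : phi (XC (4 ^ i) a) = 1 - A := rfl
    have e1 : rm (i + 1) a = a * (A * ((2 : ℝ) • (1 : Matrix Q Q ℝ) - A)) := by
      simp only [rm]
      rw [tr, e4]
      simp only [Matrix.mul_sub, Matrix.sub_mul, Matrix.mul_one, Matrix.one_mul, Matrix.mul_smul]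
      module
    have b1 : OB 1 A := by
      have := ob_phi hX
      have hs := res_symm hX
      have h : (1 - A * A).PosSemidef := by
        have e : 1 - A * A = (1 - A) + (A - A * A) := by abel
        rw [e]; exact (one_sub_res_psd hX).add (res_sub_sq_psd hX)
      refine ⟨?_, ?_⟩ <;> rw [hs, one_smul] <;> exact h
    have b2 : OB 4 ((2 : ℝ) • (1 : Matrix Q Q ℝ) - A) := by
      have hs : ((2 : ℝ) • (1 : Matrix Q Q ℝ) - A)ᵀ = (2 : ℝ) • (1 : Matrix Q Q ℝ) - A := by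
        rw [transpose_sub, transpose_smul, transpose_one, res_symm hX]
      have e : (4 : ℝ) • (1 : Matrix Q Q ℝ) - ((2 : ℝ) • (1 : Matrix Q Q ℝ) - A)
          * ((2 : ℝ) • (1 : Matrix Q Q ℝ) - A) = (3 : ℝ) • A + (A - A * A) := by
        simp only [Matrix.sub_mul, Matrix.mul_sub, Matrix.smul_mul, Matrix.mul_smul,
          Matrix.one_mul, Matrix.mul_one]
        module
      have hp : ((3 : ℝ) • A + (A - A * A)).PosSemidef :=
        ((res_psd hX).smul (by norm_num)).add (res_sub_sq_psd hX)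
      refine ⟨?_, ?_⟩ <;> rw [hs, e] <;> exact hp
    have := (b1.mul zero_le_one (by norm_num) b2).hs_right a
    rw [← e1] at this
    linarith

end

end Vale.Agent.P141.PL.H48
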