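import Vale.Agent.P141.PL.H48.Op

/-!
# P141: the trilinear trace form with three different vertex spaces, pointwise estimates
-/

namespace Vale.Agent.P141.PL.H48

set_option linter.unusedSectionVars false

open Matrix Vale.Agent.P075

noncomputable section

variable {P Q R' : Type} [Fintype P] [DecidableEq P] [Fintype Q] [DecidableEq Q]
  [Fintype R'] [DecidableEq R']

/-- core estimate: `E0` bounded, `E1`, `E2` Hilbert-Schmidt -/
theorem core {K L M : ℝ} (hK : 0 ≤ K) (hL : 0 ≤ L) (hM : 0 ≤ M) {E0 : Matrix P P ℝ}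
    (h0 : OB 1 E0) {U : Matrix P Q ℝ} (hU : OB K U) (E1 : Matrix Q Q ℝ) {V : Matrix Q R' ℝ}
    (hV : OB L V) (E2 : Matrix R' R' ℝ) {W : Matrix R' P ℝ} (hW : OB M W) :
    (E0 * U * E1 * V * E2 * W).trace ^ 2 ≤ (K * L * M) * hs E1 * hs E2 := by
  have e : (E0 * U * E1 * V * E2 * W).trace = ((W * E0 * U * E1) * (V * E2)).trace := by
    rw [trace_mul_comm (E0 * U * E1 * V * E2) W]
    congr 1
    simp only [Matrix.mul_assoc]
  rw [e]
  refine (trace_sq_le_hs _ _).trans ?_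
  have h1 : OB (M * 1 * K) (W * E0 * U) :=
    (hW.mul hM zero_le_one h0).mul (by positivity) hK hU
  have h2 := h1.hs_left E1
  have h3 := hV.hs_left E2
  have n1 := hs_nonneg E1
  have n2 := hs_nonneg E2
  calc hs (W * E0 * U * E1) * hs (V * E2) ≤ (M * 1 * K * hs E1) * (L * hs E2) :=
        mul_le_mul h2 h3 (hs_nonneg _) (by positivity)
    _ = (K * L * M) * hs E1 * hs E2 := by ring

/-- the trilinear form: vertices `P`, `Q`, `R'`, signs `r0`, `r1`, `r2`, edges `a : P-Q`,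
`b : Q-R'`, `c : P-R'` -/
def TF (r0 : Matrix P P ℝ) (r1 : Matrix Q Q ℝ) (r2 : Matrix R' R' ℝ) (a : Matrix P Q ℝ)
    (b : Matrix Q R' ℝ) (c : Matrix P R' ℝ) : ℝ := (r0 * a * r1 * b * r2 * cᵀ).trace

/-- the density of a vertex with reflection `r` -/
def vd (X Y r : Matrix P P ℝ) : ℝ := (phi X * (r * phi Y * r)).trace

theorem vd_nonneg {X Y r : Matrix P P ℝ} (hX : X.PosSemidef) (hY : Y.PosSemidef) (hr : rᵀ = r) :
    0 ≤ vd X Y r :=
  trace_mul_nonneg (phi_psd hX) (psd_conj_symm (phi_psd hY) hr)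

theorem vd_comm {X Y r : Matrix P P ℝ} : vd X Y r = vd Y X r := by
  rw [vd, vd, trace_mul_comm, Matrix.mul_assoc, Matrix.mul_assoc, trace_mul_comm]
  congr 1
  simp only [Matrix.mul_assoc]

/-- Hilbert-Schmidt norm of a vertex operator -/
theorem hs_vertex {X Y r : Matrix P P ℝ} (hX : X.PosSemidef) (hY : Y.PosSemidef) (hr : rᵀ = r) :
    hs (phi X * r * phi Y) ≤ vd X Y r := by
  have e : hs (phi X * r * phi Y) = ((phi X * phi X) * (r * (phi Y * phi Y) * r)).trace := by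
    rw [hs, transpose_mul, transpose_mul, hr, phi_symm hX, phi_symm hY]
    rw [show phi X * r * phi Y * (phi Y * (r * phi X)) = phi X * (r * (phi Y * phi Y) * r * phi X) by
      simp only [Matrix.mul_assoc], trace_mul_comm]
    rw [Matrix.mul_assoc, trace_mul_comm]
  rw [e, vd]
  have p1 : (r * (phi Y * phi Y) * r).PosSemidef := psd_conj_symm (psd_sq (phi_symm hY)) hr
  have h1 := trace_mul_le_left p1 (phi_sub_sq_psd hX)
  have p2 : (r * phi Y * r - r * (phi Y * phi Y) * r).PosSemidef := by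
    have := psd_conj_symm (phi_sub_sq_psd hY) hr
    rwa [Matrix.mul_sub, Matrix.sub_mul] at this
  have h2 := trace_mul_le_right (phi_psd hX) p2
  linarith

theorem ob_vertex {X Y r : Matrix P P ℝ} (hX : X.PosSemidef) (hY : Y.PosSemidef) (hr : rᵀ = r)
    (hr2 : r * r = 1) : OB 1 (phi X * r * phi Y) := by
  have := ((ob_phi hX).mul zero_le_one zero_le_one (ob_refl hr hr2)).mul (by norm_num)
    zero_le_one (ob_phi hY)
  simpa using this

section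

variable {r0 : Matrix P P ℝ} {r1 : Matrix Q Q ℝ} {r2 : Matrix R' R' ℝ}
  {a pa : Matrix P Q ℝ} {b pb : Matrix Q R' ℝ} {c pc : Matrix P R' ℝ}
  {κ μ ν K L M : ℝ}

/-- vertices 1 and 2 -/
theorem tf_12 (hr0 : r0ᵀ = r0) (hr0' : r0 * r0 = 1) (hr1 : r1ᵀ = r1) (hr2 : r2ᵀ = r2)
    (hκ : 0 ≤ κ) (hμ : 0 ≤ μ) (hν : 0 ≤ ν) (hK : 0 ≤ K) (hL : 0 ≤ L) (hM : 0 ≤ M)
    (ha : Fac κ K a pa) (hb : Fac μ L b pb) (hc : Fac ν M c pc) :
    TF r0 r1 r2 pa pb pc ^ 2 ≤ (K * L * M) * vd (XC κ a) (XR μ b) r1 * vd (XC μ b) (XC ν c) r2 := by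
  obtain ⟨m, rfl, hm⟩ := ha
  obtain ⟨n, rfl, hn⟩ := hb
  obtain ⟨l, rfl, hl⟩ := hc
  have e : TF r0 r1 r2 (phi (XR κ a) * m * phi (XC κ a)) (phi (XR μ b) * n * phi (XC μ b))
      (phi (XR ν c) * l * phi (XC ν c))
      = ((phi (XR ν c) * r0 * phi (XR κ a)) * m * (phi (XC κ a) * r1 * phi (XR μ b)) * n
        * (phi (XC μ b) * r2 * phi (XC ν c)) * lᵀ).trace := by
    rw [TF, transpose_mul, transpose_mul, phi_symm (XC_psd hν c), phi_symm (XR_psd hν c)]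
    rw [show r0 * (phi (XR κ a) * m * phi (XC κ a)) * r1 * (phi (XR μ b) * n * phi (XC μ b)) * r2
        * (phi (XC ν c) * (lᵀ * phi (XR ν c)))
        = (r0 * phi (XR κ a) * m * phi (XC κ a) * r1 * phi (XR μ b) * n * phi (XC μ b) * r2
        * phi (XC ν c) * lᵀ) * phi (XR ν c) by simp only [Matrix.mul_assoc], trace_mul_comm]
    congr 1
    simp only [Matrix.mul_assoc]
  rw [e]
  refine (core hK hL hM (ob_vertex (XR_psd hν c) (XR_psd hκ a) hr0 hr0') hm _ hn _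
    hl.transpose).trans ?_
  have h1 := hs_vertex (XC_psd hκ a) (XR_psd hμ b) hr1
  have h2 := hs_vertex (XC_psd hμ b) (XC_psd hν c) hr2
  have n1 := hs_nonneg (phi (XC κ a) * r1 * phi (XR μ b))
  have n2 := hs_nonneg (phi (XC μ b) * r2 * phi (XC ν c))
  exact mul_le_mul (mul_le_mul_of_nonneg_left h1 (by positivity)) h2 n2
    (mul_nonneg (by positivity) (n1.trans h1))

/-- cyclic symmetry -/
theorem TF_cyc (hr0 : r0ᵀ = r0) (hr1 : r1ᵀ = r1) (hr2 : r2ᵀ = r2) :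
    TF r0 r1 r2 a b c = TF r1 r2 r0 b cᵀ aᵀ := by
  rw [TF, TF, transpose_transpose]
  rw [show r0 * a * r1 * b * r2 * cᵀ = (r0 * a) * (r1 * b * r2 * cᵀ) by
    simp only [Matrix.mul_assoc], trace_mul_comm]
  congr 1
  simp only [Matrix.mul_assoc]

theorem Fac.transpose (hκ : 0 ≤ κ) (ha : Fac κ K a pa) : Fac κ K aᵀ paᵀ := by
  obtain ⟨m, rfl, hm⟩ := ha
  refine ⟨mᵀ, ?_, hm.transpose⟩
  rw [transpose_mul, transpose_mul, phi_symm (XC_psd hκ a), phi_symm (XR_psd hκ a)]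
  rw [XC_transpose]
  have : XR κ aᵀ = XC κ a := by rw [XR, XC, transpose_transpose]
  rw [this, Matrix.mul_assoc]

/-- vertices 2 and 0 -/
theorem tf_20 (hr0 : r0ᵀ = r0) (hr1 : r1ᵀ = r1) (hr1' : r1 * r1 = 1) (hr2 : r2ᵀ = r2)
    (hκ : 0 ≤ κ) (hμ : 0 ≤ μ) (hν : 0 ≤ ν) (hK : 0 ≤ K) (hL : 0 ≤ L) (hM : 0 ≤ M)
    (ha : Fac κ K a pa) (hb : Fac μ L b pb) (hc : Fac ν M c pc) :
    TF r0 r1 r2 pa pb pc ^ 2 ≤ (K * L * M) * vd (XC μ b) (XC ν c) r2 * vd (XR κ a) (XR ν c) r0 := by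
  rw [TF_cyc hr0 hr1 hr2]
  have h := tf_12 (r0 := r1) (r1 := r2) (r2 := r0) hr1 hr1' hr2 hr0 hμ hν hκ hL hM hK hb
    (hc.transpose hν) (ha.transpose hκ)
  rw [XC_transpose, XC_transpose] at h
  have e : XR ν cᵀ = XC ν c := by rw [XR, XC, transpose_transpose]
  rw [e] at h
  calc _ ≤ _ := h
    _ = _ := by rw [vd_comm (X := XR ν c)]; ring

/-- vertices 0 and 1 -/
theorem tf_01 (hr0 : r0ᵀ = r0) (hr1 : r1ᵀ = r1) (hr2 : r2ᵀ = r2) (hr2' : r2 * r2 = 1)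
    (hκ : 0 ≤ κ) (hμ : 0 ≤ μ) (hν : 0 ≤ ν) (hK : 0 ≤ K) (hL : 0 ≤ L) (hM : 0 ≤ M)
    (ha : Fac κ K a pa) (hb : Fac μ L b pb) (hc : Fac ν M c pc) :
    TF r0 r1 r2 pa pb pc ^ 2 ≤ (K * L * M) * vd (XR κ a) (XR ν c) r0 * vd (XC κ a) (XR μ b) r1 := by
  rw [TF_cyc hr0 hr1 hr2, TF_cyc hr1 hr2 hr0, transpose_transpose]
  have h := tf_12 (r0 := r2) (r1 := r0) (r2 := r1) hr2 hr2' hr0 hr1 hν hκ hμ hM hK hL
    (hc.transpose hν) ha (hb.transpose hμ)
  rw [XC_transpose, XC_transpose] at h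
  calc _ ≤ _ := h
    _ = _ := by rw [vd_comm (X := XR ν c)]; ring

end

end

end Vale.Agent.P141.PL.H48
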