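import Vale.Agent.P141.PL.H48.GAsm
import Vale.Agent.P141.PL.H48.Tri

/-!
# P141: vertex densities of labelled Gram families, sums over all boxes
-/

namespace Vale.Agent.P141.PL.H48

set_option linter.unusedSectionVars false

open Finset Matrix Vale.Agent.P075 Vale.Agent.P141.PL

noncomputable section

/-! ### monotonicity of `φ` -/

section

variable {P : Type} [Fintype P] [DecidableEq P]

/-- `φ` is operator monotone -/
theorem phi_mono {X Y : Matrix P P ℝ} (hX : X.PosSemidef) (h : (Y - X).PosSemidef) :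
    (phi Y - phi X).PosSemidef := by
  have h1 := res_anti hX h
  have e : X + (Y - X) = Y := by abel
  rw [e] at h1
  have e2 : phi Y - phi X = res X - res Y := by rw [phi, phi]; abel
  rwa [e2]

/-- `φ(κX) ≤ (κ/κ') φ(κ'X)` for `κ' ≤ κ` -/
theorem phi_scale {X : Matrix P P ℝ} (hX : X.PosSemidef) {κ κ' : ℝ} (hκ' : 0 < κ') (h : κ' ≤ κ) :
    ((κ / κ') • phi (κ' • X) - phi (κ • X)).PosSemidef := by
  have hκ : 0 < κ := lt_of_lt_of_le hκ' h
  obtain ⟨B, hB, rfl⟩ := exists_sq hX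
  have hBs := psd_isSymm hB
  have key : ∀ {t : ℝ}, 0 < t → phi (t • (B * B)) = t • (B * res (t • (B * B)) * B) := by
    intro t ht
    have h1 := push_res ht.le B
    have e1 : XC t B = t • (B * B) := by rw [XC, hBs]
    have e2 : XR t B = t • (B * B) := by rw [XR, hBs]
    rw [e1, e2] at h1
    have h2 : res (t • (B * B)) * (t • (B * B)) = phi (t • (B * B)) :=
      res_mul_phi (X := t • (B * B)) ((psd_sq hBs).smul ht.le)
    rw [← h2, Matrix.mul_smul, ← Matrix.mul_assoc, ← h1]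
  rw [key hκ', key hκ, smul_smul, div_mul_cancel₀ _ hκ'.ne', ← smul_sub]
  have e : B * res (κ' • (B * B)) * B - B * res (κ • (B * B)) * B
      = B * (res (κ' • (B * B)) - res (κ • (B * B))) * B := by
    rw [Matrix.mul_sub, Matrix.sub_mul]
  rw [e]
  refine (psd_conj_symm ?_ hBs).smul hκ.le
  have h3 := res_anti (X := κ' • (B * B)) (E := (κ - κ') • (B * B)) ((psd_sq hBs).smul hκ'.le)
    ((psd_sq hBs).smul (sub_nonneg.mpr h))
  have e3 : κ' • (B * B) + (κ - κ') • (B * B) = κ • (B * B) := by module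
  rwa [e3] at h3

/-- monotonicity of the vertex density -/
theorem vd_mono {X X' Y Y' r : Matrix P P ℝ} (hX : X.PosSemidef) (hY : Y.PosSemidef)
    (h : (X' - X).PosSemidef) (h' : (Y' - Y).PosSemidef) (hr : rᵀ = r) :
    vd X Y r ≤ vd X' Y' r := by
  have hX' : X'.PosSemidef := by
    have := hX.add h
    have e : X + (X' - X) = X' := by abel
    rwa [e] at this
  have h1 := trace_mul_le_left (psd_conj_symm (phi_psd hY) hr) (phi_mono hX h)
  have h2 : (phi X' * (r * phi Y * r)).trace ≤ (phi X' * (r * phi Y' * r)).trace := by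
    refine trace_mul_le_right (phi_psd hX') ?_
    have := psd_conj_symm (phi_mono hY h') hr
    rwa [Matrix.mul_sub, Matrix.sub_mul] at this
  exact h1.trans h2

/-- scaling of the vertex density -/
theorem vd_scale {X Y r : Matrix P P ℝ} (hX : X.PosSemidef) (hY : Y.PosSemidef) (hr : rᵀ = r)
    {κ κ' μ μ' : ℝ} (hκ' : 0 < κ') (hκ : κ' ≤ κ) (hμ' : 0 < μ') (hμ : μ' ≤ μ) :
    vd (κ • X) (μ • Y) r ≤ (κ / κ') * (μ / μ') * vd (κ' • X) (μ' • Y) r := by
  have hκ0 : 0 < κ := lt_of_lt_of_le hκ' hκ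
  have hμ0 : 0 < μ := lt_of_lt_of_le hμ' hμ
  have pY : (phi (μ • Y)).PosSemidef := phi_psd (hY.smul hμ0.le)
  have h1 := trace_mul_le_left (psd_conj_symm pY hr) (phi_scale hX hκ' hκ)
  have pX : (phi (κ' • X)).PosSemidef := phi_psd (hX.smul hκ'.le)
  have h2 : (phi (κ' • X) * (r * phi (μ • Y) * r)).trace
      ≤ (phi (κ' • X) * (r * ((μ / μ') • phi (μ' • Y)) * r)).trace := by
    refine trace_mul_le_right pX ?_
    have := psd_conj_symm (phi_scale hY hμ' hμ) hr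
    rwa [Matrix.mul_sub, Matrix.sub_mul] at this
  rw [Matrix.smul_mul, trace_smul, smul_eq_mul] at h1
  rw [Matrix.mul_smul, Matrix.smul_mul, Matrix.mul_smul, trace_smul, smul_eq_mul] at h2
  unfold vd
  have h3 : 0 ≤ κ / κ' := by positivity
  calc _ ≤ _ := h1
    _ ≤ (κ / κ') * ((μ / μ') * (phi (κ' • X) * (r * phi (μ' • Y) * r)).trace) :=
        mul_le_mul_of_nonneg_left h2 h3
    _ = _ := by ring

/-- `G(X) ≤ tr X²` -/
theorem GX_le_sq {X : Matrix P P ℝ} (hX : X.PosSemidef) : GX X ≤ (X * X).trace := by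
  have h1 := det_le_exp (res_psd hX)
  have h2 := Real.log_le_log (res_posDef hX).det_pos h1
  rw [Real.log_exp, log_det_res hX] at h2
  -- `tr X + tr res X - n = tr (X φ(X))`
  have e1 : X * phi X = X - phi X := by
    rw [phi, Matrix.mul_sub, Matrix.mul_one, mul_res hX]
  have e2 : (X * phi X).trace = X.trace + (res X).trace - (Fintype.card P : ℝ) := by
    rw [e1, phi, trace_sub, trace_sub, trace_one]; ring
  have h3 : GX X ≤ (X * phi X).trace := by
    rw [e2, GX]; linarith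
  have h4 : (X * phi X).trace ≤ (X * X).trace := by
    refine trace_mul_le_right hX ?_
    have e : X - phi X = X * phi X := e1.symm
    obtain ⟨B, hB, hBB⟩ := exists_sq hX
    have h5 : X - phi X = X * res X * X := by
      rw [← e1, phi, mul_res hX]
      have : X * X - (X * (X * res X)) = X * X - X * (1 - res X) := by rw [mul_res hX]
      rw [Matrix.sub_mul, Matrix.one_mul, Matrix.mul_sub, Matrix.mul_one, mul_res hX, res_mul hX]
    rw [h5]
    exact psd_conj_symm (res_psd hX) (psd_isSymm hX)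
  linarith

end

/-! ### boxes of a plane -/

/-- triples of indices of scale `k` boxes on the plane `n0 + n1 + n2 = c` -/
def bx (N : ℕ) (R0 R1 R2 : ℤ) (k : ℕ) (c : ℤ) : Finset (ℤ × ℤ × ℤ) :=
  (iv (N - k) R0 ×ˢ iv (N - k) R1 ×ˢ iv (N - k) R2).filter fun p => p.1 + p.2.1 + p.2.2 = c

theorem mem_bx {N : ℕ} {R0 R1 R2 : ℤ} {k : ℕ} {c : ℤ} {p : ℤ × ℤ × ℤ} :
    p ∈ bx N R0 R1 R2 k c ↔ (p.1 ∈ iv (N - k) R0 ∧ p.2.1 ∈ iv (N - k) R1 ∧ p.2.2 ∈ iv (N - k) R2)
      ∧ p.1 + p.2.1 + p.2.2 = c := by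
  unfold bx
  rw [mem_filter, mem_product, mem_product]

/-- sum over the boxes with the middle index outside -/
theorem sum_bx (N : ℕ) (R0 R1 R2 : ℤ) (k : ℕ) (c : ℤ) (f : ℤ × ℤ × ℤ → ℝ) :
    ∑ p ∈ bx N R0 R1 R2 k c, f p = ∑ m ∈ iv (N - k) R1, ∑ n ∈ iv (N - k) R0,
      if c - m - n ∈ iv (N - k) R2 then f (n, m, c - m - n) else 0 := by
  have h1 : ∑ m ∈ iv (N - k) R1, ∑ n ∈ iv (N - k) R0,
      (if c - m - n ∈ iv (N - k) R2 then f (n, m, c - m - n) else 0)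
      = ∑ q ∈ (iv (N - k) R1 ×ˢ iv (N - k) R0).filter
        (fun q => c - q.1 - q.2 ∈ iv (N - k) R2), f (q.2, q.1, c - q.1 - q.2) := by
    rw [sum_filter, sum_product]
  rw [h1]
  symm
  refine sum_nbij (fun q => (q.2, q.1, c - q.1 - q.2)) ?_ ?_ ?_ (fun _ _ => rfl)
  · intro q hq
    rw [mem_filter, mem_product] at hq
    rw [mem_bx]
    exact ⟨⟨hq.1.2, hq.1.1, hq.2⟩, by simp only; ring⟩
  · intro q _ q' _ h
    simp only [Prod.mk.injEq] at h
    exact Prod.ext h.2.1 h.1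
  · intro p hp
    have hp' := mem_bx.mp (mem_coe.mp hp)
    refine ⟨(p.2.1, p.1), ?_, ?_⟩
    · rw [mem_coe, mem_filter, mem_product]
      refine ⟨⟨hp'.1.2.1, hp'.1.1⟩, ?_⟩
      have : c - p.2.1 - p.1 = p.2.2 := by linarith [hp'.2]
      simp only [this]
      exact hp'.1.2.2
    · have : c - p.2.1 - p.1 = p.2.2 := by linarith [hp'.2]
      simp only [this]

/-- permutation of the coordinates of the boxes: `(0,1,2) → (1,2,0)` -/
theorem sum_bx_120 (N : ℕ) (R0 R1 R2 : ℤ) (k : ℕ) (c : ℤ) (f : ℤ × ℤ × ℤ → ℝ) :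
    ∑ p ∈ bx N R0 R1 R2 k c, f (p.2.1, p.2.2, p.1) = ∑ q ∈ bx N R1 R2 R0 k c, f q := by
  refine sum_nbij (fun p => (p.2.1, p.2.2, p.1)) ?_ ?_ ?_ (fun _ _ => rfl)
  · intro p hp
    rw [mem_bx] at hp ⊢
    exact ⟨⟨hp.1.2.1, hp.1.2.2, hp.1.1⟩, by simp only; linarith [hp.2]⟩
  · intro p _ p' _ h
    simp only [Prod.mk.injEq] at h
    exact Prod.ext h.2.2 (Prod.ext h.1 h.2.1)
  · intro q hq
    have hq' := mem_bx.mp (mem_coe.mp hq)
    refine ⟨(q.2.2, q.1, q.2.1), ?_, rfl⟩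
    rw [mem_coe, mem_bx]
    exact ⟨⟨hq'.1.2.2, hq'.1.1, hq'.1.2.1⟩, by simp only; linarith [hq'.2]⟩

/-- permutation of the coordinates of the boxes: `(0,1,2) → (1,0,2)` -/
theorem sum_bx_102 (N : ℕ) (R0 R1 R2 : ℤ) (k : ℕ) (c : ℤ) (f : ℤ × ℤ × ℤ → ℝ) :
    ∑ p ∈ bx N R0 R1 R2 k c, f (p.2.1, p.1, p.2.2) = ∑ q ∈ bx N R1 R0 R2 k c, f q := by
  refine sum_nbij (fun p => (p.2.1, p.1, p.2.2)) ?_ ?_ ?_ (fun _ _ => rfl)
  · intro p hp
    rw [mem_bx] at hp ⊢
    exact ⟨⟨hp.1.2.1, hp.1.1, hp.1.2.2⟩, by simp only; linarith [hp.2]⟩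
  · intro p _ p' _ h
    simp only [Prod.mk.injEq] at h
    exact Prod.ext h.2.1 (Prod.ext h.1 h.2.2)
  · intro q hq
    have hq' := mem_bx.mp (mem_coe.mp hq)
    refine ⟨(q.2.1, q.1, q.2.2), ?_, rfl⟩
    rw [mem_coe, mem_bx]
    exact ⟨⟨hq'.1.2.1, hq'.1.1, hq'.1.2.2⟩, by simp only; linarith [hq'.2]⟩

/-! ### energies -/

variable {J : Type} [Fintype J] [DecidableEq J]

theorem hd_symm (k : ℕ) : (hd J k)ᵀ = hd J k := by
  cases k with
  | zero => exact transpose_one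
  | succ k => exact rad_symm

theorem hd_sq (k : ℕ) : hd J k * hd J k = 1 := by
  cases k with
  | zero => exact Matrix.mul_one _
  | succ k => exact rad_sq

/-- `S₂` energy at scale `l` -/
def t1 (N : ℕ) (R S : ℤ) (l : ℕ) (A : GF J) : ℝ :=
  (2 : ℝ) ^ l * 2 ^ l * ∑ m ∈ iv (N - l) S, ∑ n ∈ iv (N - l) R, (A.X l l n m).trace

/-- `S₄` energy at scale `l` -/
def t2 (N : ℕ) (R S : ℤ) (l : ℕ) (A : GF J) : ℝ :=
  (2 : ℝ) ^ l * 2 ^ l * ∑ m ∈ iv (N - l) S, ∑ n ∈ iv (N - l) R, (A.X l l n m * A.X l l n m).trace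

theorem en_le_t1 (N : ℕ) (R S : ℤ) (l : ℕ) (A : GF J) {κ : ℝ} (hκ : 0 ≤ κ) :
    en N R S l l (A.smul κ hκ) ≤ κ * t1 N R S l A := by
  unfold en t1
  rw [mul_left_comm κ]
  refine mul_le_mul_of_nonneg_left ?_ (by positivity)
  rw [mul_sum]
  refine sum_le_sum fun m _ => ?_
  rw [mul_sum]
  refine sum_le_sum fun n _ => ?_
  have h := H588.GX_le_trace ((A.smul κ hκ).psd l l n m)
  rw [GF.smul_X, trace_smul, smul_eq_mul] at h
  exact h

theorem en_le_t2 (N : ℕ) (R S : ℤ) (l : ℕ) (A : GF J) {κ : ℝ} (hκ : 0 ≤ κ) :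
    en N R S l l (A.smul κ hκ) ≤ κ ^ 2 * t2 N R S l A := by
  unfold en t2
  rw [mul_left_comm (κ ^ 2)]
  refine mul_le_mul_of_nonneg_left ?_ (by positivity)
  rw [mul_sum]
  refine sum_le_sum fun m _ => ?_
  rw [mul_sum]
  refine sum_le_sum fun n _ => ?_
  have h := GX_le_sq ((A.smul κ hκ).psd l l n m)
  rw [GF.smul_X, Matrix.smul_mul, Matrix.mul_smul, trace_smul, trace_smul, smul_eq_mul,
    smul_eq_mul, ← mul_assoc, ← pow_two] at h
  exact h

theorem trace_row (A : GF J) (a b : ℕ) (n m : ℤ) :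
    2 * (A.X (a + 1) b n m).trace = (A.X a b (2 * n) m).trace + (A.X a b (2 * n + 1) m).trace := by
  rw [A.row, trace_smul, trace_add, smul_eq_mul]; ring

theorem trace_col (A : GF J) (a b : ℕ) (n m : ℤ) :
    2 * (A.X a (b + 1) n m).trace = (A.X a b n (2 * m)).trace + (A.X a b n (2 * m + 1)).trace := by
  have h := congrArg trace (Xs_split A a b n m)
  have htr : (rad (IL J b) * Xs A a b n m * rad (IL J b)).trace = (Xs A a b n m).trace := by
    rw [Matrix.mul_assoc, trace_mul_comm, Matrix.mul_assoc, rad_sq, Matrix.mul_one]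
  rw [trace_add, htr, trace_bd] at h
  have e : (A.X a (b + 1) n m).trace = (Xs A a b n m).trace := rfl
  rw [e]; linarith

theorem t1_succ {N l : ℕ} (h : l < N) (R S : ℤ) (A : GF J) :
    t1 N R S (l + 1) A = t1 N R S l A := by
  have e : N - l = (N - (l + 1)) + 1 := by omega
  unfold t1
  rw [e, H588.sum_iv_succ]
  simp only [H588.sum_iv_succ]
  rw [show (2 : ℝ) ^ (l + 1) * 2 ^ (l + 1) = 2 ^ l * 2 ^ l * 4 by ring, mul_assoc]
  congr 1
  rw [mul_sum]
  refine sum_congr rfl fun m _ => ?_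
  rw [mul_sum, ← sum_add_distrib]
  refine sum_congr rfl fun n _ => ?_
  have h1 := trace_col A (l + 1) l n m
  have h2 := trace_row A l l n (2 * m)
  have h3 := trace_row A l l n (2 * m + 1)
  linarith

theorem t1_const {N l l' : ℕ} (h : l ≤ l') (h' : l' ≤ N) (R S : ℤ) (A : GF J) :
    t1 N R S l' A = t1 N R S l A := by
  induction l', h using Nat.le_induction with
  | base => rfl
  | succ k hk ih => rw [t1_succ (by omega), ih (by omega)]

theorem t1_nonneg (N : ℕ) (R S : ℤ) (l : ℕ) (A : GF J) : 0 ≤ t1 N R S l A :=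
  mul_nonneg (by positivity) (sum_nonneg fun _ _ => sum_nonneg fun _ _ => (A.psd ..).trace_nonneg)

/-- the main term as a sum over boxes -/
theorem mnk_eq_bx (N : ℕ) (R S T : ℤ) (k : ℕ) (c : ℤ) (A B : GF J) :
    mnk N R S T k c A B = (4 : ℝ) ^ k * ∑ p ∈ bx N R S T k c,
      vd (A.X k k p.1 p.2.1) (B.X k k p.2.2 p.2.1) (hd J k) := by
  rw [sum_bx]
  rfl

/-- **Vertex sum.** All densities with weights `κ`, `μ` are bounded by the leaf energies with
smaller weights `κ'`, `μ'`. -/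
theorem vertex_sum {N l : ℕ} (hl : l ≤ N) (R S T : ℤ) {c : ℕ → ℤ} (hc : H588.Pl c) (A B : GF J)
    {κ κ' μ μ' : ℝ} (hκ' : 0 < κ') (hκ : κ' ≤ κ) (hμ' : 0 < μ') (hμ : μ' ≤ μ) :
    ∑ k ∈ Icc (l + 1) N, (4 : ℝ) ^ k * ∑ p ∈ bx N R S T k (c k),
      vd (κ • A.X k k p.1 p.2.1) (μ • B.X k k p.2.2 p.2.1) (hd J k)
      ≤ (κ / κ') * (μ / μ') * (544 * (en N R S l l (A.smul κ' hκ'.le)
        + en N T S l l (B.smul μ' hμ'.le))) := by
  have hκ0 : 0 < κ := lt_of_lt_of_le hκ' hκ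
  have hμ0 : 0 < μ := lt_of_lt_of_le hμ' hμ
  have h1 := pair hl R S T hc (A.smul κ' hκ'.le) (B.smul μ' hμ'.le)
  have h2 : ∑ k ∈ Icc (l + 1) N, (4 : ℝ) ^ k * ∑ p ∈ bx N R S T k (c k),
      vd (κ • A.X k k p.1 p.2.1) (μ • B.X k k p.2.2 p.2.1) (hd J k)
      ≤ (κ / κ') * (μ / μ') * ∑ k ∈ Icc (l + 1) N,
        mnk N R S T k (c k) (A.smul κ' hκ'.le) (B.smul μ' hμ'.le) := by
    rw [mul_sum]
    refine sum_le_sum fun k _ => ?_
    rw [mnk_eq_bx, mul_left_comm]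
    refine mul_le_mul_of_nonneg_left ?_ (by positivity)
    rw [mul_sum]
    refine sum_le_sum fun p _ => ?_
    exact vd_scale (A.psd ..) (B.psd ..) (hd_symm k) hκ' hκ hμ' hμ
  exact h2.trans (mul_le_mul_of_nonneg_left h1 (by positivity))

end

end Vale.Agent.P141.PL.H48
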