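import Vale.Agent.P141.PL.H48.GShift
import Vale.Agent.P141.PL.H588.Asm

/-!
# P141: Gram families with labels, the functional and the pair theorem
-/

namespace Vale.Agent.P141.PL.H48

open Finset Matrix Vale.Agent.P075 Vale.Agent.P141.PL

noncomputable section

variable {J : Type} [Fintype J] [DecidableEq J]

/-- Mixed energy at scale `k` on the plane `n + m + n' = c`. Outer roots `R` (of `A`), `T` (of
`B`), middle root `S`. -/
def Mk (N : ℕ) (R S T : ℤ) (k : ℕ) (c : ℤ) (A B : GF J) : ℝ :=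
  (4 : ℝ) ^ k * ∑ m ∈ iv (N - k) S, ∑ n ∈ iv (N - k) R,
    if c - m - n ∈ iv (N - k) T then
      (phi (A.X k k n m) * phi (B.X k k (c - m - n) m)).trace else 0

/-- Main term at scale `k` on the plane `n + m + n' = c`. -/
def mnk (N : ℕ) (R S T : ℤ) (k : ℕ) (c : ℤ) (A B : GF J) : ℝ :=
  (4 : ℝ) ^ k * ∑ m ∈ iv (N - k) S, ∑ n ∈ iv (N - k) R,
    if c - m - n ∈ iv (N - k) T then
      (phi (A.X k k n m) * (hd J k * phi (B.X k k (c - m - n) m) * hd J k)).trace else 0

theorem Mk_eq (N : ℕ) (R S T : ℤ) (k : ℕ) (c : ℤ) (A B : GF J) :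
    Mk N R S T k c A B = (4 : ℝ) ^ k * ∑ m ∈ iv (N - k) S, al N R T k A B m (c - m) := rfl

/-- one term of the split at a fixed middle index: outer variables with opposite pairing -/
theorem al_split {N k : ℕ} (h : k < N) (R T : ℤ) (A B : GF J) (m s : ℤ) :
    ∑ n ∈ iv (N - (k + 1)) R, (if s - n ∈ iv (N - (k + 1)) T then
      mx k k A B (2 * n) (2 * (s - n) + 1) m + mx k k A B (2 * n + 1) (2 * (s - n)) m else 0)
      = al N R T k A B m (2 * s + 1) := by
  have e : N - k = (N - (k + 1)) + 1 := by omega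
  unfold al
  rw [e, H588.sum_iv_succ]
  refine sum_congr rfl fun n _ => ?_
  have e1 : 2 * s + 1 - 2 * n = 2 * (s - n) + 1 := by ring
  have e2 : 2 * s + 1 - (2 * n + 1) = 2 * (s - n) := by ring
  rw [e1, e2]
  simp only [H588.mem_iv_double, H588.mem_iv_double']
  split_ifs
  · rfl
  · simp

theorem mnk_eq (N : ℕ) (R S T : ℤ) (k : ℕ) (c : ℤ) (A B : GF J) :
    mnk N R S T (k + 1) c A B = (4 : ℝ) ^ (k + 1) * ∑ m ∈ iv (N - (k + 1)) S,
      ∑ n ∈ iv (N - (k + 1)) R, if c - m - n ∈ iv (N - (k + 1)) T then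
        md k A B n (c - m - n) m else 0 := rfl

theorem split {N k : ℕ} (h : k < N) (R S T : ℤ) (c : ℤ) (A B : GF J) :
    Mk N R S T (k + 1) c A B + (1 / 2) * mnk N R S T (k + 1) c A B
      ≤ (4 : ℝ) ^ k * ∑ m ∈ iv (N - k) S, al N R T k A B m (2 * (c - m / 2) + 1)
        + 14 * (en N R S k k A - en N R S (k + 1) (k + 1) A
          + (en N T S k k B - en N T S (k + 1) (k + 1) B)) := by
  -- pointwise inequality on a box
  have hbox : ∀ n n' m : ℤ, mx (k + 1) (k + 1) A B n n' m + (1 / 2) * md k A B n n' m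
      ≤ (1 / 4) * ((mx k k A B (2 * n) (2 * n' + 1) (2 * m) + mx k k A B (2 * n + 1) (2 * n') (2 * m))
        + (mx k k A B (2 * n) (2 * n' + 1) (2 * m + 1)
          + mx k k A B (2 * n + 1) (2 * n') (2 * m + 1)))
        + ((3 / 4) * (dl k k A n (2 * m) + dl k k A n (2 * m + 1)) + 7 * cd (k + 1) k A n m)
        + ((3 / 4) * (dl k k B n' (2 * m) + dl k k B n' (2 * m + 1)) + 7 * cd (k + 1) k B n' m) := by
    intro n n' m
    have h1 := y_pt k A B n n' m
    have h2 := xz_pt k k A B n n' (2 * m)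
    have h3 := xz_pt k k A B n n' (2 * m + 1)
    linarith
  -- the two error densities
  set dF : ℤ → ℤ → ℝ := fun n m => (3 / 4) * (dl k k A n (2 * m) + dl k k A n (2 * m + 1))
    + 7 * cd (k + 1) k A n m with hdF
  set dH : ℤ → ℤ → ℝ := fun n m => (3 / 4) * (dl k k B n (2 * m) + dl k k B n (2 * m + 1))
    + 7 * cd (k + 1) k B n m with hdH
  have hF0 : ∀ n m, 0 ≤ dF n m := fun n m => by
    have := dl_nonneg k k A n (2 * m)
    have := dl_nonneg k k A n (2 * m + 1)
    have := cd_nonneg (k + 1) k A n m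
    simp only [hdF]; positivity
  have hH0 : ∀ n m, 0 ≤ dH n m := fun n m => by
    have := dl_nonneg k k B n (2 * m)
    have := dl_nonneg k k B n (2 * m + 1)
    have := cd_nonneg (k + 1) k B n m
    simp only [hdH]; positivity
  -- bound of the error sums by the energies
  have herr : ∀ (R' : ℤ) (G : GF J), (4 : ℝ) ^ (k + 1) * ∑ m ∈ iv (N - (k + 1)) S,
      ∑ n ∈ iv (N - (k + 1)) R', ((3 / 4) * (dl k k G n (2 * m) + dl k k G n (2 * m + 1))
        + 7 * cd (k + 1) k G n m) ≤ 14 * (en N R' S k k G - en N R' S (k + 1) (k + 1) G) := by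
    intro R' G
    have r := row_en h R' S k G
    have q := col_en h R' S (k + 1) G
    have c0 := CD_nonneg N R' S (k + 1) k G
    have d0 := DL_nonneg N R' S k k G
    have e : N - k = (N - (k + 1)) + 1 := by omega
    have h4 : (4 : ℝ) ^ (k + 1) = 4 * (2 ^ k * 2 ^ k) := by
      rw [pow_succ, ← mul_pow]; norm_num; ring
    have hL : (4 : ℝ) ^ (k + 1) * ∑ m ∈ iv (N - (k + 1)) S,
      ∑ n ∈ iv (N - (k + 1)) R', ((3 / 4) * (dl k k G n (2 * m) + dl k k G n (2 * m + 1))
        + 7 * cd (k + 1) k G n m) = 3 * DL N R' S k k G + 14 * CD N R' S (k + 1) k G := by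
      unfold DL CD
      rw [e, H588.sum_iv_succ _ _ (fun m => ∑ n ∈ iv (N - (k + 1)) R', dl k k G n m), h4]
      simp only [sum_add_distrib, ← mul_sum]
      ring
    rw [hL]
    linarith
  have e : N - k = (N - (k + 1)) + 1 := by omega
  have h4 : (4 : ℝ) ^ (k + 1) = 4 * 4 ^ k := by rw [pow_succ]; ring
  -- main computation
  have hM : Mk N R S T (k + 1) c A B + (1 / 2) * mnk N R S T (k + 1) c A B
      = (4 : ℝ) ^ (k + 1) * ∑ m ∈ iv (N - (k + 1)) S, ∑ n ∈ iv (N - (k + 1)) R,
        if c - m - n ∈ iv (N - (k + 1)) T then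
          mx (k + 1) (k + 1) A B n (c - m - n) m + (1 / 2) * md k A B n (c - m - n) m else 0 := by
    rw [mnk_eq, Mk]
    rw [← mul_assoc, mul_comm (1 / 2 : ℝ), mul_assoc, ← mul_add, mul_sum, ← sum_add_distrib]
    congr 1
    refine sum_congr rfl fun m _ => ?_
    rw [mul_sum, ← sum_add_distrib]
    refine sum_congr rfl fun n _ => ?_
    split_ifs
    · rfl
    · simp
  have hA : (4 : ℝ) ^ k * ∑ m ∈ iv (N - k) S, al N R T k A B m (2 * (c - m / 2) + 1)
      = (4 : ℝ) ^ (k + 1) * ∑ m ∈ iv (N - (k + 1)) S, ∑ n ∈ iv (N - (k + 1)) R,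
        if c - m - n ∈ iv (N - (k + 1)) T then (1 / 4) *
          ((mx k k A B (2 * n) (2 * (c - m - n) + 1) (2 * m)
            + mx k k A B (2 * n + 1) (2 * (c - m - n)) (2 * m))
          + (mx k k A B (2 * n) (2 * (c - m - n) + 1) (2 * m + 1)
            + mx k k A B (2 * n + 1) (2 * (c - m - n)) (2 * m + 1))) else 0 := by
    rw [e, H588.sum_iv_succ, h4, mul_assoc, mul_comm (4 : ℝ), mul_assoc]
    congr 1
    rw [sum_mul]
    refine sum_congr rfl fun m _ => ?_
    have e1 : 2 * m / 2 = m := by omega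
    have e2 : (2 * m + 1) / 2 = m := by omega
    rw [e1, e2, ← al_split h, ← al_split h, ← sum_add_distrib, sum_mul]
    refine sum_congr rfl fun n _ => ?_
    split_ifs
    · ring
    · simp
  rw [hM, hA]
  have hsum : ∑ m ∈ iv (N - (k + 1)) S, ∑ n ∈ iv (N - (k + 1)) R,
        (if c - m - n ∈ iv (N - (k + 1)) T then
          mx (k + 1) (k + 1) A B n (c - m - n) m + (1 / 2) * md k A B n (c - m - n) m else 0)
      ≤ (∑ m ∈ iv (N - (k + 1)) S, ∑ n ∈ iv (N - (k + 1)) R,
        if c - m - n ∈ iv (N - (k + 1)) T then (1 / 4) *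
          ((mx k k A B (2 * n) (2 * (c - m - n) + 1) (2 * m)
            + mx k k A B (2 * n + 1) (2 * (c - m - n)) (2 * m))
          + (mx k k A B (2 * n) (2 * (c - m - n) + 1) (2 * m + 1)
            + mx k k A B (2 * n + 1) (2 * (c - m - n)) (2 * m + 1))) else 0)
        + (∑ m ∈ iv (N - (k + 1)) S, ∑ n ∈ iv (N - (k + 1)) R, dF n m)
        + ∑ m ∈ iv (N - (k + 1)) S, ∑ n ∈ iv (N - (k + 1)) T, dH n m := by
    rw [← sum_add_distrib, ← sum_add_distrib]
    refine sum_le_sum fun m _ => ?_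
    have h5 := H588.sum_refl_le (N - (k + 1)) R T (c - m) (fun n => dH n m) (fun n => hH0 n m)
    refine le_trans ?_ (add_le_add_right h5 _)
    rw [← sum_add_distrib, ← sum_add_distrib]
    refine sum_le_sum fun n _ => ?_
    split_ifs with hc
    · have := hbox n (c - m - n) m
      simp only [hdF, hdH]
      linarith
    · have := hF0 n m
      linarith
  have h5 := herr R A
  have h6 := herr T B
  have h7 := mul_le_mul_of_nonneg_left hsum (by positivity : (0 : ℝ) ≤ 4 ^ (k + 1))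
  rw [mul_add, mul_add] at h7
  simp only [hdF, hdH] at h7
  linarith

/-- weighted energies with coarser outer scales -/
def Wt (N : ℕ) (R S : ℤ) (k : ℕ) (A : GF J) : ℝ :=
  ∑ r ∈ range (N - k + 1), (3 / 4 : ℝ) ^ r * en N R S (k + r) k A

theorem Wt_nonneg (N : ℕ) (R S : ℤ) (k : ℕ) (A : GF J) : 0 ≤ Wt N R S k A :=
  sum_nonneg fun r _ => mul_nonneg (by positivity) (en_nonneg ..)

theorem Wt_step {N k : ℕ} (h : k < N) (R S : ℤ) (A : GF J) :
    Wt N R S (k + 1) A + SE N R S k A ≤ Wt N R S k A := by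
  unfold Wt SE
  have e : N - (k + 1) + 1 = N - k := by omega
  have e2 : k + (N - k) = N := by omega
  rw [e, sum_range_succ, e2]
  have h1 : ∑ r ∈ range (N - k), (3 / 4 : ℝ) ^ r * en N R S (k + 1 + r) (k + 1) A
      ≤ ∑ r ∈ range (N - k), (3 / 4 : ℝ) ^ r * en N R S (k + r + 1) k A := by
    refine sum_le_sum fun r _ => mul_le_mul_of_nonneg_left ?_ (by positivity)
    rw [show k + 1 + r = k + r + 1 by ring]
    exact en_col_le h R S _ A
  have h2 : ∑ r ∈ range (N - k), (3 / 4 : ℝ) ^ r * (en N R S (k + r) k A - en N R S (k + r + 1) k A)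
      = ∑ r ∈ range (N - k), (3 / 4 : ℝ) ^ r * en N R S (k + r) k A
        - ∑ r ∈ range (N - k), (3 / 4 : ℝ) ^ r * en N R S (k + r + 1) k A := by
    rw [← sum_sub_distrib]
    exact sum_congr rfl fun r _ => by ring
  rw [h2]
  linarith

/-- **The functional.** -/
def BF (N : ℕ) (R S T : ℤ) (c : ℕ → ℤ) (k : ℕ) (A B : GF J) : ℝ :=
  2 * (Mk N R S T k (c k) A B + 14 * (en N R S k k A + en N T S k k B)
    + 64 * (Wt N R S k A + Wt N T S k B))

theorem Mk_nonneg (N : ℕ) (R S T : ℤ) (k : ℕ) (c : ℤ) (A B : GF J) :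
    0 ≤ Mk N R S T k c A B := by
  unfold Mk
  refine mul_nonneg (by positivity) (sum_nonneg fun m _ => sum_nonneg fun n _ => ?_)
  split_ifs
  · exact mx_nonneg k k A B n (c - m - n) m
  · exact le_rfl

theorem mnk_nonneg (N : ℕ) (R S T : ℤ) (k : ℕ) (c : ℤ) (A B : GF J) :
    0 ≤ mnk N R S T (k + 1) c A B := by
  rw [mnk_eq]
  refine mul_nonneg (by positivity) (sum_nonneg fun m _ => sum_nonneg fun n _ => ?_)
  split_ifs
  · exact md_nonneg k A B n (c - m - n) m
  · exact le_rfl

theorem BF_nonneg (N : ℕ) (R S T : ℤ) (c : ℕ → ℤ) (k : ℕ) (A B : GF J) :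
    0 ≤ BF N R S T c k A B := by
  unfold BF
  have h1 := Mk_nonneg N R S T k (c k) A B
  have h2 := en_nonneg N R S k k A
  have h3 := en_nonneg N T S k k B
  have h4 := Wt_nonneg N R S k A
  have h5 := Wt_nonneg N T S k B
  positivity

/-- **Step.** -/
theorem BF_step {N k : ℕ} (h : k < N) (R S T : ℤ) {c : ℕ → ℤ} (hc : H588.Pl c) (A B : GF J) :
    BF N R S T c (k + 1) A B + mnk N R S T (k + 1) (c (k + 1)) A B ≤ BF N R S T c k A B := by
  have h1 := split h R S T (c (k + 1)) A B
  have h2 := shift_abs N R S T k h.le A B (fun m => c k - m)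
    (fun m => 2 * (c (k + 1) - m / 2) + 1) 2 (fun m => by
      have := hc k
      rw [abs_le]
      push_cast
      constructor <;> omega)
  have h3 : (4 : ℝ) ^ k * ∑ m ∈ iv (N - k) S, al N R T k A B m (2 * (c (k + 1) - m / 2) + 1)
      ≤ Mk N R S T k (c k) A B + 4 ^ k * ∑ m ∈ iv (N - k) S,
        |al N R T k A B m (2 * (c (k + 1) - m / 2) + 1) - al N R T k A B m (c k - m)| := by
    rw [Mk_eq, ← mul_add, ← sum_add_distrib]
    refine mul_le_mul_of_nonneg_left (sum_le_sum fun m _ => ?_) (by positivity)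
    have := le_abs_self (al N R T k A B m (2 * (c (k + 1) - m / 2) + 1) - al N R T k A B m (c k - m))
    linarith
  have h4 := Wt_step h R S A
  have h5 := Wt_step h T S B
  push_cast at h2
  unfold BF
  linarith

theorem Mk_le (N : ℕ) (R S T : ℤ) (k : ℕ) (c : ℤ) (A B : GF J) :
    Mk N R S T k c A B ≤ 2 * (en N R S k k A + en N T S k k B) := by
  unfold Mk en
  rw [← mul_pow]
  norm_num
  rw [← mul_add, mul_left_comm]
  refine mul_le_mul_of_nonneg_left ?_ (by positivity)
  rw [← sum_add_distrib, mul_sum]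
  refine sum_le_sum fun m _ => ?_
  have h := H588.sum_refl_le (N - k) R T (c - m) (fun n => 2 * GX (B.X k k n m))
    (fun n => by have := H588.GX_nonneg' (B.psd k k n m); positivity)
  rw [mul_add, mul_sum, mul_sum]
  refine le_trans ?_ (add_le_add_right h _)
  rw [← sum_add_distrib]
  refine sum_le_sum fun n _ => ?_
  split_ifs with hc
  · have h1 := H588.trace_mul_le_half (phi_symm (A.psd k k n m)) (phi_symm (B.psd k k (c - m - n) m))
    have h2 := H588.phi_sq_le_GX (A.psd k k n m)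
    have h3 := H588.phi_sq_le_GX (B.psd k k (c - m - n) m)
    linarith
  · have := H588.GX_nonneg' (A.psd k k n m)
    linarith

theorem Wt_le {N k : ℕ} (hk : k ≤ N) (R S : ℤ) (A : GF J) : Wt N R S k A ≤ 4 * en N R S k k A := by
  unfold Wt
  have h1 : ∑ r ∈ range (N - k + 1), (3 / 4 : ℝ) ^ r * en N R S (k + r) k A
      ≤ ∑ r ∈ range (N - k + 1), (3 / 4 : ℝ) ^ r * en N R S k k A := by
    refine sum_le_sum fun r hr => mul_le_mul_of_nonneg_left ?_ (by positivity)
    have := mem_range.mp hr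
    exact en_row_mono (by omega) (by omega) R S k A
  refine h1.trans ?_
  rw [← sum_mul]
  refine mul_le_mul_of_nonneg_right ?_ (en_nonneg ..)
  have h2 : ∀ n : ℕ, ∑ r ∈ range n, (3 / 4 : ℝ) ^ r = 4 - 4 * (3 / 4) ^ n := by
    intro n
    induction n with
    | zero => simp
    | succ n ih => rw [sum_range_succ, ih, pow_succ]; ring
  rw [h2]
  have : (0 : ℝ) ≤ (3 / 4) ^ (N - k + 1) := by positivity
  linarith

theorem BF_le {N k : ℕ} (hk : k ≤ N) (R S T : ℤ) (c : ℕ → ℤ) (A B : GF J) :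
    BF N R S T c k A B ≤ 544 * (en N R S k k A + en N T S k k B) := by
  unfold BF
  have h1 := Mk_le N R S T k (c k) A B
  have h2 := Wt_le hk R S A
  have h3 := Wt_le hk T S B
  have h4 := en_nonneg N R S k k A
  have h5 := en_nonneg N T S k k B
  linarith

/-- **The pair theorem**: the main terms of all scales above the leaf scale `l` are bounded by the
leaf energies. -/
theorem pair {N l : ℕ} (hl : l ≤ N) (R S T : ℤ) {c : ℕ → ℤ} (hc : H588.Pl c) (A B : GF J) :
    ∑ k ∈ Icc (l + 1) N, mnk N R S T k (c k) A B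
      ≤ 544 * (en N R S l l A + en N T S l l B) := by
  have key : ∀ K, l ≤ K → K ≤ N →
      BF N R S T c K A B + ∑ k ∈ Icc (l + 1) K, mnk N R S T k (c k) A B ≤ BF N R S T c l A B := by
    intro K hK
    induction K, hK using Nat.le_induction with
    | base => intro _; simp
    | succ K hK ih =>
      intro hN
      have h1 := ih (by omega)
      have h2 := BF_step (show K < N by omega) R S T hc A B
      rw [Finset.sum_Icc_succ_top (by omega)]
      linarith
  have h1 := key N hl le_rfl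
  have h2 := BF_nonneg N R S T c N A B
  have h3 := BF_le hl R S T c A B
  linarith

end

end Vale.Agent.P141.PL.H48
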