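import Vale.Agent.P141.PL.H588.Split
import Vale.Agent.P141.PL.H103.Shift

/-!
# P141: Gram families with labels, energies

The pair functional of block B4 (`H588`) for abstract trees of Gram matrices whose columns carry a
static label `j : J` (and whose rows may carry static labels as well).
-/

namespace Vale.Agent.P141.PL.H48

open Finset Matrix Vale.Agent.P075 Vale.Agent.P141.PL

/-- Column indices of a block of scale `k` with labels in `J`. -/
def IL (J : Type) : ℕ → Type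
  | 0 => J
  | k + 1 => IL J k ⊕ IL J k

instance instFintypeIL (J : Type) [Fintype J] : (k : ℕ) → Fintype (IL J k)
  | 0 => inferInstanceAs (Fintype J)
  | k + 1 => @instFintypeSum (IL J k) (IL J k) (instFintypeIL J k) (instFintypeIL J k)

instance instDecIL (J : Type) [DecidableEq J] : (k : ℕ) → DecidableEq (IL J k)
  | 0 => inferInstanceAs (DecidableEq J)
  | k + 1 => @instDecidableEqSum (IL J k) (IL J k) (instDecIL J k) (instDecIL J k)

/-- position of a column index -/
def vl {J : Type} : (k : ℕ) → IL J k → ℕ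
  | 0, _ => 0
  | k + 1, Sum.inl i => vl k i
  | k + 1, Sum.inr i => 2 ^ k + vl k i

/-- label of a column index -/
def lb {J : Type} : (k : ℕ) → IL J k → J
  | 0, j => j
  | k + 1, Sum.inl i => lb k i
  | k + 1, Sum.inr i => lb k i

noncomputable section

variable {J : Type} [Fintype J] [DecidableEq J]

/-- **A Gram family**: `X a b n m` is the Gram matrix of the block with outer scale `a`, outer
index `n`, middle scale `b`, middle index `m`. -/
structure GF (J : Type) [Fintype J] [DecidableEq J] where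
  /-- the matrices -/
  X : (a b : ℕ) → ℤ → ℤ → Matrix (IL J b) (IL J b) ℝ
  psd : ∀ a b n m, (X a b n m).PosSemidef
  row : ∀ a b n m, X (a + 1) b n m = (1 / 2 : ℝ) • (X a b (2 * n) m + X a b (2 * n + 1) m)
  ll : ∀ a b n m, Matrix.toBlocks₁₁ (n := IL J b) (o := IL J b) (l := IL J b) (m := IL J b)
    (X a (b + 1) n m) = (1 / 2 : ℝ) • X a b n (2 * m)
  rr : ∀ a b n m, Matrix.toBlocks₂₂ (n := IL J b) (o := IL J b) (l := IL J b) (m := IL J b)
    (X a (b + 1) n m) = (1 / 2 : ℝ) • X a b n (2 * m + 1)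

namespace GF

/-- multiplication by a nonnegative weight -/
def smul (c : ℝ) (hc : 0 ≤ c) (A : GF J) : GF J where
  X a b n m := c • A.X a b n m
  psd a b n m := (A.psd a b n m).smul hc
  row a b n m := by rw [A.row, smul_comm, ← smul_add]
  ll a b n m := by
    have h := A.ll a b n m
    have e : Matrix.toBlocks₁₁ (n := IL J b) (o := IL J b) (l := IL J b) (m := IL J b)
        (c • A.X a (b + 1) n m) = c • Matrix.toBlocks₁₁ (n := IL J b) (o := IL J b) (l := IL J b)
          (m := IL J b) (A.X a (b + 1) n m) := rfl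
    rw [e, h, smul_comm]
  rr a b n m := by
    have h := A.rr a b n m
    have e : Matrix.toBlocks₂₂ (n := IL J b) (o := IL J b) (l := IL J b) (m := IL J b)
        (c • A.X a (b + 1) n m) = c • Matrix.toBlocks₂₂ (n := IL J b) (o := IL J b) (l := IL J b)
          (m := IL J b) (A.X a (b + 1) n m) := rfl
    rw [e, h, smul_comm]

@[simp] theorem smul_X (c : ℝ) (hc : 0 ≤ c) (A : GF J) (a b : ℕ) (n m : ℤ) :
    (A.smul c hc).X a b n m = c • A.X a b n m := rfl

end GF

/-- the Gram matrix with column scale `b + 1`, index type `IL J b ⊕ IL J b` -/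
def Xs (A : GF J) (a b : ℕ) (n m : ℤ) : Matrix (IL J b ⊕ IL J b) (IL J b ⊕ IL J b) ℝ :=
  A.X a (b + 1) n m

theorem Xs_psd (A : GF J) (a b : ℕ) (n m : ℤ) : (Xs A a b n m).PosSemidef :=
  A.psd a (b + 1) n m

theorem Xs_split (A : GF J) (a b : ℕ) (n m : ℤ) :
    Xs A a b n m + rad (IL J b) * Xs A a b n m * rad (IL J b)
      = bd (A.X a b n (2 * m)) (A.X a b n (2 * m + 1)) := by
  have h1 : (Xs A a b n m).toBlocks₁₁ = (1 / 2 : ℝ) • A.X a b n (2 * m) := A.ll a b n m
  have h2 : (Xs A a b n m).toBlocks₂₂ = (1 / 2 : ℝ) • A.X a b n (2 * m + 1) := A.rr a b n m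
  rw [R.refl_add, h1, h2, smul_smul, smul_smul]
  norm_num

/-- The Haar signs of the middle variable as a diagonal matrix. -/
def hd (J : Type) [DecidableEq J] : (k : ℕ) → Matrix (IL J k) (IL J k) ℝ
  | 0 => 1
  | (k + 1) => rad (IL J k)

/-! ### energies -/

/-- Energy: outer root `(N, R)`, middle root `(N, S)`, outer scale `a`, middle scale `b`. -/
def en (N : ℕ) (R S : ℤ) (a b : ℕ) (A : GF J) : ℝ :=
  (2 : ℝ) ^ a * 2 ^ b * ∑ m ∈ iv (N - b) S, ∑ n ∈ iv (N - a) R, GX (A.X a b n m)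

/-- row defect -/
def dl (a b : ℕ) (A : GF J) (n m : ℤ) : ℝ :=
  (delt (A.X a b (2 * n) m) (A.X a b (2 * n + 1) m)).trace

/-- column defect -/
def cd (a b : ℕ) (A : GF J) (n m : ℤ) : ℝ :=
  (phi (Xs A a b n m) * (rad (IL J b) * phi (Xs A a b n m) * rad (IL J b))).trace

/-- mixed density: outer scales `a`, middle scale `b` -/
def mx (a b : ℕ) (A B : GF J) (n n' m : ℤ) : ℝ :=
  (phi (A.X a b n m) * phi (B.X a b n' m)).trace

/-- main term density at scale `k+1` -/
def md (k : ℕ) (A B : GF J) (n n' m : ℤ) : ℝ :=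
  (phi (Xs A (k + 1) k n m) * (rad (IL J k) * phi (Xs B (k + 1) k n' m) * rad (IL J k))).trace

theorem dl_nonneg (a b : ℕ) (A : GF J) (n m : ℤ) : 0 ≤ dl a b A n m :=
  (delt_psd (A.psd ..) (A.psd ..)).trace_nonneg

theorem cd_nonneg (a b : ℕ) (A : GF J) (n m : ℤ) : 0 ≤ cd a b A n m :=
  trace_mul_nonneg (phi_psd (Xs_psd ..)) (psd_conj_symm (phi_psd (Xs_psd ..)) rad_symm)

theorem mx_nonneg (a b : ℕ) (A B : GF J) (n n' m : ℤ) : 0 ≤ mx a b A B n n' m :=
  trace_mul_nonneg (phi_psd (A.psd ..)) (phi_psd (B.psd ..))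

theorem md_nonneg (k : ℕ) (A B : GF J) (n n' m : ℤ) : 0 ≤ md k A B n n' m :=
  trace_mul_nonneg (phi_psd (Xs_psd ..)) (psd_conj_symm (phi_psd (Xs_psd ..)) rad_symm)

theorem row_pt (a b : ℕ) (A : GF J) (n m : ℤ) :
    GX (A.X (a + 1) b n m) + (1 / 2) * dl a b A n m
      ≤ (1 / 2) * (GX (A.X a b (2 * n) m) + GX (A.X a b (2 * n + 1) m)) := by
  rw [A.row]
  exact R.GX_row (A.psd ..) (A.psd ..)

theorem col_pt (a b : ℕ) (A : GF J) (n m : ℤ) :
    GX (A.X a (b + 1) n m) + (1 / 2) * cd a b A n m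
      ≤ (1 / 2) * (GX (A.X a b n (2 * m)) + GX (A.X a b n (2 * m + 1))) :=
  R.GX_col (Xs_psd A a b n m) (A.psd ..) (A.psd ..) (Xs_split A a b n m)

/-- middle split -/
theorem y_pt (k : ℕ) (A B : GF J) (n n' m : ℤ) :
    mx (k + 1) (k + 1) A B n n' m + (1 / 2) * md k A B n n' m
      ≤ (1 / 2) * (mx (k + 1) k A B n n' (2 * m) + mx (k + 1) k A B n n' (2 * m + 1))
        + 7 * (cd (k + 1) k A n m + cd (k + 1) k B n' m) := by
  have h := ysplit (Xs_psd A (k + 1) k n m) (Xs_psd B (k + 1) k n' m)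
    (rad_symm (m := IL J k)) rad_sq
  rw [Xs_split, Xs_split, phi_bd (A.psd ..) (A.psd ..), phi_bd (B.psd ..) (B.psd ..), bd_mul,
    trace_bd] at h
  have h1 : mx (k + 1) (k + 1) A B n n' m
      = (phi (Xs A (k + 1) k n m) * phi (Xs B (k + 1) k n' m)).trace := rfl
  rw [h1]
  simp only [mx, md, cd]
  linarith

/-- outer splits with opposite pairing -/
theorem xz_pt (k b : ℕ) (A B : GF J) (n n' m : ℤ) :
    mx (k + 1) b A B n n' m
      ≤ (1 / 2) * (mx k b A B (2 * n) (2 * n' + 1) m + mx k b A B (2 * n + 1) (2 * n') m)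
        + (3 / 2) * (dl k b A n m + dl k b B n' m) := by
  have h := xsplit (A.psd k b (2 * n) m) (A.psd k b (2 * n + 1) m)
    (B.psd k b (2 * n' + 1) m) (B.psd k b (2 * n') m)
  simp only [mx, dl, A.row k b, B.row k b]
  rw [add_comm (B.X k b (2 * n' + 1) m), delt_comm (B.X k b (2 * n' + 1) m)] at h
  linarith

/-! ### total energies -/

theorem en_nonneg (N : ℕ) (R S : ℤ) (a b : ℕ) (A : GF J) : 0 ≤ en N R S a b A := by
  unfold en
  refine mul_nonneg (by positivity) (sum_nonneg fun m _ => sum_nonneg fun n _ => ?_)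
  exact H588.GX_nonneg' (A.psd ..)

/-- total row defect -/
def DL (N : ℕ) (R S : ℤ) (a b : ℕ) (A : GF J) : ℝ :=
  (2 : ℝ) ^ a * 2 ^ b * ∑ m ∈ iv (N - b) S, ∑ n ∈ iv (N - (a + 1)) R, dl a b A n m

/-- total column defect -/
def CD (N : ℕ) (R S : ℤ) (a b : ℕ) (A : GF J) : ℝ :=
  (2 : ℝ) ^ a * 2 ^ b * ∑ m ∈ iv (N - (b + 1)) S, ∑ n ∈ iv (N - a) R, cd a b A n m

theorem DL_nonneg (N : ℕ) (R S : ℤ) (a b : ℕ) (A : GF J) : 0 ≤ DL N R S a b A :=
  mul_nonneg (by positivity) (sum_nonneg fun _ _ => sum_nonneg fun _ _ => dl_nonneg ..)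

theorem CD_nonneg (N : ℕ) (R S : ℤ) (a b : ℕ) (A : GF J) : 0 ≤ CD N R S a b A :=
  mul_nonneg (by positivity) (sum_nonneg fun _ _ => sum_nonneg fun _ _ => cd_nonneg ..)

theorem row_en {N a : ℕ} (h : a < N) (R S : ℤ) (b : ℕ) (A : GF J) :
    en N R S (a + 1) b A + DL N R S a b A ≤ en N R S a b A := by
  have e : N - a = (N - (a + 1)) + 1 := by omega
  unfold en DL
  rw [e]
  simp only [H588.sum_iv_succ]
  rw [show (2 : ℝ) ^ (a + 1) * 2 ^ b = 2 ^ a * 2 ^ b * 2 by ring,
    mul_assoc ((2 : ℝ) ^ a * 2 ^ b) 2, ← mul_add]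
  refine mul_le_mul_of_nonneg_left ?_ (by positivity)
  rw [mul_sum, ← sum_add_distrib]
  refine sum_le_sum fun m _ => ?_
  rw [mul_sum, ← sum_add_distrib]
  refine sum_le_sum fun n _ => ?_
  have := row_pt a b A n m
  linarith

theorem col_en {N b : ℕ} (h : b < N) (R S : ℤ) (a : ℕ) (A : GF J) :
    en N R S a (b + 1) A + CD N R S a b A ≤ en N R S a b A := by
  have e : N - b = (N - (b + 1)) + 1 := by omega
  unfold en CD
  rw [e]
  simp only [H588.sum_iv_succ _ _ (fun m => ∑ n ∈ iv (N - a) R, GX (A.X a b n m))]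
  rw [show (2 : ℝ) ^ a * 2 ^ (b + 1) = 2 ^ a * 2 ^ b * 2 by ring,
    mul_assoc ((2 : ℝ) ^ a * 2 ^ b) 2, ← mul_add]
  refine mul_le_mul_of_nonneg_left ?_ (by positivity)
  rw [mul_sum, ← sum_add_distrib]
  refine sum_le_sum fun m _ => ?_
  rw [mul_sum, ← sum_add_distrib, ← sum_add_distrib]
  refine sum_le_sum fun n _ => ?_
  have := col_pt a b A n m
  linarith

theorem en_row_le {N a : ℕ} (h : a < N) (R S : ℤ) (b : ℕ) (A : GF J) :
    en N R S (a + 1) b A ≤ en N R S a b A := by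
  have h1 := row_en h R S b A
  have h2 := DL_nonneg N R S a b A
  linarith

theorem en_col_le {N b : ℕ} (h : b < N) (R S : ℤ) (a : ℕ) (A : GF J) :
    en N R S a (b + 1) A ≤ en N R S a b A := by
  have h1 := col_en h R S a A
  have h2 := CD_nonneg N R S a b A
  linarith

theorem en_row_mono {N a a' : ℕ} (h : a ≤ a') (h' : a' ≤ N) (R S : ℤ) (b : ℕ) (A : GF J) :
    en N R S a' b A ≤ en N R S a b A := by
  induction a', h using Nat.le_induction with
  | base => exact le_rfl
  | succ k hk ih => exact (en_row_le (by omega) R S b A).trans (ih (by omega))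

theorem en_col_mono {N b b' : ℕ} (h : b ≤ b') (h' : b' ≤ N) (R S : ℤ) (a : ℕ) (A : GF J) :
    en N R S a b' A ≤ en N R S a b A := by
  induction b', h using Nat.le_induction with
  | base => exact le_rfl
  | succ k hk ih => exact (en_col_le (by omega) R S a A).trans (ih (by omega))

end

end Vale.Agent.P141.PL.H48
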