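import Vale.Agent.P141.PL.H48.GF

/-!
# P141: Gram families with labels, the plane shift
-/

namespace Vale.Agent.P141.PL.H48

open Finset Matrix Vale.Agent.P075 Vale.Agent.P141.PL

noncomputable section

variable {J : Type} [Fintype J] [DecidableEq J]

/-- the plane sum of the middle interval `m` -/
def al (N : ℕ) (R T : ℤ) (k : ℕ) (A B : GF J) (m s : ℤ) : ℝ :=
  ∑ n ∈ iv (N - k) R, if s - n ∈ iv (N - k) T then
    (phi (A.X k k n m) * phi (B.X k k (s - n) m)).trace else 0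

/-- the energy which pays for a shift -/
def SE (N : ℕ) (R S : ℤ) (k : ℕ) (A : GF J) : ℝ :=
  ∑ r ∈ range (N - k), (3 / 4) ^ r * (en N R S (k + r) k A - en N R S (k + r + 1) k A)
    + (3 / 4) ^ (N - k) * en N R S N k A

/-- multiscale family -/
def fR (N k : ℕ) (R : ℤ) (A : GF J) (m : ℤ) (r : ℕ) (n : ℤ) :
    Matrix (IL J k) (IL J k) ℝ :=
  if n ∈ iv (N - k) R then phi (A.X (k + r) k (n / 2 ^ r) m) else 0

theorem fR_symm (N k : ℕ) (R : ℤ) (A : GF J) (m : ℤ) (r : ℕ) (n : ℤ) :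
    (fR N k R A m r n)ᵀ = fR N k R A m r n := by
  unfold fR
  split_ifs
  · exact phi_symm (A.psd ..)
  · exact transpose_zero

theorem fR_fs (N k : ℕ) (R : ℤ) (A : GF J) (m : ℤ) (r : ℕ) : H103.FSM (fR N k R A m r) :=
  ⟨iv (N - k) R, fun n hn => by unfold fR; rw [if_neg hn]⟩

theorem fR_blk (N k : ℕ) (R : ℤ) (A : GF J) (m : ℤ) {r : ℕ} (hr : r ≤ N - k) (n : ℤ) :
    fR N k R A m r n = fR N k R A m r (2 ^ r * (n / 2 ^ r)) := by
  have h1 : (2 ^ r * (n / 2 ^ r)) / 2 ^ r = n / 2 ^ r :=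
    Int.mul_ediv_cancel_left _ (by positivity)
  have h2 : (2 ^ r * (n / 2 ^ r)) ∈ iv (N - k) R ↔ n ∈ iv (N - k) R := by
    rw [mem_iv, mem_iv, ix, ix]
    obtain ⟨l, hl⟩ := Nat.exists_eq_add_of_le hr
    rw [hl, pow_add, ← Int.ediv_ediv_of_nonneg (by positivity),
      ← Int.ediv_ediv_of_nonneg (by positivity), h1]
  unfold fR
  rw [h1]
  simp only [h2]

theorem cv_eq_al (N : ℕ) (R T : ℤ) (k : ℕ) (A B : GF J) (m s : ℤ) :
    H103.cv (fR N k R A m 0) (fR N k T B m 0) s = al N R T k A B m s := by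
  unfold H103.cv al
  rw [tsum_eq_sum (s := iv (N - k) R)]
  · refine Finset.sum_congr rfl fun n hn => ?_
    unfold fR
    rw [if_pos hn]
    simp only [pow_zero, Int.ediv_one, add_zero]
    split_ifs
    · rfl
    · rw [Matrix.mul_zero, trace_zero]
  · intro n hn
    unfold fR
    rw [if_neg hn, Matrix.zero_mul, trace_zero]

/-- one level of the multiscale energy -/
theorem level_le (N k : ℕ) (R : ℤ) (A : GF J) (m : ℤ) {r : ℕ} (hr : k + r < N) :
    ∑' n, ((fR N k R A m r n - fR N k R A m (r + 1) n)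
        * (fR N k R A m r n - fR N k R A m (r + 1) n)).trace
      ≤ 4 * (2 ^ r * ∑ n ∈ iv (N - (k + r)) R, GX (A.X (k + r) k n m)
        - 2 ^ (r + 1) * ∑ n ∈ iv (N - (k + r + 1)) R, GX (A.X (k + r + 1) k n m)) := by
  have h1 : ∑' n, ((fR N k R A m r n - fR N k R A m (r + 1) n)
        * (fR N k R A m r n - fR N k R A m (r + 1) n)).trace
      = ∑ n ∈ iv (N - k) R,
        ((phi (A.X (k + r) k (n / 2 ^ r) m) - phi (A.X (k + r + 1) k (n / 2 ^ r / 2) m))
        * (phi (A.X (k + r) k (n / 2 ^ r) m)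
          - phi (A.X (k + r + 1) k (n / 2 ^ r / 2) m))).trace := by
    rw [tsum_eq_sum (s := iv (N - k) R)]
    · refine Finset.sum_congr rfl fun n hn => ?_
      unfold fR
      rw [if_pos hn, if_pos hn]
      have : n / 2 ^ (r + 1) = n / 2 ^ r / 2 := by
        rw [pow_succ, ← Int.ediv_ediv_of_nonneg (by positivity)]
      rw [this]
      rfl
    · intro n hn
      unfold fR
      rw [if_neg hn, if_neg hn, sub_zero, Matrix.mul_zero, trace_zero]
  obtain ⟨l, hl⟩ : ∃ l, N - k = (l + 1) + r := ⟨N - k - r - 1, by omega⟩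
  have hl1 : N - (k + r) = l + 1 := by omega
  have hl2 : N - (k + r + 1) = l := by omega
  rw [h1, hl, hl1, hl2]
  rw [H103.sum_iv_div (l + 1) r R (fun n =>
      ((phi (A.X (k + r) k n m) - phi (A.X (k + r + 1) k (n / 2) m))
        * (phi (A.X (k + r) k n m) - phi (A.X (k + r + 1) k (n / 2) m))).trace)]
  rw [H103.sum_iv_pair, H103.sum_iv_pair l R (fun n => GX (A.X (k + r) k n m))]
  have h2 : ∀ n : ℤ, 2 * n / 2 = n := fun n => by omega
  have h3 : ∀ n : ℤ, (2 * n + 1) / 2 = n := fun n => by omega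
  simp only [h2, h3]
  have key : ∑ n ∈ iv l R,
      (((phi (A.X (k + r) k (2 * n) m) - phi (A.X (k + r + 1) k n m))
        * (phi (A.X (k + r) k (2 * n) m) - phi (A.X (k + r + 1) k n m))).trace
      + ((phi (A.X (k + r) k (2 * n + 1) m) - phi (A.X (k + r + 1) k n m))
        * (phi (A.X (k + r) k (2 * n + 1) m) - phi (A.X (k + r + 1) k n m))).trace)
      ≤ ∑ n ∈ iv l R, (4 * ((GX (A.X (k + r) k (2 * n) m) + GX (A.X (k + r) k (2 * n + 1) m))
        - 2 * GX (A.X (k + r + 1) k n m))) := by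
    refine Finset.sum_le_sum fun n _ => ?_
    have := H103.row_dist (A.psd (k + r) k (2 * n) m) (A.psd (k + r) k (2 * n + 1) m)
    rw [← A.row] at this
    exact this
  rw [← Finset.mul_sum, Finset.sum_sub_distrib, ← Finset.mul_sum] at key
  have hp : (0 : ℝ) ≤ 2 ^ r := by positivity
  refine (mul_le_mul_of_nonneg_left key hp).trans (le_of_eq ?_)
  ring

/-- the last level -/
theorem last_le (N k : ℕ) (R : ℤ) (A : GF J) (m : ℤ) (hk : k ≤ N) :
    ∑' n, (fR N k R A m (N - k) n * fR N k R A m (N - k) n).trace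
      ≤ 4 * (2 ^ (N - k) * ∑ n ∈ iv 0 R, GX (A.X N k n m)) := by
  have h0 : k + (N - k) = N := by omega
  have h1 : ∑' n, (fR N k R A m (N - k) n * fR N k R A m (N - k) n).trace
      = ∑ n ∈ iv (0 + (N - k)) R, (fun n => (phi (A.X N k n m) * phi (A.X N k n m)).trace)
          (n / 2 ^ (N - k)) := by
    rw [zero_add, tsum_eq_sum (s := iv (N - k) R)]
    · refine Finset.sum_congr rfl fun n hn => ?_
      unfold fR
      rw [if_pos hn, h0]
    · intro n hn
      unfold fR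
      rw [if_neg hn, Matrix.mul_zero, trace_zero]
  rw [h1, H103.sum_iv_div 0 (N - k) R (fun n => (phi (A.X N k n m) * phi (A.X N k n m)).trace)]
  have hp : (0 : ℝ) ≤ 2 ^ (N - k) := by positivity
  have : ∑ n ∈ iv 0 R, (phi (A.X N k n m) * phi (A.X N k n m)).trace
      ≤ ∑ n ∈ iv 0 R, 4 * GX (A.X N k n m) :=
    Finset.sum_le_sum fun n _ => H103.phi_sq_le_GX (A.psd ..)
  rw [← Finset.mul_sum] at this
  refine (mul_le_mul_of_nonneg_left this hp).trans (le_of_eq ?_)
  ring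

theorem en_eq (N : ℕ) (R S : ℤ) (a b : ℕ) (A : GF J) :
    en N R S a b A = ∑ m ∈ iv (N - b) S, 2 ^ a * 2 ^ b * ∑ n ∈ iv (N - a) R, GX (A.X a b n m) := by
  rw [en, Finset.mul_sum]

theorem MM_sum_le (N k : ℕ) (R S : ℤ) (A : GF J) (hk : k ≤ N) :
    4 ^ k * ∑ m ∈ iv (N - k) S, H103.MM (N - k) (fR N k R A m) ≤ 4 * SE N R S k A := by
  have h1 : ∀ m, H103.MM (N - k) (fR N k R A m) ≤
      ∑ r ∈ range (N - k), (3 / 4) ^ r *
        (4 * (2 ^ r * ∑ n ∈ iv (N - (k + r)) R, GX (A.X (k + r) k n m)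
        - 2 ^ (r + 1) * ∑ n ∈ iv (N - (k + r + 1)) R, GX (A.X (k + r + 1) k n m)))
      + (3 / 4) ^ (N - k) * (4 * (2 ^ (N - k) * ∑ n ∈ iv 0 R, GX (A.X N k n m))) := by
    intro m
    unfold H103.MM
    refine add_le_add (Finset.sum_le_sum fun r hr => ?_) ?_
    · exact mul_le_mul_of_nonneg_left (level_le N k R A m (by
        have := Finset.mem_range.1 hr; omega)) (by positivity)
    · exact mul_le_mul_of_nonneg_left (last_le N k R A m hk) (by positivity)
  have hp : (0 : ℝ) ≤ 4 ^ k := by positivity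
  have e4 : (4 : ℝ) ^ k = 2 ^ k * 2 ^ k := by rw [← mul_pow]; norm_num
  have eA : ∀ r : ℕ, 4 ^ k * ∑ m ∈ iv (N - k) S,
      (2 ^ r * ∑ n ∈ iv (N - (k + r)) R, GX (A.X (k + r) k n m)
        - 2 ^ (r + 1) * ∑ n ∈ iv (N - (k + r + 1)) R, GX (A.X (k + r + 1) k n m))
      = en N R S (k + r) k A - en N R S (k + r + 1) k A := by
    intro r
    rw [en_eq, en_eq, ← Finset.sum_sub_distrib, Finset.mul_sum]
    refine Finset.sum_congr rfl fun m _ => ?_
    rw [e4, pow_succ, pow_succ, pow_add]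
    ring
  have eB : 4 ^ k * ∑ m ∈ iv (N - k) S, (2 ^ (N - k) * ∑ n ∈ iv 0 R, GX (A.X N k n m))
      = en N R S N k A := by
    rw [en_eq, Finset.mul_sum, Nat.sub_self]
    refine Finset.sum_congr rfl fun m _ => ?_
    have : (2 : ℝ) ^ N = 2 ^ k * 2 ^ (N - k) := by rw [← pow_add]; congr 1; omega
    rw [e4, this]
    ring
  refine (mul_le_mul_of_nonneg_left
    (Finset.sum_le_sum fun m (_ : m ∈ iv (N - k) S) => h1 m) hp).trans (le_of_eq ?_)
  have c1 : 4 ^ k * ∑ m ∈ iv (N - k) S, ∑ r ∈ range (N - k), (3 / 4 : ℝ) ^ r *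
        (4 * (2 ^ r * ∑ n ∈ iv (N - (k + r)) R, GX (A.X (k + r) k n m)
        - 2 ^ (r + 1) * ∑ n ∈ iv (N - (k + r + 1)) R, GX (A.X (k + r + 1) k n m)))
      = 4 * ∑ r ∈ range (N - k), (3 / 4) ^ r *
        (en N R S (k + r) k A - en N R S (k + r + 1) k A) := by
    rw [Finset.sum_comm, Finset.mul_sum, Finset.mul_sum]
    refine Finset.sum_congr rfl fun r _ => ?_
    rw [← eA r, ← Finset.mul_sum, ← Finset.mul_sum]
    ring
  have c2 : 4 ^ k * ∑ m ∈ iv (N - k) S, (3 / 4 : ℝ) ^ (N - k) *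
        (4 * (2 ^ (N - k) * ∑ n ∈ iv 0 R, GX (A.X N k n m)))
      = 4 * ((3 / 4) ^ (N - k) * en N R S N k A) := by
    rw [← eB, ← Finset.mul_sum, ← Finset.mul_sum]
    ring
  rw [Finset.sum_add_distrib, mul_add, SE, mul_add, c1, c2]

/-- **Shift by one plane.** -/
theorem shift (N : ℕ) (R S T : ℤ) (k : ℕ) (hk : k ≤ N) (A B : GF J) (t : ℤ → ℤ) :
    4 ^ k * ∑ m ∈ iv (N - k) S, |al N R T k A B m (t m + 1) - al N R T k A B m (t m)|
      ≤ 16 * (SE N R S k A + SE N T S k B) := by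
  have h1 : ∀ m, |al N R T k A B m (t m + 1) - al N R T k A B m (t m)|
      ≤ 4 * (H103.MM (N - k) (fR N k R A m) + H103.MM (N - k) (fR N k T B m)) := by
    intro m
    rw [← cv_eq_al, ← cv_eq_al]
    exact H103.first_diff_mat (N - k) (fun r hr n => fR_blk N k R A m hr n)
      (fun r hr n => fR_blk N k T B m hr n) (fun r _ n => fR_symm ..) (fun r _ n => fR_symm ..)
      (fun r _ => fR_fs ..) (fun r _ => fR_fs ..) (t m)
  have hp : (0 : ℝ) ≤ 4 ^ k := by positivity
  have h2 := mul_le_mul_of_nonneg_left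
    (Finset.sum_le_sum fun m (_ : m ∈ iv (N - k) S) => h1 m) hp
  refine h2.trans ?_
  rw [← Finset.mul_sum, Finset.sum_add_distrib]
  have k1 := MM_sum_le N k R S A hk
  have k2 := MM_sum_le N k T S B hk
  nlinarith

/-- **Shift by a bounded number of planes.** -/
theorem shift_nat (N : ℕ) (R S T : ℤ) (k : ℕ) (hk : k ≤ N) (A B : GF J) (t : ℤ → ℤ)
    (d : ℕ) :
    4 ^ k * ∑ m ∈ iv (N - k) S, |al N R T k A B m (t m + d) - al N R T k A B m (t m)|
      ≤ 16 * d * (SE N R S k A + SE N T S k B) := by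
  induction d with
  | zero => simp
  | succ d ih =>
    have h := shift N R S T k hk A B (fun m => t m + d)
    have h2 : ∀ m, |al N R T k A B m (t m + ((d + 1 : ℕ) : ℤ)) - al N R T k A B m (t m)|
        ≤ |al N R T k A B m (t m + d + 1) - al N R T k A B m (t m + d)|
          + |al N R T k A B m (t m + d) - al N R T k A B m (t m)| := by
      intro m
      have e : t m + ((d + 1 : ℕ) : ℤ) = t m + d + 1 := by push_cast; ring
      rw [e]
      exact abs_sub_le _ _ _
    have hp : (0 : ℝ) ≤ 4 ^ k := by positivity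
    have h3 := mul_le_mul_of_nonneg_left
      (Finset.sum_le_sum fun m (_ : m ∈ iv (N - k) S) => h2 m) hp
    rw [Finset.sum_add_distrib, mul_add] at h3
    push_cast
    push_cast at h3
    linarith

/-- **Shift**, general form: `|t' m - t m| ≤ D`. -/
theorem shift_abs (N : ℕ) (R S T : ℤ) (k : ℕ) (hk : k ≤ N) (A B : GF J) (t t' : ℤ → ℤ)
    (D : ℕ) (hD : ∀ m, |t' m - t m| ≤ D) :
    4 ^ k * ∑ m ∈ iv (N - k) S, |al N R T k A B m (t' m) - al N R T k A B m (t m)|
      ≤ 32 * D * (SE N R S k A + SE N T S k B) := by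
  have h1 : ∀ m, |al N R T k A B m (t' m) - al N R T k A B m (t m)|
      ≤ ∑ l ∈ range (2 * D), |al N R T k A B m ((t m - D + l) + 1)
        - al N R T k A B m (t m - D + l)| := by
    intro m
    have hm := abs_le.1 (hD m)
    obtain ⟨i, hi⟩ : ∃ i : ℕ, t' m = t m - D + i := ⟨(t' m - t m + D).toNat, by omega⟩
    have h := H103.abs_sub_le_range (fun l : ℕ => al N R T k A B m (t m - D + l)) (2 * D) i D
      (by omega) (by omega)
    have e1 : t m - D + (D : ℕ) = t m := by omega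
    have e2 : ∀ l : ℕ, t m - D + ((l + 1 : ℕ) : ℤ) = t m - D + l + 1 := fun l => by
      push_cast; ring
    simp only [e1, e2] at h
    rw [hi]
    exact h
  have hp : (0 : ℝ) ≤ 4 ^ k := by positivity
  refine (mul_le_mul_of_nonneg_left
    (Finset.sum_le_sum fun m (_ : m ∈ iv (N - k) S) => h1 m) hp).trans ?_
  rw [Finset.sum_comm, Finset.mul_sum]
  refine (Finset.sum_le_sum fun (l : ℕ) _ => shift N R S T k hk A B
    (fun m => t m - D + l)).trans (le_of_eq ?_)
  rw [Finset.sum_const, Finset.card_range, nsmul_eq_mul]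
  push_cast
  ring

end

end Vale.Agent.P141.PL.H48
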