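import Vale.Agent.P141.PL.H48.T424

/-!
# P141: the labelled triangle, exponents (4, 2, 4): the theorem

`tri424`: for matrices `a`, `b`, `c` on the boxes (which may depend on the scale and on the box)
dominated by static Gram families, the sum over ALL boxes of the absolute values of the trilinear
local forms is `≤ C (L+1)³ sqrt(β u w)` plus a remainder `2^(-L)`, where `u²`, `w²` bound the leaf
`S₄` energies of the edges 01 and 02 and `β` bounds the `S₂` energy of the edge 12.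
-/

namespace Vale.Agent.P141.PL.H48

set_option linter.unusedSectionVars false

open Finset Matrix Vale.Agent.P075 Vale.Agent.P141.PL

noncomputable section

variable {J0 J1 J2 : Type} [Fintype J0] [DecidableEq J0] [Fintype J1] [DecidableEq J1]
  [Fintype J2] [DecidableEq J2] {J : Type} [Fintype J] [DecidableEq J]

/-- domination of the edge 01 -/
def Dom01 (A0 : GF J0) (A1 : GF J1)
    (a : (k : ℕ) → ℤ × ℤ × ℤ → Matrix (IL J0 k) (IL J1 k) ℝ) : Prop :=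
  ∀ k p, (A0.X k k p.2.1 p.1 - a k p * (a k p)ᵀ).PosSemidef ∧
    (A1.X k k p.1 p.2.1 - (a k p)ᵀ * a k p).PosSemidef ∧ OB 1 (a k p)

/-- domination of the edge 12 -/
def Dom12 (B1 : GF J1) (B2 : GF J2)
    (b : (k : ℕ) → ℤ × ℤ × ℤ → Matrix (IL J1 k) (IL J2 k) ℝ) : Prop :=
  ∀ k p, (B1.X k k p.2.2 p.2.1 - b k p * (b k p)ᵀ).PosSemidef ∧
    (B2.X k k p.2.1 p.2.2 - (b k p)ᵀ * b k p).PosSemidef ∧ OB 1 (b k p)

/-- domination of the edge 02 -/
def Dom02 (C0 : GF J0) (C2 : GF J2)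
    (c : (k : ℕ) → ℤ × ℤ × ℤ → Matrix (IL J0 k) (IL J2 k) ℝ) : Prop :=
  ∀ k p, (C0.X k k p.2.2 p.1 - c k p * (c k p)ᵀ).PosSemidef ∧
    (C2.X k k p.1 p.2.2 - (c k p)ᵀ * c k p).PosSemidef ∧ OB 1 (c k p)

/-! ### vertex sums with optimal weights -/

/-- a vertex with an `S₄` and an `S₂` edge -/
theorem vertex_42 {N l : ℕ} (hl : l ≤ N) (R S T : ℤ) {c : ℕ → ℤ} (hc : H588.Pl c) (A B : GF J)
    {u β : ℝ} (hu : 0 < u) (hβ : 0 < β) (hA : t2 N R S l A ≤ u ^ 2) (hB : t1 N T S l B ≤ β)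
    {κ μ : ℝ} (hκ : 0 < κ) (hμ : 0 < μ) :
    ∑ k ∈ Icc (l + 1) N, (4 : ℝ) ^ k * ∑ p ∈ bx N R S T k (c k),
      vd (κ • A.X k k p.1 p.2.1) (μ • B.X k k p.2.2 p.2.1) (hd J k)
      ≤ 1088 * (Real.sqrt (μ * β) * max (κ * u) (Real.sqrt (μ * β))) := by
  have hy : 0 < Real.sqrt (μ * β) := Real.sqrt_pos.mpr (mul_pos hμ hβ)
  have hyy : Real.sqrt (μ * β) * Real.sqrt (μ * β) = μ * β := Real.mul_self_sqrt (by positivity)
  set y := Real.sqrt (μ * β) with hydef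
  have hEB : en N T S l l (B.smul μ hμ.le) ≤ y * y := by
    rw [hyy]
    exact (en_le_t1 N T S l B hμ.le).trans (mul_le_mul_of_nonneg_left hB hμ.le)
  rcases le_or_gt y (κ * u) with h | h
  · rw [max_eq_left h]
    have hκ' : 0 < y / u := div_pos hy hu
    have h' : y / u ≤ κ := by rw [div_le_iff₀ hu]; exact h
    have h1 := vertex_sum hl R S T hc A B hκ' h' hμ le_rfl
    refine h1.trans ?_
    have hEA : en N R S l l (A.smul (y / u) hκ'.le) ≤ y * y := by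
      refine (en_le_t2 N R S l A hκ'.le).trans ?_
      refine (mul_le_mul_of_nonneg_left hA (by positivity)).trans (le_of_eq ?_)
      field_simp
    rw [div_self hμ.ne', mul_one]
    have h2 : κ / (y / u) * (544 * (en N R S l l (A.smul (y / u) hκ'.le)
        + en N T S l l (B.smul μ hμ.le))) ≤ κ / (y / u) * (544 * (y * y + y * y)) :=
      mul_le_mul_of_nonneg_left (by linarith) (by positivity)
    refine h2.trans (le_of_eq ?_)
    field_simp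
    ring
  · rw [max_eq_right h.le]
    have h1 := vertex_sum hl R S T hc A B hκ le_rfl hμ le_rfl
    refine h1.trans ?_
    rw [div_self hκ.ne', div_self hμ.ne', one_mul, one_mul]
    have hEA : en N R S l l (A.smul κ hκ.le) ≤ y * y := by
      refine (en_le_t2 N R S l A hκ.le).trans ?_
      refine (mul_le_mul_of_nonneg_left hA (by positivity)).trans ?_
      have : κ ^ 2 * u ^ 2 = (κ * u) * (κ * u) := by ring
      rw [this]
      exact mul_self_le_mul_self (by positivity) h.le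
    linarith

/-- a vertex with two `S₄` edges -/
theorem vertex_44 {N l : ℕ} (hl : l ≤ N) (R S T : ℤ) {c : ℕ → ℤ} (hc : H588.Pl c) (A B : GF J)
    {u w : ℝ} (hu : 0 < u) (hw : 0 < w) (hA : t2 N R S l A ≤ u ^ 2) (hB : t2 N T S l B ≤ w ^ 2)
    {κ μ : ℝ} (hκ : 0 < κ) (hμ : 0 < μ) :
    ∑ k ∈ Icc (l + 1) N, (4 : ℝ) ^ k * ∑ p ∈ bx N R S T k (c k),
      vd (κ • A.X k k p.1 p.2.1) (μ • B.X k k p.2.2 p.2.1) (hd J k)
      ≤ 1088 * ((κ * u) * (μ * w)) := by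
  rcases le_or_gt (κ * u) (μ * w) with h | h
  · have hμ' : 0 < κ * u / w := by positivity
    have h' : κ * u / w ≤ μ := by rw [div_le_iff₀ hw]; exact h
    have h1 := vertex_sum hl R S T hc A B hκ le_rfl hμ' h'
    refine h1.trans ?_
    have hEA : en N R S l l (A.smul κ hκ.le) ≤ (κ * u) * (κ * u) := by
      refine (en_le_t2 N R S l A hκ.le).trans ?_
      refine (mul_le_mul_of_nonneg_left hA (by positivity)).trans (le_of_eq (by ring))
    have hEB : en N T S l l (B.smul (κ * u / w) hμ'.le) ≤ (κ * u) * (κ * u) := by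
      refine (en_le_t2 N T S l B hμ'.le).trans ?_
      refine (mul_le_mul_of_nonneg_left hB (by positivity)).trans (le_of_eq ?_)
      field_simp
    rw [div_self hκ.ne', one_mul]
    have h2 : μ / (κ * u / w) * (544 * (en N R S l l (A.smul κ hκ.le)
        + en N T S l l (B.smul (κ * u / w) hμ'.le)))
        ≤ μ / (κ * u / w) * (544 * ((κ * u) * (κ * u) + (κ * u) * (κ * u))) :=
      mul_le_mul_of_nonneg_left (by linarith) (by positivity)
    refine h2.trans (le_of_eq ?_)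
    field_simp
    ring
  · have hκ' : 0 < μ * w / u := by positivity
    have h' : μ * w / u ≤ κ := by rw [div_le_iff₀ hu]; exact h.le
    have h1 := vertex_sum hl R S T hc A B hκ' h' hμ le_rfl
    refine h1.trans ?_
    have hEA : en N R S l l (A.smul (μ * w / u) hκ'.le) ≤ (μ * w) * (μ * w) := by
      refine (en_le_t2 N R S l A hκ'.le).trans ?_
      refine (mul_le_mul_of_nonneg_left hA (by positivity)).trans (le_of_eq ?_)
      field_simp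
    have hEB : en N T S l l (B.smul μ hμ.le) ≤ (μ * w) * (μ * w) := by
      refine (en_le_t2 N T S l B hμ.le).trans ?_
      refine (mul_le_mul_of_nonneg_left hB (by positivity)).trans (le_of_eq (by ring))
    rw [div_self hμ.ne', mul_one]
    have h2 : κ / (μ * w / u) * (544 * (en N R S l l (A.smul (μ * w / u) hκ'.le)
        + en N T S l l (B.smul μ hμ.le)))
        ≤ κ / (μ * w / u) * (544 * ((μ * w) * (μ * w) + (μ * w) * (μ * w))) :=
      mul_le_mul_of_nonneg_left (by linarith) (by positivity)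
    refine h2.trans (le_of_eq ?_)
    field_simp
    ring

/-! ### the three vertices of the boxes -/

section vertices

variable {N l : ℕ} {R0 R1 R2 : ℤ} {c : ℕ → ℤ}

/-- sum of the densities of vertex 1 -/
theorem WS_v1 (A1 B1 : GF J) (κ μ : ℝ) :
    WS N l R0 R1 R2 c (fun k p => vd (κ • A1.X k k p.1 p.2.1) (μ • B1.X k k p.2.2 p.2.1) (hd J k))
      = ∑ k ∈ Icc (l + 1) N, (4 : ℝ) ^ k * ∑ p ∈ bx N R0 R1 R2 k (c k),
        vd (κ • A1.X k k p.1 p.2.1) (μ • B1.X k k p.2.2 p.2.1) (hd J k) := rfl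

/-- sum of the densities of vertex 2 -/
theorem WS_v2 (B2 C2 : GF J) (μ ν : ℝ) :
    WS N l R0 R1 R2 c (fun k p => vd (μ • B2.X k k p.2.1 p.2.2) (ν • C2.X k k p.1 p.2.2) (hd J k))
      = ∑ k ∈ Icc (l + 1) N, (4 : ℝ) ^ k * ∑ p ∈ bx N R1 R2 R0 k (c k),
        vd (μ • B2.X k k p.1 p.2.1) (ν • C2.X k k p.2.2 p.2.1) (hd J k) := by
  unfold WS
  refine sum_congr rfl fun k _ => ?_
  congr 1
  exact sum_bx_120 N R0 R1 R2 k (c k)
    (fun q => vd (μ • B2.X k k q.1 q.2.1) (ν • C2.X k k q.2.2 q.2.1) (hd J k))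

/-- sum of the densities of vertex 0 -/
theorem WS_v0 (A0 C0 : GF J) (κ ν : ℝ) :
    WS N l R0 R1 R2 c (fun k p => vd (κ • A0.X k k p.2.1 p.1) (ν • C0.X k k p.2.2 p.1) (hd J k))
      = ∑ k ∈ Icc (l + 1) N, (4 : ℝ) ^ k * ∑ p ∈ bx N R1 R0 R2 k (c k),
        vd (κ • A0.X k k p.1 p.2.1) (ν • C0.X k k p.2.2 p.2.1) (hd J k) := by
  unfold WS
  refine sum_congr rfl fun k _ => ?_
  congr 1
  exact sum_bx_102 N R0 R1 R2 k (c k)
    (fun q => vd (κ • A0.X k k q.1 q.2.1) (ν • C0.X k k q.2.2 q.2.1) (hd J k))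

/-- traces over the boxes of one scale -/
theorem sum_bx_trace {k : ℕ} (hk : l ≤ k) (hkN : k ≤ N) (R S T : ℤ) (c : ℤ) (A : GF J) :
    (4 : ℝ) ^ k * ∑ q ∈ bx N R S T k c, (A.X k k q.1 q.2.1).trace ≤ t1 N R S l A := by
  rw [← t1_const hk hkN, t1, ← mul_pow]
  norm_num
  rw [sum_bx]
  refine sum_le_sum fun m _ => sum_le_sum fun n _ => ?_
  split_ifs
  · exact le_rfl
  · exact (A.psd ..).trace_nonneg

end vertices

/-! ### the theorem -/

section main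

variable {N l : ℕ} {R0 R1 R2 : ℤ} {cc : ℕ → ℤ}
  {A0 : GF J0} {A1 : GF J1} {B1 : GF J1} {B2 : GF J2} {C0 : GF J0} {C2 : GF J2}
  {a : (k : ℕ) → ℤ × ℤ × ℤ → Matrix (IL J0 k) (IL J1 k) ℝ}
  {b : (k : ℕ) → ℤ × ℤ × ℤ → Matrix (IL J1 k) (IL J2 k) ℝ}
  {c : (k : ℕ) → ℤ × ℤ × ℤ → Matrix (IL J0 k) (IL J2 k) ℝ}

/-- the local form -/
def LF (a : (k : ℕ) → ℤ × ℤ × ℤ → Matrix (IL J0 k) (IL J1 k) ℝ)
    (b : (k : ℕ) → ℤ × ℤ × ℤ → Matrix (IL J1 k) (IL J2 k) ℝ)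
    (c : (k : ℕ) → ℤ × ℤ × ℤ → Matrix (IL J0 k) (IL J2 k) ℝ) (k : ℕ) (p : ℤ × ℤ × ℤ) : ℝ :=
  TF (hd J0 k) (hd J1 k) (hd J2 k) (a k p) (b k p) (c k p)

/-- densities of the three vertices with weights -/
def D0 (A0 C0 : GF J0) (κ ν : ℝ) (k : ℕ) (p : ℤ × ℤ × ℤ) : ℝ :=
  vd (κ • A0.X k k p.2.1 p.1) (ν • C0.X k k p.2.2 p.1) (hd J0 k)
@[inherit_doc D0] def D1 (A1 B1 : GF J1) (κ μ : ℝ) (k : ℕ) (p : ℤ × ℤ × ℤ) : ℝ :=
  vd (κ • A1.X k k p.1 p.2.1) (μ • B1.X k k p.2.2 p.2.1) (hd J1 k)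
@[inherit_doc D0] def D2 (B2 C2 : GF J2) (μ ν : ℝ) (k : ℕ) (p : ℤ × ℤ × ℤ) : ℝ :=
  vd (μ • B2.X k k p.2.1 p.2.2) (ν • C2.X k k p.1 p.2.2) (hd J2 k)

theorem smul_sub_psd {P : Type} [Fintype P] {X Y : Matrix P P ℝ} {κ : ℝ} (hκ : 0 ≤ κ)
    (h : (Y - X).PosSemidef) : (κ • Y - κ • X).PosSemidef := by
  rw [← smul_sub]; exact h.smul hκ

/-- **Pointwise bound of a triple of pieces by any two vertices.** -/
theorem piece_pt (ha : Dom01 A0 A1 a) (hb : Dom12 B1 B2 b) (hc : Dom02 C0 C2 c) (i j t : ℕ)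
    (k : ℕ) (p : ℤ × ℤ × ℤ) :
    let κ := lv i
    let μ := lv j
    let ν := lv t
    let K := ((225 / 16 : ℝ) * κ⁻¹) * ((225 / 16) * μ⁻¹) * ((225 / 16) * ν⁻¹)
    let T := TF (hd J0 k) (hd J1 k) (hd J2 k) (pcs i (a k p)) (pcs j (b k p)) (pcs t (c k p))
    T ^ 2 ≤ K * D1 A1 B1 κ μ k p * D2 B2 C2 μ ν k p ∧
    T ^ 2 ≤ K * D2 B2 C2 μ ν k p * D0 A0 C0 κ ν k p ∧
    T ^ 2 ≤ K * D0 A0 C0 κ ν k p * D1 A1 B1 κ μ k p := by
  intro κ μ ν K T
  have hκ : 0 < κ := lv_pos i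
  have hμ : 0 < μ := lv_pos j
  have hν : 0 < ν := lv_pos t
  have k1 : (0 : ℝ) ≤ (225 / 16) * κ⁻¹ := by positivity
  have k2 : (0 : ℝ) ≤ (225 / 16) * μ⁻¹ := by positivity
  have k3 : (0 : ℝ) ≤ (225 / 16) * ν⁻¹ := by positivity
  have fa := fac_pcs i (ha k p).2.2
  have fb := fac_pcs j (hb k p).2.2
  have fc := fac_pcs t (hc k p).2.2
  have e12 := tf_12 (r0 := hd J0 k) (r1 := hd J1 k) (r2 := hd J2 k) (hd_symm k) (hd_sq k)
    (hd_symm k) (hd_symm k) hκ.le hμ.le hν.le k1 k2 k3 fa fb fc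
  have e20 := tf_20 (r0 := hd J0 k) (r1 := hd J1 k) (r2 := hd J2 k) (hd_symm k) (hd_symm k)
    (hd_sq k) (hd_symm k) hκ.le hμ.le hν.le k1 k2 k3 fa fb fc
  have e01 := tf_01 (r0 := hd J0 k) (r1 := hd J1 k) (r2 := hd J2 k) (hd_symm k) (hd_symm k)
    (hd_symm k) (hd_sq k) hκ.le hμ.le hν.le k1 k2 k3 fa fb fc
  have v1 : vd (XC κ (a k p)) (XR μ (b k p)) (hd J1 k) ≤ D1 A1 B1 κ μ k p :=
    vd_mono (XC_psd hκ.le _) (XR_psd hμ.le _) (smul_sub_psd hκ.le (ha k p).2.1)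
      (smul_sub_psd hμ.le (hb k p).1) (hd_symm k)
  have v2 : vd (XC μ (b k p)) (XC ν (c k p)) (hd J2 k) ≤ D2 B2 C2 μ ν k p :=
    vd_mono (XC_psd hμ.le _) (XC_psd hν.le _) (smul_sub_psd hμ.le (hb k p).2.1)
      (smul_sub_psd hν.le (hc k p).2.1) (hd_symm k)
  have v0 : vd (XR κ (a k p)) (XR ν (c k p)) (hd J0 k) ≤ D0 A0 C0 κ ν k p :=
    vd_mono (XR_psd hκ.le _) (XR_psd hν.le _) (smul_sub_psd hκ.le (ha k p).1)
      (smul_sub_psd hν.le (hc k p).1) (hd_symm k)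
  have n1 := vd_nonneg (XC_psd hκ.le (a k p)) (XR_psd hμ.le (b k p)) (hd_symm (J := J1) k)
  have n2 := vd_nonneg (XC_psd hμ.le (b k p)) (XC_psd hν.le (c k p)) (hd_symm (J := J2) k)
  have n0 := vd_nonneg (XR_psd hκ.le (a k p)) (XR_psd hν.le (c k p)) (hd_symm (J := J0) k)
  have hK : 0 ≤ K := by positivity
  refine ⟨e12.trans ?_, e20.trans ?_, e01.trans ?_⟩
  · exact mul_le_mul (mul_le_mul_of_nonneg_left v1 hK) v2 n2 (mul_nonneg hK (n1.trans v1))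
  · exact mul_le_mul (mul_le_mul_of_nonneg_left v2 hK) v0 n0 (mul_nonneg hK (n2.trans v2))
  · exact mul_le_mul (mul_le_mul_of_nonneg_left v0 hK) v1 n1 (mul_nonneg hK (n0.trans v0))

theorem D0_nonneg (A0 C0 : GF J0) {κ ν : ℝ} (hκ : 0 ≤ κ) (hν : 0 ≤ ν) (k : ℕ) (p : ℤ × ℤ × ℤ) :
    0 ≤ D0 A0 C0 κ ν k p := vd_nonneg ((A0.psd ..).smul hκ) ((C0.psd ..).smul hν) (hd_symm k)

theorem D1_nonneg (A1 B1 : GF J1) {κ ν : ℝ} (hκ : 0 ≤ κ) (hν : 0 ≤ ν) (k : ℕ) (p : ℤ × ℤ × ℤ) :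
    0 ≤ D1 A1 B1 κ ν k p := vd_nonneg ((A1.psd ..).smul hκ) ((B1.psd ..).smul hν) (hd_symm k)

theorem D2_nonneg (B2 C2 : GF J2) {κ ν : ℝ} (hκ : 0 ≤ κ) (hν : 0 ≤ ν) (k : ℕ) (p : ℤ × ℤ × ℤ) :
    0 ≤ D2 B2 C2 κ ν k p := vd_nonneg ((B2.psd ..).smul hκ) ((C2.psd ..).smul hν) (hd_symm k)

/-- **One dyadic triple of levels.** -/
theorem piece_le (hl : l ≤ N) (hcc : H588.Pl cc) (ha : Dom01 A0 A1 a) (hb : Dom12 B1 B2 b)
    (hc : Dom02 C0 C2 c) {u w β : ℝ} (hu : 0 < u) (hw : 0 < w) (hβ : 0 < β)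
    (hA1 : t2 N R0 R1 l A1 ≤ u ^ 2) (hA0 : t2 N R1 R0 l A0 ≤ u ^ 2)
    (hB1 : t1 N R2 R1 l B1 ≤ β) (hB2 : t1 N R1 R2 l B2 ≤ β)
    (hC0 : t2 N R2 R0 l C0 ≤ w ^ 2) (hC2 : t2 N R0 R2 l C2 ≤ w ^ 2) (i j t : ℕ) :
    WS N l R0 R1 R2 cc (fun k p => |TF (hd J0 k) (hd J1 k) (hd J2 k) (pcs i (a k p))
      (pcs j (b k p)) (pcs t (c k p))|) ≤ 57375 * Real.sqrt (β * u * w) := by
  set κ := lv i with hκdef
  set μ := lv j with hμdef
  set ν := lv t with hνdef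
  have hκ : 0 < κ := lv_pos i
  have hμ : 0 < μ := lv_pos j
  have hν : 0 < ν := lv_pos t
  set K := ((225 / 16 : ℝ) * κ⁻¹) * ((225 / 16) * μ⁻¹) * ((225 / 16) * ν⁻¹) with hKdef
  have hK : 0 ≤ K := by positivity
  set W := WS N l R0 R1 R2 cc (fun k p => |TF (hd J0 k) (hd J1 k) (hd J2 k) (pcs i (a k p))
      (pcs j (b k p)) (pcs t (c k p))|) with hW
  have hW0 : 0 ≤ W := WS_nonneg fun _ _ => abs_nonneg _
  have V1 : WS N l R0 R1 R2 cc (D1 A1 B1 κ μ) ≤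
      1088 * (Real.sqrt (μ * β) * max (κ * u) (Real.sqrt (μ * β))) :=
    vertex_42 hl R0 R1 R2 hcc A1 B1 hu hβ hA1 hB1 hκ hμ
  have V2 : WS N l R0 R1 R2 cc (D2 B2 C2 μ ν) ≤
      1088 * (Real.sqrt (μ * β) * max (ν * w) (Real.sqrt (μ * β))) := by
    have e : WS N l R0 R1 R2 cc (D2 B2 C2 μ ν)
        = WS N l R0 R1 R2 cc (fun k p => vd (μ • B2.X k k p.2.1 p.2.2)
          (ν • C2.X k k p.1 p.2.2) (hd J2 k)) := rfl
    rw [e, WS_v2]
    have h := vertex_42 hl R0 R2 R1 hcc C2 B2 hw hβ hC2 hB2 hν hμ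
    refine le_trans (le_of_eq ?_) h
    refine sum_congr rfl fun k _ => ?_
    congr 1
    have e2 := sum_bx_120 N R0 R2 R1 k (cc k)
      (fun q => vd (μ • B2.X k k q.2.1 q.1) (ν • C2.X k k q.2.2 q.1) (hd J2 k))
    have e3 := sum_bx_102 N R1 R2 R0 k (cc k)
      (fun q => vd (μ • B2.X k k q.2.1 q.1) (ν • C2.X k k q.2.2 q.1) (hd J2 k))
    simp only at e2 e3
    rw [e3, ← e2]
    exact sum_congr rfl fun q _ => vd_comm
  have V0 : WS N l R0 R1 R2 cc (D0 A0 C0 κ ν) ≤ 1088 * ((κ * u) * (ν * w)) := by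
    have e : WS N l R0 R1 R2 cc (D0 A0 C0 κ ν)
        = WS N l R0 R1 R2 cc (fun k p => vd (κ • A0.X k k p.2.1 p.1)
          (ν • C0.X k k p.2.2 p.1) (hd J0 k)) := rfl
    rw [e, WS_v0]
    exact vertex_44 hl R1 R0 R2 hcc A0 C0 hu hw hA0 hC0 hκ hν
  have pt := fun k p => piece_pt ha hb hc i j t k p
  have S12 : W ^ 2 ≤ K * WS N l R0 R1 R2 cc (D1 A1 B1 κ μ) * WS N l R0 R1 R2 cc (D2 B2 C2 μ ν) :=
    WS_cs hK (fun k p => D1_nonneg A1 B1 hκ.le hμ.le k p)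
      (fun k p => D2_nonneg B2 C2 hμ.le hν.le k p) (fun k p => (pt k p).1)
  have S20 : W ^ 2 ≤ K * WS N l R0 R1 R2 cc (D2 B2 C2 μ ν) * WS N l R0 R1 R2 cc (D0 A0 C0 κ ν) :=
    WS_cs hK (fun k p => D2_nonneg B2 C2 hμ.le hν.le k p)
      (fun k p => D0_nonneg A0 C0 hκ.le hν.le k p) (fun k p => (pt k p).2.1)
  have S01 : W ^ 2 ≤ K * WS N l R0 R1 R2 cc (D0 A0 C0 κ ν) * WS N l R0 R1 R2 cc (D1 A1 B1 κ μ) :=
    WS_cs hK (fun k p => D0_nonneg A0 C0 hκ.le hν.le k p)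
      (fun k p => D1_nonneg A1 B1 hκ.le hμ.le k p) (fun k p => (pt k p).2.2)
  have N1 : 0 ≤ WS N l R0 R1 R2 cc (D1 A1 B1 κ μ) :=
    WS_nonneg fun k p => D1_nonneg A1 B1 hκ.le hμ.le k p
  have N2 : 0 ≤ WS N l R0 R1 R2 cc (D2 B2 C2 μ ν) :=
    WS_nonneg fun k p => D2_nonneg B2 C2 hμ.le hν.le k p
  have N0 : 0 ≤ WS N l R0 R1 R2 cc (D0 A0 C0 κ ν) :=
    WS_nonneg fun k p => D0_nonneg A0 C0 hκ.le hν.le k p
  generalize WS N l R0 R1 R2 cc (D1 A1 B1 κ μ) = v1 at *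
  generalize WS N l R0 R1 R2 cc (D2 B2 C2 μ ν) = v2 at *
  generalize WS N l R0 R1 R2 cc (D0 A0 C0 κ ν) = v0 at *
  have hy : 0 < Real.sqrt (μ * β) := Real.sqrt_pos.mpr (mul_pos hμ hβ)
  have hyy : Real.sqrt (μ * β) * Real.sqrt (μ * β) = μ * β := Real.mul_self_sqrt (by positivity)
  set y := Real.sqrt (μ * β) with hydef
  set x := κ * u with hx
  set z := ν * w with hz
  have hx0 : 0 < x := by positivity
  have hz0 : 0 < z := by positivity
  have key : W ^ 2 ≤ K * (1088 ^ 2 * (x * (y * y) * z)) := by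
    rcases lt_or_ge x y with h | h
    · rw [max_eq_right h.le] at V1
      have : v0 * v1 ≤ (1088 * (x * z)) * (1088 * (y * y)) :=
        mul_le_mul V0 V1 N1 (by positivity)
      calc W ^ 2 ≤ K * v0 * v1 := S01
        _ = K * (v0 * v1) := by ring
        _ ≤ K * ((1088 * (x * z)) * (1088 * (y * y))) := mul_le_mul_of_nonneg_left this hK
        _ = _ := by ring
    · rcases lt_or_ge z y with h' | h'
      · rw [max_eq_right h'.le] at V2
        have : v2 * v0 ≤ (1088 * (y * y)) * (1088 * (x * z)) :=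
          mul_le_mul V2 V0 N0 (by positivity)
        calc W ^ 2 ≤ K * v2 * v0 := S20
          _ = K * (v2 * v0) := by ring
          _ ≤ K * ((1088 * (y * y)) * (1088 * (x * z))) := mul_le_mul_of_nonneg_left this hK
          _ = _ := by ring
      · rw [max_eq_left h] at V1
        rw [max_eq_left h'] at V2
        have : v1 * v2 ≤ (1088 * (y * x)) * (1088 * (y * z)) :=
          mul_le_mul V1 V2 N2 (by positivity)
        calc W ^ 2 ≤ K * v1 * v2 := S12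
          _ = K * (v1 * v2) := by ring
          _ ≤ K * ((1088 * (y * x)) * (1088 * (y * z))) := mul_le_mul_of_nonneg_left this hK
          _ = _ := by ring
  have e : K * (1088 ^ 2 * (x * (y * y) * z)) = (57375 * Real.sqrt (β * u * w)) ^ 2 := by
    rw [mul_pow, Real.sq_sqrt (by positivity), hyy, hx, hz, hKdef]
    field_simp
    ring
  rw [e] at key
  exact (abs_le_of_sq_le_sq' key (by positivity)).2

/-- **Theorem (4, 2, 4).** -/
theorem tri424 (hl : l ≤ N) (hcc : H588.Pl cc) (ha : Dom01 A0 A1 a) (hb : Dom12 B1 B2 b)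
    (hc : Dom02 C0 C2 c) {u w β α γ : ℝ} (hu : 0 < u) (hw : 0 < w) (hβ : 0 < β)
    (hA1 : t2 N R0 R1 l A1 ≤ u ^ 2) (hA0 : t2 N R1 R0 l A0 ≤ u ^ 2)
    (hB1 : t1 N R2 R1 l B1 ≤ β) (hB2 : t1 N R1 R2 l B2 ≤ β)
    (hC0 : t2 N R2 R0 l C0 ≤ w ^ 2) (hC2 : t2 N R0 R2 l C2 ≤ w ^ 2)
    (hα : t1 N R0 R1 l A1 ≤ α) (hγ : t1 N R2 R0 l C0 ≤ γ) (L : ℕ) :
    WS N l R0 R1 R2 cc (fun k p => |LF a b c k p|) ≤
      57375 * (L + 1) ^ 3 * Real.sqrt (β * u * w)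
      + (N - l : ℕ) * (1 / 2) ^ L * (Real.sqrt (β * γ) + Real.sqrt (α * γ) + Real.sqrt (α * β)) := by
  have hα0 : 0 ≤ α := (t1_nonneg ..).trans hα
  have hγ0 : 0 ≤ γ := (t1_nonneg ..).trans hγ
  have h1 : WS N l R0 R1 R2 cc (fun k p => |LF a b c k p|) ≤
      WS N l R0 R1 R2 cc (fun k p => ∑ i ∈ range (L + 1), ∑ j ∈ range (L + 1),
        ∑ t ∈ range (L + 1), |TF (hd J0 k) (hd J1 k) (hd J2 k) (pcs i (a k p))
          (pcs j (b k p)) (pcs t (c k p))|)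
      + WS N l R0 R1 R2 cc (fun k p => (1 / 2) ^ L * (Real.sqrt (hs (b k p)) * Real.sqrt (hs (c k p))
        + Real.sqrt (hs (a k p)) * Real.sqrt (hs (c k p))
        + Real.sqrt (hs (a k p)) * Real.sqrt (hs (b k p)))) := by
    rw [← WS_add]
    exact WS_mono fun k p => TF_trunc (hd_symm k) (hd_sq k) (hd_symm k) (hd_sq k) (hd_symm k)
      (hd_sq k) L _ _ _
  have h2 : WS N l R0 R1 R2 cc (fun k p => ∑ i ∈ range (L + 1), ∑ j ∈ range (L + 1),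
        ∑ t ∈ range (L + 1), |TF (hd J0 k) (hd J1 k) (hd J2 k) (pcs i (a k p))
          (pcs j (b k p)) (pcs t (c k p))|) ≤ 57375 * (L + 1) ^ 3 * Real.sqrt (β * u * w) := by
    rw [WS_sum]
    simp only [WS_sum]
    have hb3 : ∀ i ∈ range (L + 1), ∀ j ∈ range (L + 1), ∀ t ∈ range (L + 1),
        WS N l R0 R1 R2 cc (fun k p => |TF (hd J0 k) (hd J1 k) (hd J2 k) (pcs i (a k p))
          (pcs j (b k p)) (pcs t (c k p))|) ≤ 57375 * Real.sqrt (β * u * w) :=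
      fun i _ j _ t _ => piece_le hl hcc ha hb hc hu hw hβ hA1 hA0 hB1 hB2 hC0 hC2 i j t
    calc _ ≤ ∑ i ∈ range (L + 1), ∑ j ∈ range (L + 1), ∑ t ∈ range (L + 1),
          57375 * Real.sqrt (β * u * w) :=
          sum_le_sum fun i hi => sum_le_sum fun j hj => sum_le_sum fun t ht => hb3 i hi j hj t ht
      _ = 57375 * (L + 1) ^ 3 * Real.sqrt (β * u * w) := by
          simp only [sum_const, card_range, nsmul_eq_mul]
          push_cast; ring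
  -- the remainder
  have hsa : ∀ k p, hs (a k p) ≤ (A1.X k k p.1 p.2.1).trace := by
    intro k p
    have := (ha k p).2.1.trace_nonneg
    rw [trace_sub, trace_mul_comm] at this
    unfold hs; linarith
  have hsb : ∀ k p, hs (b k p) ≤ (B2.X k k p.2.1 p.2.2).trace := by
    intro k p
    have := (hb k p).2.1.trace_nonneg
    rw [trace_sub, trace_mul_comm] at this
    unfold hs; linarith
  have hsc : ∀ k p, hs (c k p) ≤ (C0.X k k p.2.2 p.1).trace := by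
    intro k p
    have := (hc k p).1.trace_nonneg
    rw [trace_sub] at this
    unfold hs; linarith
  have ta : ∀ k, l ≤ k → k ≤ N → (4 : ℝ) ^ k * ∑ p ∈ bx N R0 R1 R2 k (cc k), hs (a k p) ≤ α := by
    intro k hk hkN
    refine le_trans ?_ ((sum_bx_trace hk hkN R0 R1 R2 (cc k) A1).trans hα)
    exact mul_le_mul_of_nonneg_left (sum_le_sum fun p _ => hsa k p) (by positivity)
  have tb : ∀ k, l ≤ k → k ≤ N → (4 : ℝ) ^ k * ∑ p ∈ bx N R0 R1 R2 k (cc k), hs (b k p) ≤ β := by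
    intro k hk hkN
    refine le_trans ?_ ((sum_bx_trace hk hkN R1 R2 R0 (cc k) B2).trans hB2)
    rw [← sum_bx_120 N R0 R1 R2 k (cc k) (fun q => (B2.X k k q.1 q.2.1).trace)]
    exact mul_le_mul_of_nonneg_left (sum_le_sum fun p _ => hsb k p) (by positivity)
  have tc : ∀ k, l ≤ k → k ≤ N → (4 : ℝ) ^ k * ∑ p ∈ bx N R0 R1 R2 k (cc k), hs (c k p) ≤ γ := by
    intro k hk hkN
    refine le_trans ?_ ((sum_bx_trace hk hkN R2 R0 R1 (cc k) C0).trans hγ)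
    rw [← sum_bx_120 N R1 R2 R0 k (cc k) (fun q => (C0.X k k q.1 q.2.1).trace),
      ← sum_bx_120 N R0 R1 R2 k (cc k) (fun q => (C0.X k k q.2.1 q.2.2).trace)]
    exact mul_le_mul_of_nonneg_left (sum_le_sum fun p _ => hsc k p) (by positivity)
  have cs : ∀ {f g : ℕ → ℤ × ℤ × ℤ → ℝ} {F G : ℝ}, (∀ k p, 0 ≤ f k p) → (∀ k p, 0 ≤ g k p) →
      0 ≤ F → (∀ k, l ≤ k → k ≤ N → (4 : ℝ) ^ k * ∑ p ∈ bx N R0 R1 R2 k (cc k), f k p ≤ F) →
      (∀ k, l ≤ k → k ≤ N → (4 : ℝ) ^ k * ∑ p ∈ bx N R0 R1 R2 k (cc k), g k p ≤ G) →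
      WS N l R0 R1 R2 cc (fun k p => Real.sqrt (f k p) * Real.sqrt (g k p))
        ≤ (N - l : ℕ) * Real.sqrt (F * G) := by
    intro f g F G hf hg hF hfF hgG
    unfold WS
    have : ∀ k ∈ Icc (l + 1) N, (4 : ℝ) ^ k * ∑ p ∈ bx N R0 R1 R2 k (cc k),
        Real.sqrt (f k p) * Real.sqrt (g k p) ≤ Real.sqrt (F * G) := by
      intro k hk
      have hk' := mem_Icc.mp hk
      have h4 : (0 : ℝ) ≤ 4 ^ k := by positivity
      have q1 := Finset.sum_mul_sq_le_sq_mul_sq (bx N R0 R1 R2 k (cc k))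
        (fun p => Real.sqrt (f k p)) (fun p => Real.sqrt (g k p))
      simp only [Real.sq_sqrt (hf _ _), Real.sq_sqrt (hg _ _)] at q1
      have q2 := hfF k (by omega) hk'.2
      have q3 := hgG k (by omega) hk'.2
      refine Real.le_sqrt_of_sq_le ?_
      rw [mul_pow]
      have nf : 0 ≤ ∑ p ∈ bx N R0 R1 R2 k (cc k), f k p := sum_nonneg fun p _ => hf k p
      have ng : 0 ≤ ∑ p ∈ bx N R0 R1 R2 k (cc k), g k p := sum_nonneg fun p _ => hg k p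
      calc _ ≤ ((4 : ℝ) ^ k) ^ 2 * ((∑ p ∈ bx N R0 R1 R2 k (cc k), f k p)
            * ∑ p ∈ bx N R0 R1 R2 k (cc k), g k p) :=
            mul_le_mul_of_nonneg_left q1 (by positivity)
        _ = (4 ^ k * ∑ p ∈ bx N R0 R1 R2 k (cc k), f k p)
            * (4 ^ k * ∑ p ∈ bx N R0 R1 R2 k (cc k), g k p) := by ring
        _ ≤ F * G := mul_le_mul q2 q3 (mul_nonneg h4 ng) hF
    calc _ ≤ ∑ _k ∈ Icc (l + 1) N, Real.sqrt (F * G) := sum_le_sum this
      _ = _ := by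
          rw [sum_const, Nat.card_Icc, nsmul_eq_mul]
          congr 2
          omega
  have r1 := cs (fun k p => hs_nonneg (b k p)) (fun k p => hs_nonneg (c k p)) hβ.le tb tc
  have r2 := cs (fun k p => hs_nonneg (a k p)) (fun k p => hs_nonneg (c k p)) hα0 ta tc
  have r3 := cs (fun k p => hs_nonneg (a k p)) (fun k p => hs_nonneg (b k p)) hα0 ta tb
  have h3 : WS N l R0 R1 R2 cc (fun k p => (1 / 2) ^ L * (Real.sqrt (hs (b k p))
        * Real.sqrt (hs (c k p)) + Real.sqrt (hs (a k p)) * Real.sqrt (hs (c k p))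
        + Real.sqrt (hs (a k p)) * Real.sqrt (hs (b k p))))
      = (1 / 2) ^ L * (WS N l R0 R1 R2 cc (fun k p => Real.sqrt (hs (b k p))
        * Real.sqrt (hs (c k p)))
        + WS N l R0 R1 R2 cc (fun k p => Real.sqrt (hs (a k p)) * Real.sqrt (hs (c k p)))
        + WS N l R0 R1 R2 cc (fun k p => Real.sqrt (hs (a k p)) * Real.sqrt (hs (b k p)))) := by
    rw [← WS_add, ← WS_add]
    unfold WS
    rw [mul_sum]
    refine sum_congr rfl fun k _ => ?_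
    rw [← mul_sum]
    ring
  have h4 : (0 : ℝ) ≤ (1 / 2) ^ L := by positivity
  have h5 := mul_le_mul_of_nonneg_left (add_le_add (add_le_add r1 r2) r3) h4
  rw [← h3] at h5
  calc _ ≤ _ := h1
    _ ≤ _ := add_le_add h2 h5
    _ = _ := by ring

end main

end

end Vale.Agent.P141.PL.H48
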