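import Vale.Agent.P141.PL.H48.Rav
import Vale.Agent.P141.PL.H48.Tri

/-!
# P141: the pair theorem with masks (stopping families of squares on each of the two faces)
-/

namespace Vale.Agent.P141.PL.H48

set_option linter.unusedSectionVars false

open Finset Matrix Vale.Agent.P075 Vale.Agent.P141.PL

noncomputable section

variable {J : Type} [Fintype J] [DecidableEq J]

/-- a family of squares: scale, outer index, middle index -/
abbrev MS : Type := ℕ → ℤ → ℤ → Prop

/-- closed under parents below scale `N` -/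
def Cl (N : ℕ) (U : MS) : Prop := ∀ k, k < N → ∀ n m, U k n m → U (k + 1) (n / 2) (m / 2)

open scoped Classical in
/-- masked Gram matrices -/
def mU (A : GF J) (U : MS) (k : ℕ) (m n : ℤ) : Matrix (IL J k) (IL J k) ℝ :=
  if U k n m then A.X k k n m else 0

open scoped Classical in
/-- Gram matrices masked by the parent -/
def mP (A : GF J) (U : MS) (k : ℕ) (m n : ℤ) : Matrix (IL J k) (IL J k) ℝ :=
  if U (k + 1) (n / 2) (m / 2) then A.X k k n m else 0

open scoped Classical in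
/-- masked matrices of scale `k + 1`, index type `IL J k ⊕ IL J k` -/
def mS (A : GF J) (U : MS) (k : ℕ) (m n : ℤ) :
    Matrix (IL J k ⊕ IL J k) (IL J k ⊕ IL J k) ℝ :=
  if U (k + 1) n m then Xs A (k + 1) k n m else 0

theorem mU_psd (A : GF J) (U : MS) (k : ℕ) (m n : ℤ) : (mU A U k m n).PosSemidef := by
  unfold mU; split_ifs
  · exact A.psd ..
  · exact PosSemidef.zero

theorem mP_psd (A : GF J) (U : MS) (k : ℕ) (m n : ℤ) : (mP A U k m n).PosSemidef := by
  unfold mP; split_ifs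
  · exact A.psd ..
  · exact PosSemidef.zero

theorem mS_psd (A : GF J) (U : MS) (k : ℕ) (m n : ℤ) : (mS A U k m n).PosSemidef := by
  unfold mS; split_ifs
  · exact Xs_psd ..
  · exact PosSemidef.zero

theorem mU_succ (A : GF J) (U : MS) (k : ℕ) (m : ℤ) : mU A U (k + 1) m = mS A U k m := rfl

open scoped Classical in
theorem mP_child (A : GF J) (U : MS) (k : ℕ) (m n m' n' : ℤ) (hm : m' / 2 = m) (hn : n' / 2 = n) :
    mP A U k m' n' = if U (k + 1) n m then A.X k k n' m' else 0 := by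
  unfold mP
  rw [hm, hn]

/-- density of the charges -/
def gP (A : GF J) (U : MS) (k : ℕ) (m n : ℤ) : ℝ := GX (mP A U k m n)

theorem gP_nonneg (A : GF J) (U : MS) (k : ℕ) (m n : ℤ) : 0 ≤ gP A U k m n :=
  H588.GX_nonneg' (mP_psd ..)

/-! ### column split of the row averages -/

section split

variable {P : Type} [Fintype P] [DecidableEq P]

theorem rav_refl {F : ℤ → Matrix (P ⊕ P) (P ⊕ P) ℝ} {G H : ℤ → Matrix P P ℝ}
    (h : ∀ n, F n + rad P * F n * rad P = bd (G n) (H n)) (r : ℕ) (n : ℤ) :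
    rav F r n + rad P * rav F r n * rad P = bd (rav G r n) (rav H r n) := by
  induction r generalizing n with
  | zero => exact h n
  | succ r ih =>
    have e : bd ((1 / 2 : ℝ) • (rav G r (2 * n) + rav G r (2 * n + 1)))
        ((1 / 2 : ℝ) • (rav H r (2 * n) + rav H r (2 * n + 1)))
        = (1 / 2 : ℝ) • (bd (rav G r (2 * n)) (rav H r (2 * n))
          + bd (rav G r (2 * n + 1)) (rav H r (2 * n + 1))) := by
      unfold bd
      rw [fromBlocks_add, fromBlocks_smul]
      simp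
    rw [rav_succ, rav_succ, rav_succ, e, ← ih, ← ih]
    simp only [Matrix.mul_smul, Matrix.smul_mul, Matrix.mul_add, Matrix.add_mul]
    module

theorem mS_split (A : GF J) (U : MS) (k : ℕ) (m n : ℤ) :
    mS A U k m n + rad (IL J k) * mS A U k m n * rad (IL J k)
      = bd ((1 / 2 : ℝ) • (mP A U k (2 * m) (2 * n) + mP A U k (2 * m) (2 * n + 1)))
        ((1 / 2 : ℝ) • (mP A U k (2 * m + 1) (2 * n) + mP A U k (2 * m + 1) (2 * n + 1))) := by
  have h1 : ∀ n : ℤ, 2 * n / 2 = n := fun n => by omega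
  have h2 : ∀ n : ℤ, (2 * n + 1) / 2 = n := fun n => by omega
  rw [mP_child A U k m n _ _ (h1 m) (h1 n), mP_child A U k m n _ _ (h1 m) (h2 n),
    mP_child A U k m n _ _ (h2 m) (h1 n), mP_child A U k m n _ _ (h2 m) (h2 n)]
  unfold mS
  split_ifs
  · rw [Xs_split, A.row, A.row]
  · unfold bd
    simp

theorem GX_mS_le (A : GF J) (U : MS) (k : ℕ) (m : ℤ) (r : ℕ) (n : ℤ) :
    GX (rav (mU A U (k + 1) m) r n)
      ≤ (1 / 2) * (GX (rav (mP A U k (2 * m)) (r + 1) n) + GX (rav (mP A U k (2 * m + 1)) (r + 1) n))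
      := by
  have e0 : GX (rav (mU A U (k + 1) m) r n) = GX (rav (mS A U k m) r n) := rfl
  rw [e0]
  have h := rav_refl (F := mS A U k m) (mS_split A U k m) r n
  rw [rav_rav, rav_rav] at h
  have p0 := rav_psd (mS_psd A U k m) r n
  have h1 := Vale.Agent.P075.R.GX_col p0
    (rav_psd (mP_psd A U k (2 * m)) (r + 1) n) (rav_psd (mP_psd A U k (2 * m + 1)) (r + 1) n) h
  have h2 : 0 ≤ (phi (rav (mS A U k m) r n)
      * (rad (IL J k) * phi (rav (mS A U k m) r n) * rad (IL J k))).trace :=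
    trace_mul_nonneg (phi_psd p0) (psd_conj_symm (phi_psd p0) rad_symm)
  linarith

end split

/-! ### energies of the masked families -/

/-- energy with outer scale `k + r` -/
def EU (N : ℕ) (R S : ℤ) (A : GF J) (U : MS) (k r : ℕ) : ℝ :=
  (4 : ℝ) ^ k * ∑ m ∈ iv (N - k) S, eg (mU A U k m) (N - k) R r

/-- energy of the family masked by the parents -/
def EP (N : ℕ) (R S : ℤ) (A : GF J) (U : MS) (k r : ℕ) : ℝ :=
  (4 : ℝ) ^ k * ∑ m ∈ iv (N - k) S, eg (mP A U k m) (N - k) R r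

/-- cost of the newly stopped squares at row distance `r` -/
def c2 (N : ℕ) (R S : ℤ) (A : GF J) (U : MS) (k r : ℕ) : ℝ :=
  (4 : ℝ) ^ k * ∑ m ∈ iv (N - k) S, ∑ n ∈ iv (N - k) R,
    (phi (rav (mP A U k m) (r + 1) (n / 2 ^ (r + 1))) * (mP A U k m n - mU A U k m n)).trace

theorem EU_nonneg (N : ℕ) (R S : ℤ) (A : GF J) (U : MS) (k r : ℕ) : 0 ≤ EU N R S A U k r :=
  mul_nonneg (by positivity) (sum_nonneg fun m _ => eg_nonneg (mU_psd A U k m) _ _ _)

theorem EU_le_EP {N k : ℕ} (hk : k < N) (R S : ℤ) (A : GF J) (U : MS) (r : ℕ) :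
    EU N R S A U (k + 1) r ≤ EP N R S A U k (r + 1) := by
  have e : N - k = (N - (k + 1)) + 1 := by omega
  have e2 : N - k - (r + 1) = N - (k + 1) - r := by omega
  unfold EU EP
  rw [pow_succ (4 : ℝ) k, mul_assoc]
  refine mul_le_mul_of_nonneg_left ?_ (by positivity)
  have h : ∀ f : ℤ → ℝ, ∑ m ∈ iv (N - k) S, f m
      = ∑ m ∈ iv (N - (k + 1)) S, (f (2 * m) + f (2 * m + 1)) := by
    intro f; rw [e]; exact H103.sum_iv_pair _ _ _
  rw [h, mul_sum]
  refine sum_le_sum fun m _ => ?_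
  unfold eg
  rw [e2, ← mul_add, ← sum_add_distrib, pow_succ, mul_assoc, ← mul_assoc (4 : ℝ),
    mul_comm (4 : ℝ), mul_assoc ((2 : ℝ) ^ r)]
  refine mul_le_mul_of_nonneg_left ?_ (by positivity)
  rw [mul_sum, mul_sum]
  refine sum_le_sum fun n _ => ?_
  have := GX_mS_le A U k m r n
  linarith

theorem EP_le {N k : ℕ} (R S : ℤ) (A : GF J) (U : MS) {r : ℕ} (hr : r < N - k) :
    EP N R S A U k (r + 1) ≤ EU N R S A U k (r + 1) + c2 N R S A U k r := by
  unfold EP EU c2
  rw [← mul_add, ← sum_add_distrib]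
  refine mul_le_mul_of_nonneg_left (sum_le_sum fun m _ => ?_) (by positivity)
  obtain ⟨l, hl⟩ : ∃ l, N - k = l + (r + 1) := ⟨N - k - (r + 1), by omega⟩
  have hl2 : N - k - (r + 1) = l := by omega
  have h1 := rav_sum (fun n => mP A U k m n - mU A U k m n)
    (fun n => phi (rav (mP A U k m) (r + 1) n)) (r + 1) l R
  rw [← hl] at h1
  rw [← h1]
  unfold eg
  rw [hl2, ← mul_add, ← sum_add_distrib]
  refine mul_le_mul_of_nonneg_left (sum_le_sum fun n _ => ?_) (by positivity)
  rw [rav_sub]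
  have h2 := GX_grad (rav_psd (mP_psd A U k m) (r + 1) n) (rav_psd (mU_psd A U k m) (r + 1) n)
  rw [Matrix.mul_sub, trace_sub] at h2 ⊢
  linarith

/-- weighted energies -/
def WU (N : ℕ) (R S : ℤ) (A : GF J) (U : MS) (k : ℕ) : ℝ :=
  ∑ r ∈ range (N - k + 1), (3 / 4 : ℝ) ^ r * EU N R S A U k r

/-- energies which pay for the shift -/
def SU (N : ℕ) (R S : ℤ) (A : GF J) (U : MS) (k : ℕ) : ℝ :=
  (4 : ℝ) ^ k * ∑ m ∈ iv (N - k) S, SG (mU A U k m) (N - k) R

/-- total cost of the newly stopped squares in the weighted energies -/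
def C2 (N : ℕ) (R S : ℤ) (A : GF J) (U : MS) (k : ℕ) : ℝ :=
  ∑ r ∈ range (N - k), (3 / 4 : ℝ) ^ r * c2 N R S A U k r

theorem SU_eq (N : ℕ) (R S : ℤ) (A : GF J) (U : MS) (k : ℕ) :
    SU N R S A U k = ∑ r ∈ range (N - k), (3 / 4) ^ r * (EU N R S A U k r - EU N R S A U k (r + 1))
      + (3 / 4) ^ (N - k) * EU N R S A U k (N - k) := by
  unfold SU SG EU
  rw [sum_add_distrib, mul_add, sum_comm, mul_sum]
  congr 1
  · refine sum_congr rfl fun r _ => ?_
    rw [← mul_sum, sum_sub_distrib]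
    ring
  · rw [← mul_sum]
    ring

theorem WU_step {N k : ℕ} (h : k < N) (R S : ℤ) (A : GF J) (U : MS) :
    WU N R S A U (k + 1) + SU N R S A U k ≤ WU N R S A U k + C2 N R S A U k := by
  rw [SU_eq]
  unfold WU C2
  have e : N - (k + 1) + 1 = N - k := by omega
  rw [e, sum_range_succ _ (N - k)]
  have h1 : ∑ r ∈ range (N - k), (3 / 4 : ℝ) ^ r * EU N R S A U (k + 1) r
      ≤ ∑ r ∈ range (N - k), (3 / 4 : ℝ) ^ r * EU N R S A U k (r + 1)
        + ∑ r ∈ range (N - k), (3 / 4 : ℝ) ^ r * c2 N R S A U k r := by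
    rw [← sum_add_distrib]
    refine sum_le_sum fun r hr => ?_
    rw [← mul_add]
    refine mul_le_mul_of_nonneg_left ?_ (by positivity)
    exact (EU_le_EP h R S A U r).trans (EP_le R S A U (mem_range.1 hr))
  have h2 : ∑ r ∈ range (N - k), (3 / 4 : ℝ) ^ r * (EU N R S A U k r - EU N R S A U k (r + 1))
      = ∑ r ∈ range (N - k), (3 / 4 : ℝ) ^ r * EU N R S A U k r
        - ∑ r ∈ range (N - k), (3 / 4 : ℝ) ^ r * EU N R S A U k (r + 1) := by
    rw [← sum_sub_distrib]
    exact sum_congr rfl fun r _ => by ring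
  rw [h2]
  linarith

/-! ### the split -/

/-- masked mixed energy -/
def MU (N : ℕ) (R S T : ℤ) (A B : GF J) (U V : MS) (k : ℕ) (c : ℤ) : ℝ :=
  (4 : ℝ) ^ k * ∑ m ∈ iv (N - k) S, alg (mU A U k m) (mU B V k m) (N - k) R T (c - m)

open scoped Classical in
/-- masked main term -/
def nU (N : ℕ) (R S T : ℤ) (A B : GF J) (U V : MS) (k : ℕ) (c : ℤ) : ℝ :=
  (4 : ℝ) ^ k * ∑ m ∈ iv (N - k) S, ∑ n ∈ iv (N - k) R,
    if c - m - n ∈ iv (N - k) T then
      (if U k n m ∧ V k (c - m - n) m then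
        vd (A.X k k n m) (B.X k k (c - m - n) m) (hd J k) else 0) else 0

open scoped Classical in
/-- cost of the stopped children in the split -/
def K1 (N : ℕ) (R S T : ℤ) (A B : GF J) (U V : MS) (k : ℕ) (c : ℤ) : ℝ :=
  (4 : ℝ) ^ k * ∑ m ∈ iv (N - k) S, ∑ n ∈ iv (N - k) R,
    if 2 * (c - m / 2) + 1 - n ∈ iv (N - k) T then
      (if U (k + 1) (n / 2) (m / 2) ∧ V (k + 1) ((2 * (c - m / 2) + 1 - n) / 2) (m / 2)
        ∧ ¬ (U k n m ∧ V k (2 * (c - m / 2) + 1 - n) m) then
        2 * gP A U k m n + 2 * gP B V k m (2 * (c - m / 2) + 1 - n) else 0) else 0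

theorem pl_split (d : ℕ) (R T s : ℤ) (f : ℤ → ℤ → ℝ) :
    ∑ n ∈ iv (d + 1) R, (if 2 * s + 1 - n ∈ iv (d + 1) T then f n (2 * s + 1 - n) else 0)
      = ∑ n ∈ iv d R, if s - n ∈ iv d T then
        f (2 * n) (2 * (s - n) + 1) + f (2 * n + 1) (2 * (s - n)) else 0 := by
  rw [H588.sum_iv_succ]
  refine sum_congr rfl fun n _ => ?_
  have e1 : 2 * s + 1 - 2 * n = 2 * (s - n) + 1 := by ring
  have e2 : 2 * s + 1 - (2 * n + 1) = 2 * (s - n) := by ring
  rw [e1, e2]
  simp only [H588.mem_iv_double, H588.mem_iv_double']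
  split_ifs
  · rfl
  · simp

theorem phi_mU_mul (A B : GF J) (U V : MS) (k : ℕ) (m n n' : ℤ) [Decidable (U k n m ∧ V k n' m)] :
    (phi (mU A U k m n) * phi (mU B V k m n')).trace
      = if U k n m ∧ V k n' m then mx k k A B n n' m else 0 := by
  unfold mx
  by_cases h1 : U k n m
  · by_cases h2 : V k n' m
    · rw [if_pos ⟨h1, h2⟩, mU, mU, if_pos h1, if_pos h2]
    · have e : mU B V k m n' = 0 := if_neg h2
      rw [if_neg (fun h => h2 h.2), e, phi_zero, Matrix.mul_zero, trace_zero]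
  · have e : mU A U k m n = 0 := if_neg h1
    rw [if_neg (fun h => h1 h.1), e, phi_zero, Matrix.zero_mul, trace_zero]

theorem mx_le_G (A B : GF J) (k : ℕ) (n n' m : ℤ) :
    mx k k A B n n' m ≤ 2 * GX (A.X k k n m) + 2 * GX (B.X k k n' m) := by
  have h1 := H588.trace_mul_le_half (phi_symm (A.psd k k n m)) (phi_symm (B.psd k k n' m))
  have h2 := H588.phi_sq_le_GX (A.psd k k n m)
  have h3 := H588.phi_sq_le_GX (B.psd k k n' m)
  unfold mx
  linarith

open scoped Classical in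
/-- error density -/
def er (A : GF J) (U : MS) (k : ℕ) (m n : ℤ) : ℝ :=
  if U (k + 1) n m then (3 / 4) * (dl k k A n (2 * m) + dl k k A n (2 * m + 1))
    + 7 * cd (k + 1) k A n m else 0

theorem er_nonneg (A : GF J) (U : MS) (k : ℕ) (m n : ℤ) : 0 ≤ er A U k m n := by
  unfold er
  split_ifs
  · have := dl_nonneg k k A n (2 * m)
    have := dl_nonneg k k A n (2 * m + 1)
    have := cd_nonneg (k + 1) k A n m
    positivity
  · exact le_rfl

theorem er_pt (A : GF J) (U : MS) (k : ℕ) (m n : ℤ) :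
    4 * er A U k m n ≤ 14 * ((gP A U k (2 * m) (2 * n) + gP A U k (2 * m) (2 * n + 1)
      + (gP A U k (2 * m + 1) (2 * n) + gP A U k (2 * m + 1) (2 * n + 1)))
      - 4 * GX (mU A U (k + 1) m n)) := by
  have h1 : ∀ n : ℤ, 2 * n / 2 = n := fun n => by omega
  have h2 : ∀ n : ℤ, (2 * n + 1) / 2 = n := fun n => by omega
  unfold er gP
  rw [mP_child A U k m n _ _ (h1 m) (h1 n), mP_child A U k m n _ _ (h1 m) (h2 n),
    mP_child A U k m n _ _ (h2 m) (h1 n), mP_child A U k m n _ _ (h2 m) (h2 n)]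
  unfold mU
  split_ifs
  · have c1 := col_pt (k + 1) k A n m
    have r1 := row_pt k k A n (2 * m)
    have r2 := row_pt k k A n (2 * m + 1)
    have d1 := dl_nonneg k k A n (2 * m)
    have d2 := dl_nonneg k k A n (2 * m + 1)
    linarith
  · rw [GX_zero, GX_zero]; simp

theorem er_sum {N k : ℕ} (h : k < N) (R S : ℤ) (A : GF J) (U : MS) :
    (4 : ℝ) ^ (k + 1) * ∑ m ∈ iv (N - (k + 1)) S, ∑ n ∈ iv (N - (k + 1)) R, er A U k m n
      ≤ 14 * (EP N R S A U k 0 - EU N R S A U (k + 1) 0) := by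
  have e : N - k = (N - (k + 1)) + 1 := by omega
  have hEP : EP N R S A U k 0 = (4 : ℝ) ^ k * ∑ m ∈ iv (N - (k + 1)) S,
      ∑ n ∈ iv (N - (k + 1)) R, (gP A U k (2 * m) (2 * n) + gP A U k (2 * m) (2 * n + 1)
      + (gP A U k (2 * m + 1) (2 * n) + gP A U k (2 * m + 1) (2 * n + 1))) := by
    unfold EP eg
    simp only [pow_zero, one_mul, Nat.sub_zero, rav]
    rw [e, H103.sum_iv_pair]
    congr 1
    refine sum_congr rfl fun m _ => ?_
    rw [H103.sum_iv_pair, H103.sum_iv_pair, ← sum_add_distrib]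
    rfl
  have hEU : EU N R S A U (k + 1) 0 = (4 : ℝ) ^ k * ∑ m ∈ iv (N - (k + 1)) S,
      ∑ n ∈ iv (N - (k + 1)) R, 4 * GX (mU A U (k + 1) m n) := by
    unfold EU eg
    simp only [pow_zero, one_mul, Nat.sub_zero, rav, ← mul_sum]
    ring
  rw [hEP, hEU, ← mul_sub, ← sum_sub_distrib, pow_succ]
  simp only [← sum_sub_distrib]
  rw [mul_left_comm, mul_assoc]
  refine mul_le_mul_of_nonneg_left ?_ (by positivity)
  rw [mul_sum, mul_sum]
  refine sum_le_sum fun m _ => ?_
  rw [mul_sum, mul_sum]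
  exact sum_le_sum fun n _ => er_pt A U k m n

open scoped Classical in
theorem splitU {N k : ℕ} (h : k < N) (R S T : ℤ) (c : ℤ) (A B : GF J) (U V : MS) :
    MU N R S T A B U V (k + 1) c + (1 / 2) * nU N R S T A B U V (k + 1) c
      ≤ (4 : ℝ) ^ k * ∑ m ∈ iv (N - k) S, alg (mU A U k m) (mU B V k m) (N - k) R T
          (2 * (c - m / 2) + 1)
        + K1 N R S T A B U V k c
        + 14 * (EP N R S A U k 0 - EU N R S A U (k + 1) 0
          + (EP N T S B V k 0 - EU N T S B V (k + 1) 0)) := by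
  have e : N - k = (N - (k + 1)) + 1 := by omega
  have h1 : ∀ n : ℤ, 2 * n / 2 = n := fun n => by omega
  have h2 : ∀ n : ℤ, (2 * n + 1) / 2 = n := fun n => by omega
  -- the child density
  set f : ℤ → ℤ → ℤ → ℝ := fun m n n' =>
    (phi (mU A U k m n) * phi (mU B V k m n')).trace
      + (if U (k + 1) (n / 2) (m / 2) ∧ V (k + 1) (n' / 2) (m / 2) ∧ ¬ (U k n m ∧ V k n' m) then
        2 * gP A U k m n + 2 * gP B V k m n' else 0) with hf
  have hf0 : ∀ m n n', 0 ≤ f m n n' := by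
    intro m n n'
    simp only [hf]
    refine add_nonneg (trace_mul_nonneg (phi_psd (mU_psd ..)) (phi_psd (mU_psd ..))) ?_
    split_ifs
    · have := gP_nonneg A U k m n
      have := gP_nonneg B V k m n'
      positivity
    · exact le_rfl
  -- a child pair
  have hchild : ∀ m n n', U (k + 1) (n / 2) (m / 2) → V (k + 1) (n' / 2) (m / 2) →
      mx k k A B n n' m ≤ f m n n' := by
    intro m n n' hU hV
    simp only [hf]
    rw [phi_mU_mul]
    by_cases hc : U k n m ∧ V k n' m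
    · rw [if_pos hc, if_neg (fun h => h.2.2 hc), add_zero]
    · rw [if_neg hc, if_pos ⟨hU, hV, hc⟩, zero_add]
      have := mx_le_G A B k n n' m
      unfold gP mP
      rw [if_pos hU, if_pos hV]
      exact this
  -- pointwise inequality
  have hbox : ∀ n n' m : ℤ,
      (phi (mU A U (k + 1) m n) * phi (mU B V (k + 1) m n')).trace
        + (1 / 2) * (if U (k + 1) n m ∧ V (k + 1) n' m then
          vd (A.X (k + 1) (k + 1) n m) (B.X (k + 1) (k + 1) n' m) (hd J (k + 1)) else 0)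
      ≤ (1 / 4) * ((f (2 * m) (2 * n) (2 * n' + 1) + f (2 * m) (2 * n + 1) (2 * n'))
        + (f (2 * m + 1) (2 * n) (2 * n' + 1) + f (2 * m + 1) (2 * n + 1) (2 * n')))
        + er A U k m n + er B V k m n' := by
    intro n n' m
    have f1 := hf0 (2 * m) (2 * n) (2 * n' + 1)
    have f2 := hf0 (2 * m) (2 * n + 1) (2 * n')
    have f3 := hf0 (2 * m + 1) (2 * n) (2 * n' + 1)
    have f4 := hf0 (2 * m + 1) (2 * n + 1) (2 * n')
    have q1 := er_nonneg A U k m n
    have q2 := er_nonneg B V k m n'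
    have hm := phi_mU_mul A B U V (k + 1) m n n'
    rw [hm]
    by_cases hc : U (k + 1) n m ∧ V (k + 1) n' m
    · rw [if_pos hc, if_pos hc]
      have y1 := y_pt k A B n n' m
      have x1 := xz_pt k k A B n n' (2 * m)
      have x2 := xz_pt k k A B n n' (2 * m + 1)
      have g1 := hchild (2 * m) (2 * n) (2 * n' + 1) (by rw [h1, h1]; exact hc.1)
        (by rw [h2, h1]; exact hc.2)
      have g2 := hchild (2 * m) (2 * n + 1) (2 * n') (by rw [h2, h1]; exact hc.1)
        (by rw [h1, h1]; exact hc.2)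
      have g3 := hchild (2 * m + 1) (2 * n) (2 * n' + 1) (by rw [h1, h2]; exact hc.1)
        (by rw [h2, h2]; exact hc.2)
      have g4 := hchild (2 * m + 1) (2 * n + 1) (2 * n') (by rw [h2, h2]; exact hc.1)
        (by rw [h1, h2]; exact hc.2)
      have e1 : er A U k m n = (3 / 4) * (dl k k A n (2 * m) + dl k k A n (2 * m + 1))
        + 7 * cd (k + 1) k A n m := by unfold er; rw [if_pos hc.1]
      have e2 : er B V k m n' = (3 / 4) * (dl k k B n' (2 * m) + dl k k B n' (2 * m + 1))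
        + 7 * cd (k + 1) k B n' m := by unfold er; rw [if_pos hc.2]
      have e3 : vd (A.X (k + 1) (k + 1) n m) (B.X (k + 1) (k + 1) n' m) (hd J (k + 1))
        = md k A B n n' m := rfl
      rw [e1, e2, e3]
      linarith
    · rw [if_neg hc, if_neg hc]
      linarith
  -- summation
  have hM : MU N R S T A B U V (k + 1) c + (1 / 2) * nU N R S T A B U V (k + 1) c
      = (4 : ℝ) ^ (k + 1) * ∑ m ∈ iv (N - (k + 1)) S, ∑ n ∈ iv (N - (k + 1)) R,
        if c - m - n ∈ iv (N - (k + 1)) T then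
          (phi (mU A U (k + 1) m n) * phi (mU B V (k + 1) m (c - m - n))).trace
          + (1 / 2) * (if U (k + 1) n m ∧ V (k + 1) (c - m - n) m then
          vd (A.X (k + 1) (k + 1) n m) (B.X (k + 1) (k + 1) (c - m - n) m) (hd J (k + 1)) else 0)
        else 0 := by
    unfold MU nU alg
    rw [← mul_assoc, mul_comm (1 / 2 : ℝ), mul_assoc, ← mul_add, mul_sum, ← sum_add_distrib]
    congr 1
    refine sum_congr rfl fun m _ => ?_
    rw [mul_sum, ← sum_add_distrib]
    refine sum_congr rfl fun n _ => ?_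
    split_ifs
    · rfl
    · rfl
    · simp
  have hA : (4 : ℝ) ^ k * ∑ m ∈ iv (N - k) S, alg (mU A U k m) (mU B V k m) (N - k) R T
          (2 * (c - m / 2) + 1) + K1 N R S T A B U V k c
      = (4 : ℝ) ^ (k + 1) * ∑ m ∈ iv (N - (k + 1)) S, ∑ n ∈ iv (N - (k + 1)) R,
        if c - m - n ∈ iv (N - (k + 1)) T then (1 / 4) *
          ((f (2 * m) (2 * n) (2 * (c - m - n) + 1) + f (2 * m) (2 * n + 1) (2 * (c - m - n)))
        + (f (2 * m + 1) (2 * n) (2 * (c - m - n) + 1)
          + f (2 * m + 1) (2 * n + 1) (2 * (c - m - n)))) else 0 := by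
    unfold K1 alg
    rw [← mul_add, ← sum_add_distrib, e, H588.sum_iv_succ, pow_succ, mul_assoc]
    congr 1
    rw [mul_sum]
    refine sum_congr rfl fun m _ => ?_
    have e1 : 2 * m / 2 = m := by omega
    have e2 : (2 * m + 1) / 2 = m := by omega
    have key : ∀ m', m' / 2 = m →
        (∑ n ∈ iv (N - (k + 1) + 1) R, if 2 * (c - m' / 2) + 1 - n ∈ iv (N - (k + 1) + 1) T then
          (phi (mU A U k m' n) * phi (mU B V k m' (2 * (c - m' / 2) + 1 - n))).trace else 0)
        + ∑ n ∈ iv (N - (k + 1) + 1) R, (if 2 * (c - m' / 2) + 1 - n ∈ iv (N - (k + 1) + 1) T then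
          (if U (k + 1) (n / 2) (m' / 2) ∧ V (k + 1) ((2 * (c - m' / 2) + 1 - n) / 2) (m' / 2)
            ∧ ¬ (U k n m' ∧ V k (2 * (c - m' / 2) + 1 - n) m') then
            2 * gP A U k m' n + 2 * gP B V k m' (2 * (c - m' / 2) + 1 - n) else 0) else 0)
        = ∑ n ∈ iv (N - (k + 1)) R, if c - m - n ∈ iv (N - (k + 1)) T then
          f m' (2 * n) (2 * (c - m - n) + 1) + f m' (2 * n + 1) (2 * (c - m - n)) else 0 := by
      intro m' hm'
      rw [← sum_add_distrib, ← pl_split _ R T (c - m) (fun n n' => f m' n n')]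
      refine sum_congr rfl fun n _ => ?_
      rw [hm']
      split_ifs
      · simp only [hf, hm']
        rw [if_pos (by assumption)]
      · simp only [hf, hm']
        rw [if_neg (by assumption)]
      · simp
    rw [key (2 * m) e1, key (2 * m + 1) e2, ← sum_add_distrib, mul_sum]
    refine sum_congr rfl fun n _ => ?_
    split_ifs
    · ring
    · simp
  have hsum : ∑ m ∈ iv (N - (k + 1)) S, ∑ n ∈ iv (N - (k + 1)) R,
        (if c - m - n ∈ iv (N - (k + 1)) T then
          (phi (mU A U (k + 1) m n) * phi (mU B V (k + 1) m (c - m - n))).trace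
          + (1 / 2) * (if U (k + 1) n m ∧ V (k + 1) (c - m - n) m then
          vd (A.X (k + 1) (k + 1) n m) (B.X (k + 1) (k + 1) (c - m - n) m) (hd J (k + 1)) else 0)
        else 0)
      ≤ (∑ m ∈ iv (N - (k + 1)) S, ∑ n ∈ iv (N - (k + 1)) R,
        if c - m - n ∈ iv (N - (k + 1)) T then (1 / 4) *
          ((f (2 * m) (2 * n) (2 * (c - m - n) + 1) + f (2 * m) (2 * n + 1) (2 * (c - m - n)))
        + (f (2 * m + 1) (2 * n) (2 * (c - m - n) + 1)
          + f (2 * m + 1) (2 * n + 1) (2 * (c - m - n)))) else 0)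
        + (∑ m ∈ iv (N - (k + 1)) S, ∑ n ∈ iv (N - (k + 1)) R, er A U k m n)
        + ∑ m ∈ iv (N - (k + 1)) S, ∑ n ∈ iv (N - (k + 1)) T, er B V k m n := by
    rw [← sum_add_distrib, ← sum_add_distrib]
    refine sum_le_sum fun m _ => ?_
    have h5 := H588.sum_refl_le (N - (k + 1)) R T (c - m) (fun n => er B V k m n)
      (fun n => er_nonneg B V k m n)
    refine le_trans ?_ (add_le_add_right h5 _)
    rw [← sum_add_distrib, ← sum_add_distrib]
    refine sum_le_sum fun n _ => ?_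
    have q1 := er_nonneg A U k m n
    by_cases hc : c - m - n ∈ iv (N - (k + 1)) T
    · rw [if_pos hc, if_pos hc, if_pos hc]
      exact hbox n (c - m - n) m
    · rw [if_neg hc, if_neg hc, if_neg hc]
      linarith
  have h5 := er_sum h R S A U
  have h6 := er_sum h T S B V
  have h7 := mul_le_mul_of_nonneg_left hsum (by positivity : (0 : ℝ) ≤ 4 ^ (k + 1))
  rw [mul_add, mul_add] at h7
  rw [hM, hA]
  linarith

end

end Vale.Agent.P141.PL.H48
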