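import Vale.Agent.P141.PL.H48.Mask
import Vale.Agent.P141.PL.H588.Fun

/-!
# P141: the masked functional and the masked pair theorem for one value of the fixed variable
-/

namespace Vale.Agent.P141.PL.H48

set_option linter.unusedSectionVars false

open Finset Matrix Vale.Agent.P075 Vale.Agent.P141.PL

noncomputable section

variable {J : Type} [Fintype J] [DecidableEq J]

/-- **The masked functional.** -/
def FU (N : ℕ) (R S T : ℤ) (A B : GF J) (U V : MS) (c : ℕ → ℤ) (k : ℕ) : ℝ :=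
  2 * (MU N R S T A B U V k (c k) + 14 * (EU N R S A U k 0 + EU N T S B V k 0)
    + 64 * (WU N R S A U k + WU N T S B V k))

/-- cost of one step -/
def cost (N : ℕ) (R S T : ℤ) (A B : GF J) (U V : MS) (k : ℕ) (c' : ℤ) : ℝ :=
  K1 N R S T A B U V k c' + 14 * ((EP N R S A U k 0 - EU N R S A U k 0)
    + (EP N T S B V k 0 - EU N T S B V k 0)) + 64 * (C2 N R S A U k + C2 N T S B V k)

theorem shiftU {N k : ℕ} (R S T : ℤ) (A B : GF J) (U V : MS) {c : ℕ → ℤ} (hc : H588.Pl c) :
    (4 : ℝ) ^ k * ∑ m ∈ iv (N - k) S, alg (mU A U k m) (mU B V k m) (N - k) R T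
        (2 * (c (k + 1) - m / 2) + 1)
      ≤ MU N R S T A B U V k (c k) + 64 * (SU N R S A U k + SU N T S B V k) := by
  unfold MU SU
  have e : 64 * ((4 : ℝ) ^ k * ∑ m ∈ iv (N - k) S, SG (mU A U k m) (N - k) R
      + 4 ^ k * ∑ m ∈ iv (N - k) S, SG (mU B V k m) (N - k) T)
      = 4 ^ k * ∑ m ∈ iv (N - k) S, 64 * (SG (mU A U k m) (N - k) R
        + SG (mU B V k m) (N - k) T) := by
    rw [← mul_sum, sum_add_distrib]; ring
  rw [e, ← mul_add, ← sum_add_distrib]
  refine mul_le_mul_of_nonneg_left (sum_le_sum fun m _ => ?_) (by positivity)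
  have h := shiftD (mU_psd A U k m) (mU_psd B V k m) (N - k) R T (c k - m)
    (2 * (c (k + 1) - m / 2) + 1) 2 (by
      have := hc k
      rw [abs_le]
      push_cast
      constructor <;> omega)
  have h2 := le_abs_self (alg (mU A U k m) (mU B V k m) (N - k) R T
    (2 * (c (k + 1) - m / 2) + 1) - alg (mU A U k m) (mU B V k m) (N - k) R T (c k - m))
  push_cast at h
  linarith

/-- **Step of the masked functional.** -/
theorem FU_step {N k : ℕ} (h : k < N) (R S T : ℤ) (A B : GF J) (U V : MS) {c : ℕ → ℤ}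
    (hc : H588.Pl c) :
    FU N R S T A B U V c (k + 1) + nU N R S T A B U V (k + 1) (c (k + 1))
      ≤ FU N R S T A B U V c k + 2 * cost N R S T A B U V k (c (k + 1)) := by
  have h1 := splitU h R S T (c (k + 1)) A B U V
  have h2 := shiftU (N := N) (k := k) R S T A B U V hc
  have h3 := WU_step h R S A U
  have h4 := WU_step h T S B V
  unfold FU cost
  linarith

open scoped Classical in
theorem nU_nonneg (N : ℕ) (R S T : ℤ) (A B : GF J) (U V : MS) (k : ℕ) (c : ℤ)
    (hr : ((hd J k)ᵀ = hd J k)) : 0 ≤ nU N R S T A B U V k c := by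
  unfold nU
  refine mul_nonneg (by positivity) (sum_nonneg fun m _ => sum_nonneg fun n _ => ?_)
  split_ifs
  · exact vd_nonneg (A.psd ..) (B.psd ..) hr
  · exact le_rfl
  · exact le_rfl

theorem MU_nonneg (N : ℕ) (R S T : ℤ) (A B : GF J) (U V : MS) (k : ℕ) (c : ℤ) :
    0 ≤ MU N R S T A B U V k c := by
  unfold MU alg
  refine mul_nonneg (by positivity) (sum_nonneg fun m _ => sum_nonneg fun n _ => ?_)
  split_ifs
  · exact trace_mul_nonneg (phi_psd (mU_psd ..)) (phi_psd (mU_psd ..))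
  · exact le_rfl

theorem WU_nonneg (N : ℕ) (R S : ℤ) (A : GF J) (U : MS) (k : ℕ) : 0 ≤ WU N R S A U k :=
  sum_nonneg fun r _ => mul_nonneg (by positivity) (EU_nonneg ..)

theorem FU_nonneg (N : ℕ) (R S T : ℤ) (A B : GF J) (U V : MS) (c : ℕ → ℤ) (k : ℕ) :
    0 ≤ FU N R S T A B U V c k := by
  unfold FU
  have h1 := MU_nonneg N R S T A B U V k (c k)
  have h2 := EU_nonneg N R S A U k 0
  have h3 := EU_nonneg N T S B V k 0
  have h4 := WU_nonneg N R S A U k
  have h5 := WU_nonneg N T S B V k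
  positivity

theorem MU_le (N : ℕ) (R S T : ℤ) (A B : GF J) (U V : MS) (k : ℕ) (c : ℤ) :
    MU N R S T A B U V k c ≤ 2 * (EU N R S A U k 0 + EU N T S B V k 0) := by
  unfold MU EU alg eg
  simp only [pow_zero, one_mul, Nat.sub_zero, rav]
  rw [← mul_add, mul_left_comm, ← sum_add_distrib]
  have h4 : (0 : ℝ) ≤ 4 ^ k := by positivity
  refine mul_le_mul_of_nonneg_left ?_ h4
  rw [mul_sum]
  refine sum_le_sum fun m _ => ?_
  have h := H588.sum_refl_le (N - k) R T (c - m) (fun n => 2 * GX (mU B V k m n))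
    (fun n => by have := H588.GX_nonneg' (mU_psd B V k m n); positivity)
  rw [mul_add, mul_sum, mul_sum]
  refine le_trans ?_ (add_le_add_right h _)
  rw [← sum_add_distrib]
  refine sum_le_sum fun n _ => ?_
  split_ifs with hc
  · have h1 := H588.trace_mul_le_half (phi_symm (mU_psd A U k m n))
      (phi_symm (mU_psd B V k m (c - m - n)))
    have h2 := H588.phi_sq_le_GX (mU_psd A U k m n)
    have h3 := H588.phi_sq_le_GX (mU_psd B V k m (c - m - n))
    linarith
  · have := H588.GX_nonneg' (mU_psd A U k m n)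
    linarith

theorem EU_le_zero {N k r : ℕ} (hr : r ≤ N - k) (R S : ℤ) (A : GF J) (U : MS) :
    EU N R S A U k r ≤ EU N R S A U k 0 := by
  unfold EU
  refine mul_le_mul_of_nonneg_left (sum_le_sum fun m _ => ?_) (by positivity)
  exact eg_le_zero (mU_psd A U k m) hr R

theorem WU_le (N : ℕ) (R S : ℤ) (A : GF J) (U : MS) (k : ℕ) :
    WU N R S A U k ≤ 4 * EU N R S A U k 0 := by
  unfold WU
  have h1 : ∑ r ∈ range (N - k + 1), (3 / 4 : ℝ) ^ r * EU N R S A U k r
      ≤ ∑ r ∈ range (N - k + 1), (3 / 4 : ℝ) ^ r * EU N R S A U k 0 := by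
    refine sum_le_sum fun r hr => mul_le_mul_of_nonneg_left ?_ (by positivity)
    exact EU_le_zero (by have := mem_range.mp hr; omega) R S A U
  refine h1.trans ?_
  rw [← sum_mul]
  refine mul_le_mul_of_nonneg_right ?_ (EU_nonneg ..)
  exact H588.sum_geo_le _

theorem FU_le (N : ℕ) (R S T : ℤ) (A B : GF J) (U V : MS) (c : ℕ → ℤ) (k : ℕ) :
    FU N R S T A B U V c k ≤ 544 * (EU N R S A U k 0 + EU N T S B V k 0) := by
  unfold FU
  have h1 := MU_le N R S T A B U V k (c k)
  have h2 := WU_le N R S A U k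
  have h3 := WU_le N T S B V k
  have h4 := EU_nonneg N R S A U k 0
  have h5 := EU_nonneg N T S B V k 0
  linarith

/-- the masked pair theorem, costs not yet estimated -/
theorem pairU {N l : ℕ} (hl : l ≤ N) (R S T : ℤ) (A B : GF J) (U V : MS) {c : ℕ → ℤ}
    (hc : H588.Pl c) :
    ∑ k ∈ Icc (l + 1) N, nU N R S T A B U V k (c k)
      ≤ 544 * (EU N R S A U l 0 + EU N T S B V l 0)
        + 2 * ∑ k ∈ Ico l N, cost N R S T A B U V k (c (k + 1)) := by
  have key : ∀ K, l ≤ K → K ≤ N →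
      FU N R S T A B U V c K + ∑ k ∈ Icc (l + 1) K, nU N R S T A B U V k (c k)
        ≤ FU N R S T A B U V c l + 2 * ∑ k ∈ Ico l K, cost N R S T A B U V k (c (k + 1)) := by
    intro K hK
    induction K, hK using Nat.le_induction with
    | base => intro _; simp
    | succ K hK ih =>
      intro hN
      have h1 := ih (by omega)
      have h2 := FU_step (show K < N by omega) R S T A B U V hc
      rw [Finset.sum_Icc_succ_top (by omega), Finset.sum_Ico_succ_top hK]
      linarith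
  have h1 := key N hl le_rfl
  have h2 := FU_nonneg N R S T A B U V c N
  have h3 := FU_le N R S T A B U V c l
  linarith

/-! ### the costs in terms of charges on the newly stopped squares -/

/-- newly stopped square -/
def nw (U : MS) (k : ℕ) (n m : ℤ) : Prop := U (k + 1) (n / 2) (m / 2) ∧ ¬ U k n m

/-- own charge of a newly stopped square -/
def qo (N : ℕ) (A : GF J) (U : MS) (k : ℕ) (m n : ℤ) : ℝ :=
  1552 * gP A U k m n + 128 * ∑ r ∈ range (N - k), (3 / 4 : ℝ) ^ r
    * avg (gP A U k m) (r + 1) (n / 2 ^ (r + 1))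

open scoped Classical in
/-- charge of the partner -/
def qp (N : ℕ) (T : ℤ) (B : GF J) (V : MS) (k : ℕ) (c m n : ℤ) : ℝ :=
  if 2 * (c - m / 2) + 1 - n ∈ iv (N - k) T then 2 * gP B V k m (2 * (c - m / 2) + 1 - n) else 0

open scoped Classical in
/-- charges of one face -/
def CH (N : ℕ) (R S T : ℤ) (A B : GF J) (U V : MS) (k : ℕ) (c : ℤ) : ℝ :=
  (4 : ℝ) ^ k * ∑ m ∈ iv (N - k) S, ∑ n ∈ iv (N - k) R,
    if nw U k n m then qo N A U k m n + qp N T B V k c m n else 0

theorem qp_nonneg (N : ℕ) (T : ℤ) (B : GF J) (V : MS) (k : ℕ) (c m n : ℤ) :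
    0 ≤ qp N T B V k c m n := by
  unfold qp
  split_ifs
  · have := gP_nonneg B V k m (2 * (c - m / 2) + 1 - n)
    positivity
  · exact le_rfl

open scoped Classical in
theorem mP_sub {N k : ℕ} (hk : k < N) (A : GF J) {U : MS} (hU : Cl N U) (m n : ℤ) :
    mP A U k m n - mU A U k m n = if nw U k n m then A.X k k n m else 0 := by
  unfold mP mU nw
  by_cases h1 : U k n m
  · have h2 := hU k hk n m h1
    rw [if_pos h1, if_pos h2, if_neg (fun h => h.2 h1), sub_self]
  · by_cases h2 : U (k + 1) (n / 2) (m / 2)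
    · rw [if_neg h1, if_pos h2, if_pos ⟨h2, h1⟩, sub_zero]
    · rw [if_neg h1, if_neg h2, if_neg (fun h => h2 h.1), sub_zero]

theorem gP_of_nw (A : GF J) (U : MS) (k : ℕ) (m n : ℤ) (h : nw U k n m) :
    gP A U k m n = GX (A.X k k n m) := by
  unfold gP mP
  rw [if_pos h.1]

open scoped Classical in
theorem St_eq {N k : ℕ} (hk : k < N) (R S : ℤ) (A : GF J) {U : MS} (hU : Cl N U) :
    EP N R S A U k 0 - EU N R S A U k 0 = (4 : ℝ) ^ k * ∑ m ∈ iv (N - k) S, ∑ n ∈ iv (N - k) R,
      if nw U k n m then gP A U k m n else 0 := by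
  unfold EP EU eg
  simp only [pow_zero, one_mul, Nat.sub_zero, rav]
  rw [← mul_sub, ← sum_sub_distrib]
  congr 1
  refine sum_congr rfl fun m _ => ?_
  rw [← sum_sub_distrib]
  refine sum_congr rfl fun n _ => ?_
  unfold gP mP mU nw
  by_cases h1 : U k n m
  · have h2 := hU k hk n m h1
    rw [if_pos h1, if_pos h2, if_neg (fun h => h.2 h1), sub_self]
  · by_cases h2 : U (k + 1) (n / 2) (m / 2)
    · rw [if_neg h1, if_pos h2, if_pos ⟨h2, h1⟩, GX_zero, sub_zero]
    · rw [if_neg h1, if_neg h2, if_neg (fun h => h2 h.1), GX_zero, sub_zero]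

open scoped Classical in
theorem c2_le {N k : ℕ} (hk : k < N) (R S : ℤ) (A : GF J) {U : MS} (hU : Cl N U) (r : ℕ) :
    c2 N R S A U k r ≤ (4 : ℝ) ^ k * ∑ m ∈ iv (N - k) S, ∑ n ∈ iv (N - k) R,
      if nw U k n m then 2 * avg (gP A U k m) (r + 1) (n / 2 ^ (r + 1)) + 6 * gP A U k m n
      else 0 := by
  unfold c2
  refine mul_le_mul_of_nonneg_left (sum_le_sum fun m _ => sum_le_sum fun n _ => ?_) (by positivity)
  rw [mP_sub hk A hU]
  split_ifs with h
  · have h1 := trace_phi_mul_le (A.psd k k n m)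
      (rav_psd (mP_psd A U k m) (r + 1) (n / 2 ^ (r + 1)))
    have h2 := GX_rav_le (mP_psd A U k m) (r + 1) (n / 2 ^ (r + 1))
    rw [gP_of_nw A U k m n h]
    have e : (fun n => GX (mP A U k m n)) = gP A U k m := rfl
    rw [e] at h2
    linarith
  · rw [Matrix.mul_zero, trace_zero]

open scoped Classical in
theorem C2_le {N k : ℕ} (hk : k < N) (R S : ℤ) (A : GF J) {U : MS} (hU : Cl N U) :
    C2 N R S A U k ≤ (4 : ℝ) ^ k * ∑ m ∈ iv (N - k) S, ∑ n ∈ iv (N - k) R,
      if nw U k n m then 24 * gP A U k m n + 2 * ∑ r ∈ range (N - k), (3 / 4 : ℝ) ^ r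
        * avg (gP A U k m) (r + 1) (n / 2 ^ (r + 1)) else 0 := by
  unfold C2
  have h1 : ∑ r ∈ range (N - k), (3 / 4 : ℝ) ^ r * c2 N R S A U k r
      ≤ ∑ r ∈ range (N - k), (3 / 4 : ℝ) ^ r * ((4 : ℝ) ^ k * ∑ m ∈ iv (N - k) S,
        ∑ n ∈ iv (N - k) R, if nw U k n m then
          2 * avg (gP A U k m) (r + 1) (n / 2 ^ (r + 1)) + 6 * gP A U k m n else 0) :=
    sum_le_sum fun r _ => mul_le_mul_of_nonneg_left (c2_le hk R S A hU r) (by positivity)
  refine h1.trans ?_
  have e : ∑ r ∈ range (N - k), (3 / 4 : ℝ) ^ r * ((4 : ℝ) ^ k * ∑ m ∈ iv (N - k) S,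
        ∑ n ∈ iv (N - k) R, if nw U k n m then
          2 * avg (gP A U k m) (r + 1) (n / 2 ^ (r + 1)) + 6 * gP A U k m n else 0)
      = (4 : ℝ) ^ k * ∑ m ∈ iv (N - k) S, ∑ n ∈ iv (N - k) R, ∑ r ∈ range (N - k),
        (3 / 4 : ℝ) ^ r * (if nw U k n m then
          2 * avg (gP A U k m) (r + 1) (n / 2 ^ (r + 1)) + 6 * gP A U k m n else 0) := by
    simp only [mul_left_comm ((3 / 4 : ℝ) ^ _) ((4 : ℝ) ^ k)]
    rw [← mul_sum]
    congr 1
    simp only [mul_sum]
    rw [sum_comm]
    refine sum_congr rfl fun m _ => ?_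
    rw [sum_comm]
  rw [e]
  refine mul_le_mul_of_nonneg_left (sum_le_sum fun m _ => sum_le_sum fun n _ => ?_) (by positivity)
  split_ifs with h
  · have e2 : ∑ r ∈ range (N - k), (3 / 4 : ℝ) ^ r *
        (2 * avg (gP A U k m) (r + 1) (n / 2 ^ (r + 1)) + 6 * gP A U k m n)
        = 2 * ∑ r ∈ range (N - k), (3 / 4 : ℝ) ^ r * avg (gP A U k m) (r + 1) (n / 2 ^ (r + 1))
          + (6 * gP A U k m n) * ∑ r ∈ range (N - k), (3 / 4 : ℝ) ^ r := by
      rw [mul_sum, mul_sum, ← sum_add_distrib]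
      refine sum_congr rfl fun r _ => ?_
      ring
    rw [e2]
    have h2 := H588.sum_geo_le (N - k)
    have h3 := gP_nonneg A U k m n
    have h4 := mul_le_mul_of_nonneg_left h2 (by positivity : 0 ≤ 6 * gP A U k m n)
    linarith
  · simp

open scoped Classical in
theorem K1_le (N : ℕ) (R S T : ℤ) (A B : GF J) (U V : MS) (k : ℕ) (c : ℤ) :
    K1 N R S T A B U V k c ≤ (4 : ℝ) ^ k * ∑ m ∈ iv (N - k) S,
      ((∑ n ∈ iv (N - k) R, if nw U k n m then 2 * gP A U k m n + qp N T B V k c m n else 0)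
      + ∑ n ∈ iv (N - k) T, if nw V k n m then 2 * gP B V k m n + qp N R A U k c m n else 0) := by
  unfold K1
  refine mul_le_mul_of_nonneg_left (sum_le_sum fun m _ => ?_) (by positivity)
  set σ := 2 * (c - m / 2) + 1 with hσ
  have h5 := H588.sum_refl_le (N - k) R T σ
    (fun n => if nw V k n m then 2 * gP B V k m n + qp N R A U k c m n else 0)
    (fun n => by
      split_ifs
      · have := gP_nonneg B V k m n
        have := qp_nonneg N R A U k c m n
        positivity
      · exact le_rfl)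
  refine le_trans ?_ (add_le_add_right h5 _)
  rw [← sum_add_distrib]
  refine sum_le_sum fun n hn => ?_
  have g1 := gP_nonneg A U k m n
  have g2 := gP_nonneg B V k m (σ - n)
  have g3 := qp_nonneg N T B V k c m n
  by_cases hT : σ - n ∈ iv (N - k) T
  · rw [if_pos hT, if_pos hT]
    have q1 : qp N T B V k c m n = 2 * gP B V k m (σ - n) := by
      unfold qp; rw [← hσ, if_pos hT]
    have q2 : qp N R A U k c m (σ - n) = 2 * gP A U k m n := by
      unfold qp; rw [← hσ, sub_sub_cancel, if_pos hn]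
    rw [q1, q2]
    have i1 : 0 ≤ (if nw U k n m then 2 * gP A U k m n + 2 * gP B V k m (σ - n) else 0) := by
      split_ifs
      · positivity
      · exact le_rfl
    have i2 : 0 ≤ (if nw V k (σ - n) m then 2 * gP B V k m (σ - n) + 2 * gP A U k m n else 0) := by
      split_ifs
      · positivity
      · exact le_rfl
    by_cases h1 : U (k + 1) (n / 2) (m / 2) ∧ V (k + 1) ((σ - n) / 2) (m / 2)
        ∧ ¬ (U k n m ∧ V k (σ - n) m)
    · rw [if_pos h1]
      by_cases h2 : U k n m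
      · have h3 : nw V k (σ - n) m := ⟨h1.2.1, fun h => h1.2.2 ⟨h2, h⟩⟩
        rw [if_pos h3]
        linarith
      · have h3 : nw U k n m := ⟨h1.1, h2⟩
        rw [if_pos h3]
        linarith
    · rw [if_neg h1]
      positivity
  · rw [if_neg hT, if_neg hT, add_zero]
    split_ifs
    · positivity
    · exact le_rfl

open scoped Classical in
theorem cost_le {N k : ℕ} (hk : k < N) (R S T : ℤ) (A B : GF J) {U V : MS} (hU : Cl N U)
    (hV : Cl N V) (c : ℤ) :
    cost N R S T A B U V k c ≤ CH N R S T A B U V k c + CH N T S R B A V U k c := by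
  unfold cost
  rw [St_eq hk R S A hU, St_eq hk T S B hV]
  have h1 := K1_le N R S T A B U V k c
  have h2 := C2_le hk R S A hU
  have h3 := C2_le hk T S B hV
  have e : ∀ (R' T' : ℤ) (A' B' : GF J) (U' V' : MS), CH N R' S T' A' B' U' V' k c
      = (4 : ℝ) ^ k * ∑ m ∈ iv (N - k) S, ∑ n ∈ iv (N - k) R',
          (if nw U' k n m then 2 * gP A' U' k m n + qp N T' B' V' k c m n else 0)
        + 14 * ((4 : ℝ) ^ k * ∑ m ∈ iv (N - k) S, ∑ n ∈ iv (N - k) R',
          if nw U' k n m then gP A' U' k m n else 0)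
        + 64 * ((4 : ℝ) ^ k * ∑ m ∈ iv (N - k) S, ∑ n ∈ iv (N - k) R',
          if nw U' k n m then 24 * gP A' U' k m n + 2 * ∑ r ∈ range (N - k), (3 / 4 : ℝ) ^ r
            * avg (gP A' U' k m) (r + 1) (n / 2 ^ (r + 1)) else 0) := by
    intro R' T' A' B' U' V'
    unfold CH
    rw [mul_left_comm (14 : ℝ), mul_left_comm (64 : ℝ), ← mul_add, ← mul_add]
    congr 1
    simp only [mul_sum]
    rw [← sum_add_distrib, ← sum_add_distrib]
    refine sum_congr rfl fun m _ => ?_
    rw [← sum_add_distrib, ← sum_add_distrib]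
    refine sum_congr rfl fun n _ => ?_
    split_ifs
    · unfold qo
      simp only [mul_sum]
      have e3 : ∑ r ∈ range (N - k), 128 * ((3 / 4 : ℝ) ^ r
          * avg (gP A' U' k m) (r + 1) (n / 2 ^ (r + 1)))
          = ∑ r ∈ range (N - k), 64 * (2 * ((3 / 4 : ℝ) ^ r
          * avg (gP A' U' k m) (r + 1) (n / 2 ^ (r + 1)))) :=
        sum_congr rfl fun r _ => by ring
      rw [e3, mul_add, mul_sum]
      ring
    · simp
  rw [e R T A B U V, e T R B A V U]
  rw [sum_add_distrib, mul_add] at h1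
  linarith

end

end Vale.Agent.P141.PL.H48
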