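import Vale.Agent.P141.PL.H48.MaskB

/-!
# P141: the masked pair theorem, averaged over the fixed variable

Masks are families of cubes `(k, i, n, m)`: scale `k`, fixed variable in the interval `i`, outer
index `n`, middle index `m`. If every cube whose parent is unstopped has energy `≤ ε` (average over
the fixed variable in the interval `i`) then the sum of the main terms over all unstopped boxes is
`≤ C ε` times the volume of the root: arbitrary stopping rules, no loss.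
-/

namespace Vale.Agent.P141.PL.H48

set_option linter.unusedSectionVars false

open Finset Matrix Vale.Agent.P075 Vale.Agent.P141.PL

noncomputable section

variable {J : Type} [Fintype J] [DecidableEq J]

/-- a family of cubes -/
abbrev MC : Type := ℕ → ℤ → ℤ → ℤ → Prop

/-- slice at `x` -/
def sl (U : MC) (x : ℤ) : MS := fun k n m => U k (ix k x) n m

/-- closed under parents below scale `N` -/
def Cl4 (N : ℕ) (U : MC) : Prop :=
  ∀ k, k < N → ∀ i n m, U k i n m → U (k + 1) (i / 2) (n / 2) (m / 2)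

theorem ix_succ (k : ℕ) (x : ℤ) : ix (k + 1) x = ix k x / 2 := by
  unfold ix
  rw [pow_succ, ← Int.ediv_ediv_of_nonneg (by positivity)]

theorem Cl4.sl {N : ℕ} {U : MC} (h : Cl4 N U) (x : ℤ) : Cl N (sl U x) := by
  intro k hk n m hU
  have := h k hk _ n m hU
  unfold H48.sl
  rwa [ix_succ]

theorem sum_iv_grp {N k : ℕ} (h : k ≤ N) (R : ℤ) (f : ℤ → ℝ) :
    ∑ x ∈ iv N R, f x = ∑ i ∈ iv (N - k) R, ∑ x ∈ iv k i, f x := by
  have h1 : ∀ x ∈ iv N R, ix k x ∈ iv (N - k) R := by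
    intro x hx
    rw [mem_iv] at hx ⊢
    rw [ix_ix, ← hx]
    congr 1
    omega
  rw [← Finset.sum_fiberwise_of_maps_to h1]
  refine sum_congr rfl fun i hi => sum_congr ?_ fun _ _ => rfl
  ext x
  rw [mem_filter, mem_iv, mem_iv]
  constructor
  · rintro ⟨_, hx⟩; exact hx
  · intro hx
    refine ⟨?_, hx⟩
    rw [mem_iv] at hi
    rw [← hi, ← hx, ix_ix]
    congr 1
    omega

/-! ### counting -/

open scoped Classical in
/-- number of unstopped cubes -/
def ct (N : ℕ) (R0 R S : ℤ) (U : MC) (k : ℕ) : ℝ :=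
  ∑ i ∈ iv (N - k) R0, ∑ m ∈ iv (N - k) S, ∑ n ∈ iv (N - k) R, if U k i n m then 1 else 0

/-- newly stopped cube -/
def nw4 (U : MC) (k : ℕ) (i n m : ℤ) : Prop := U (k + 1) (i / 2) (n / 2) (m / 2) ∧ ¬ U k i n m

open scoped Classical in
/-- number of newly stopped cubes -/
def cn (N : ℕ) (R0 R S : ℤ) (U : MC) (k : ℕ) : ℝ :=
  ∑ i ∈ iv (N - k) R0, ∑ m ∈ iv (N - k) S, ∑ n ∈ iv (N - k) R, if nw4 U k i n m then 1 else 0

theorem nw_sl (U : MC) (k : ℕ) (x n m : ℤ) : nw (sl U x) k n m ↔ nw4 U k (ix k x) n m := by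
  unfold nw nw4 sl
  rw [ix_succ]

open scoped Classical in
theorem ct_step {N k : ℕ} (hk : k < N) (R0 R S : ℤ) {U : MC} (hU : Cl4 N U) :
    8 * ct N R0 R S U (k + 1) = ct N R0 R S U k + cn N R0 R S U k := by
  have e : N - k = (N - (k + 1)) + 1 := by omega
  have h1 : ∀ n : ℤ, 2 * n / 2 = n := fun n => by omega
  have h2 : ∀ n : ℤ, (2 * n + 1) / 2 = n := fun n => by omega
  unfold ct cn
  rw [← sum_add_distrib]
  have hp : ∀ i m n, (if U k i n m then (1 : ℝ) else 0) + (if nw4 U k i n m then 1 else 0)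
      = if U (k + 1) (i / 2) (n / 2) (m / 2) then 1 else 0 := by
    intro i m n
    unfold nw4
    by_cases a : U k i n m
    · have b := hU k hk i n m a
      rw [if_pos a, if_pos b, if_neg (fun h => h.2 a), add_zero]
    · by_cases b : U (k + 1) (i / 2) (n / 2) (m / 2)
      · rw [if_neg a, if_pos b, if_pos ⟨b, a⟩, zero_add]
      · rw [if_neg a, if_neg b, if_neg (fun h => b h.1), zero_add]
  simp only [← sum_add_distrib]
  simp only [hp]
  rw [e, H103.sum_iv_pair, mul_sum]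
  refine sum_congr rfl fun i _ => ?_
  rw [H103.sum_iv_pair, H103.sum_iv_pair, ← sum_add_distrib, mul_sum]
  refine sum_congr rfl fun m _ => ?_
  rw [H103.sum_iv_pair, H103.sum_iv_pair, H103.sum_iv_pair, H103.sum_iv_pair, ← sum_add_distrib,
    ← sum_add_distrib, ← sum_add_distrib, mul_sum]
  refine sum_congr rfl fun n _ => ?_
  rw [h1 i, h2 i, h1 n, h2 n, h1 m, h2 m]
  ring

open scoped Classical in
theorem ct_nonneg (N : ℕ) (R0 R S : ℤ) (U : MC) (k : ℕ) : 0 ≤ ct N R0 R S U k := by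
  unfold ct
  refine sum_nonneg fun i _ => sum_nonneg fun m _ => sum_nonneg fun n _ => ?_
  split_ifs <;> norm_num

open scoped Classical in
theorem ct_top (N : ℕ) (R0 R S : ℤ) (U : MC) : ct N R0 R S U N ≤ 1 := by
  unfold ct
  have h0 : ∀ T : ℤ, iv (N - N) T = {T} := by
    intro T
    rw [Nat.sub_self]
    ext x
    rw [mem_iv, ix_zero, mem_singleton]
  rw [h0, h0, h0, sum_singleton, sum_singleton, sum_singleton]
  split_ifs <;> norm_num

/-- total volume of the newly stopped cubes -/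
theorem cn_sum {N l : ℕ} (hl : l ≤ N) (R0 R S : ℤ) {U : MC} (hU : Cl4 N U) :
    ∑ k ∈ Ico l N, 8 ^ k * cn N R0 R S U k ≤ 8 ^ N := by
  have key : ∀ K, l ≤ K → K ≤ N →
      ∑ k ∈ Ico l K, 8 ^ k * cn N R0 R S U k
        = 8 ^ K * ct N R0 R S U K - 8 ^ l * ct N R0 R S U l := by
    intro K hK
    induction K, hK using Nat.le_induction with
    | base => intro _; simp
    | succ K hK ih =>
      intro hN
      rw [Finset.sum_Ico_succ_top hK, ih (by omega)]
      have h := ct_step (show K < N by omega) R0 R S hU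
      have e : (8 : ℝ) ^ (K + 1) * ct N R0 R S U (K + 1)
          = 8 ^ K * (8 * ct N R0 R S U (K + 1)) := by ring
      rw [e, h]
      ring
  rw [key N hl le_rfl]
  have h1 := ct_top N R0 R S U
  have h2 := ct_nonneg N R0 R S U l
  have h3 : (0 : ℝ) < 8 ^ N := by positivity
  have h4 : (0 : ℝ) < 8 ^ l := by positivity
  nlinarith

/-! ### averages -/

/-- energy hypothesis: all cubes of scales `l ≤ k < N` whose parent is unstopped -/
def Hb (N l : ℕ) (A : ℤ → GF J) (U : MC) (ε : ℝ) : Prop :=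
  ∀ k, l ≤ k → k < N → ∀ i n m, ∑ x ∈ iv k i, gP (A x) (sl U x) k m n ≤ 2 ^ k * ε

theorem GX_mU_le {N k : ℕ} (hk : k < N) (A : GF J) {U : MS} (hU : Cl N U) (m n : ℤ) :
    GX (mU A U k m n) ≤ gP A U k m n := by
  unfold gP mP mU
  by_cases h1 : U k n m
  · have h2 := hU k hk n m h1
    rw [if_pos h1, if_pos h2]
  · rw [if_neg h1, GX_zero]
    split_ifs
    · exact H588.GX_nonneg' (A.psd ..)
    · rw [GX_zero]

theorem EU_avg {N l : ℕ} (hl : l < N) (R0 R S : ℤ) {A : ℤ → GF J} {U : MC} (hU : Cl4 N U) {ε : ℝ}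
    (hA : Hb N l A U ε) :
    ∑ x ∈ iv N R0, EU N R S (A x) (sl U x) l 0 ≤ 8 ^ N * ε := by
  rw [sum_iv_grp hl.le]
  have h1 : ∀ i ∈ iv (N - l) R0, ∑ x ∈ iv l i, EU N R S (A x) (sl U x) l 0
      ≤ 4 ^ l * ∑ _m ∈ iv (N - l) S, ∑ _n ∈ iv (N - l) R, 2 ^ l * ε := by
    intro i _
    have e : ∀ x, EU N R S (A x) (sl U x) l 0 ≤ 4 ^ l * ∑ m ∈ iv (N - l) S, ∑ n ∈ iv (N - l) R,
        gP (A x) (sl U x) l m n := by
      intro x
      unfold EU eg
      simp only [pow_zero, one_mul, Nat.sub_zero, rav]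
      refine mul_le_mul_of_nonneg_left (sum_le_sum fun m _ => sum_le_sum fun n _ => ?_)
        (by positivity)
      exact GX_mU_le hl (A x) (hU.sl x) m n
    refine (sum_le_sum fun x _ => e x).trans ?_
    rw [← mul_sum, sum_comm]
    refine mul_le_mul_of_nonneg_left (sum_le_sum fun m _ => ?_) (by positivity)
    rw [sum_comm]
    exact sum_le_sum fun n _ => hA l le_rfl hl i n m
  refine (sum_le_sum h1).trans (le_of_eq ?_)
  simp only [sum_const, card_iv, nsmul_eq_mul]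
  push_cast
  obtain ⟨d, hd⟩ : ∃ d, N = l + d := ⟨N - l, by omega⟩
  have hd2 : N - l = d := by omega
  rw [hd2, hd]
  rw [show (8 : ℝ) = 4 * 2 by norm_num, mul_pow, pow_add (4 : ℝ), pow_add (2 : ℝ),
    show (4 : ℝ) ^ d = 2 ^ d * 2 ^ d by rw [← mul_pow]; norm_num]
  ring

theorem qo_avg {N l k : ℕ} (hl : l ≤ k) (hk : k < N) {A : ℤ → GF J} {U : MC} {ε : ℝ}
    (hA : Hb N l A U ε) (hε : 0 ≤ ε) (i n m : ℤ) :
    ∑ x ∈ iv k i, qo N (A x) (sl U x) k m n ≤ 2064 * (2 ^ k * ε) := by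
  unfold qo
  rw [sum_add_distrib, ← mul_sum, ← mul_sum, sum_comm]
  have h1 := hA k hl hk i n m
  have h2 : ∀ r ∈ range (N - k), ∑ x ∈ iv k i, (3 / 4 : ℝ) ^ r
      * avg (gP (A x) (sl U x) k m) (r + 1) (n / 2 ^ (r + 1)) ≤ (3 / 4 : ℝ) ^ r * (2 ^ k * ε) := by
    intro r _
    rw [← mul_sum]
    refine mul_le_mul_of_nonneg_left ?_ (by positivity)
    exact avg_sum_le (iv k i) (fun x => gP (A x) (sl U x) k m) (fun n => hA k hl hk i n m) _ _
  have h3 := sum_le_sum h2
  rw [← sum_mul] at h3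
  have h4 := mul_le_mul_of_nonneg_right (H588.sum_geo_le (N - k)) (by positivity : 0 ≤ 2 ^ k * ε)
  linarith

theorem qp_avg {N l k : ℕ} (hl : l ≤ k) (hk : k < N) (T : ℤ) {B : ℤ → GF J} {V : MC} {ε : ℝ}
    (hB : Hb N l B V ε) (hε : 0 ≤ ε) (c i n m : ℤ) :
    ∑ x ∈ iv k i, qp N T (B x) (sl V x) k c m n ≤ 2 * (2 ^ k * ε) := by
  unfold qp
  split_ifs
  · rw [← mul_sum]
    exact mul_le_mul_of_nonneg_left (hB k hl hk i _ m) (by norm_num)
  · rw [sum_const_zero]; positivity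

open scoped Classical in
theorem CH_avg {N l k : ℕ} (hl : l ≤ k) (hk : k < N) (R0 R S T : ℤ) {A B : ℤ → GF J} {U V : MC}
    {ε ε' : ℝ} (hA : Hb N l A U ε) (hB : Hb N l B V ε') (hε : 0 ≤ ε) (hε' : 0 ≤ ε')
    (c : ℤ → ℤ) :
    ∑ x ∈ iv N R0, CH N R S T (A x) (B x) (sl U x) (sl V x) k (c (ix (k + 1) x))
      ≤ (2064 * ε + 2 * ε') * (8 ^ k * cn N R0 R S U k) := by
  rw [sum_iv_grp hk.le]
  have h1 : ∀ i ∈ iv (N - k) R0,
      ∑ x ∈ iv k i, CH N R S T (A x) (B x) (sl U x) (sl V x) k (c (ix (k + 1) x))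
      ≤ 4 ^ k * ∑ m ∈ iv (N - k) S, ∑ n ∈ iv (N - k) R, (if nw4 U k i n m then 1 else 0)
        * (2 ^ k * (2064 * ε + 2 * ε')) := by
    intro i _
    unfold CH
    rw [← mul_sum, sum_comm]
    refine mul_le_mul_of_nonneg_left (sum_le_sum fun m _ => ?_) (by positivity)
    rw [sum_comm]
    refine sum_le_sum fun n _ => ?_
    by_cases h : nw4 U k i n m
    · rw [if_pos h, one_mul]
      have e : ∀ x ∈ iv k i, (if nw (sl U x) k n m then qo N (A x) (sl U x) k m n
          + qp N T (B x) (sl V x) k (c (ix (k + 1) x)) m n else 0)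
          = qo N (A x) (sl U x) k m n + qp N T (B x) (sl V x) k (c (i / 2)) m n := by
        intro x hx
        rw [mem_iv] at hx
        have h2 : nw (sl U x) k n m := by rw [nw_sl, hx]; exact h
        rw [if_pos h2, ix_succ, hx]
      rw [sum_congr rfl e, sum_add_distrib]
      have q1 := qo_avg hl hk hA hε i n m
      have q2 := qp_avg hl hk T hB hε' (c (i / 2)) i n m
      linarith
    · rw [if_neg h, zero_mul]
      refine le_of_eq (sum_eq_zero fun x hx => ?_)
      rw [mem_iv] at hx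
      have h2 : ¬ nw (sl U x) k n m := by rw [nw_sl, hx]; exact h
      rw [if_neg h2]
  refine (sum_le_sum h1).trans (le_of_eq ?_)
  unfold cn
  rw [← mul_sum]
  simp only [← sum_mul]
  rw [show (8 : ℝ) = 4 * 2 by norm_num, mul_pow]
  ring

open scoped Classical in
/-- **The masked pair theorem.** -/
theorem pairM {N l : ℕ} (hl : l ≤ N) (R0 R S T : ℤ) {A B : ℤ → GF J} {U V : MC}
    (hU : Cl4 N U) (hV : Cl4 N V) {ε ε' : ℝ} (hε : 0 ≤ ε) (hε' : 0 ≤ ε')
    (hA : Hb N l A U ε) (hB : Hb N l B V ε') {c : ℕ → ℤ → ℤ}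
    (hc : ∀ x, H588.Pl fun k => c k (ix k x)) :
    ∑ x ∈ iv N R0, ∑ k ∈ Icc (l + 1) N, nU N R S T (A x) (B x) (sl U x) (sl V x) k (c k (ix k x))
      ≤ 4676 * (ε + ε') * 8 ^ N := by
  rcases Nat.lt_or_ge l N with h | h
  · have h1 : ∀ x ∈ iv N R0, ∑ k ∈ Icc (l + 1) N,
        nU N R S T (A x) (B x) (sl U x) (sl V x) k (c k (ix k x))
        ≤ 544 * (EU N R S (A x) (sl U x) l 0 + EU N T S (B x) (sl V x) l 0)
          + 2 * ∑ k ∈ Ico l N, (CH N R S T (A x) (B x) (sl U x) (sl V x) k (c (k + 1) (ix (k + 1) x))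
            + CH N T S R (B x) (A x) (sl V x) (sl U x) k (c (k + 1) (ix (k + 1) x))) := by
      intro x _
      refine (pairU hl R S T (A x) (B x) (sl U x) (sl V x) (hc x)).trans ?_
      refine add_le_add_right (mul_le_mul_of_nonneg_left (sum_le_sum fun k hk => ?_) (by norm_num)) _
      exact cost_le (mem_Ico.1 hk).2 R S T (A x) (B x) (hU.sl x) (hV.sl x) _
    refine (sum_le_sum h1).trans ?_
    rw [sum_add_distrib, ← mul_sum, sum_add_distrib, ← mul_sum, sum_comm]
    have h2 := EU_avg h R0 R S hU hA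
    have h3 := EU_avg h R0 T S hV hB
    have h4 : ∀ k ∈ Ico l N, ∑ x ∈ iv N R0,
        (CH N R S T (A x) (B x) (sl U x) (sl V x) k (c (k + 1) (ix (k + 1) x))
            + CH N T S R (B x) (A x) (sl V x) (sl U x) k (c (k + 1) (ix (k + 1) x)))
        ≤ (2064 * ε + 2 * ε') * (8 ^ k * cn N R0 R S U k)
          + (2064 * ε' + 2 * ε) * (8 ^ k * cn N R0 T S V k) := by
      intro k hk
      have hk' := mem_Ico.1 hk
      rw [sum_add_distrib]
      exact add_le_add (CH_avg hk'.1 hk'.2 R0 R S T hA hB hε hε' (c (k + 1)))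
        (CH_avg hk'.1 hk'.2 R0 T S R hB hA hε' hε (c (k + 1)))
    have h5 := sum_le_sum h4
    rw [sum_add_distrib, ← mul_sum, ← mul_sum] at h5
    have h6 := mul_le_mul_of_nonneg_left (cn_sum hl R0 R S hU)
      (by positivity : 0 ≤ 2064 * ε + 2 * ε')
    have h7 := mul_le_mul_of_nonneg_left (cn_sum hl R0 T S hV)
      (by positivity : 0 ≤ 2064 * ε' + 2 * ε)
    linarith
  · have e : Icc (l + 1) N = ∅ := Icc_eq_empty (by omega)
    rw [e]
    simp only [sum_empty, sum_const_zero]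
    positivity

end

end Vale.Agent.P141.PL.H48
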