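import Vale.Agent.P141.PL.H48.GFun

/-!
# P141: the labelled triangle with moving functions

`mov424`: the functions `A`, `B`, `C` may depend on the scale and on the box; each is a sum of
`S` terms, the term number `s` being on every box one of the components `D s i`, `i : ι` (or `0`).
The sum of the absolute values of the local forms over all boxes is bounded by the leaf norms of
the VECTORS `(D s i)_i`.
-/

namespace Vale.Agent.P141.PL.H48

set_option linter.unusedSectionVars false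

open Finset Matrix Vale.Agent.P075 Vale.Agent.P141.PL

noncomputable section

variable {J0 J1 J2 : Type} [Fintype J0] [DecidableEq J0] [Fintype J1] [DecidableEq J1]
  [Fintype J2] [DecidableEq J2] {J' J : Type} [Fintype J'] [DecidableEq J'] [Fintype J]
  [DecidableEq J] {ι : Type} [Fintype ι] [DecidableEq ι]

/-! ### localised hypotheses and general operator norms -/

/-- domination of the edge 01 on the boxes of the sum -/
def Loc01 (N l : ℕ) (R0 R1 R2 : ℤ) (cc : ℕ → ℤ) (M : ℝ) (A0 : GF J0) (A1 : GF J1)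
    (a : (k : ℕ) → ℤ × ℤ × ℤ → Matrix (IL J0 k) (IL J1 k) ℝ) : Prop :=
  ∀ k ∈ Icc (l + 1) N, ∀ p ∈ bx N R0 R1 R2 k (cc k),
    (A0.X k k p.2.1 p.1 - a k p * (a k p)ᵀ).PosSemidef ∧
    (A1.X k k p.1 p.2.1 - (a k p)ᵀ * a k p).PosSemidef ∧ hs (a k p) ≤ M ^ 2

/-- domination of the edge 12 on the boxes of the sum -/
def Loc12 (N l : ℕ) (R0 R1 R2 : ℤ) (cc : ℕ → ℤ) (M : ℝ) (B1 : GF J1) (B2 : GF J2)
    (b : (k : ℕ) → ℤ × ℤ × ℤ → Matrix (IL J1 k) (IL J2 k) ℝ) : Prop :=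
  ∀ k ∈ Icc (l + 1) N, ∀ p ∈ bx N R0 R1 R2 k (cc k),
    (B1.X k k p.2.2 p.2.1 - b k p * (b k p)ᵀ).PosSemidef ∧
    (B2.X k k p.2.1 p.2.2 - (b k p)ᵀ * b k p).PosSemidef ∧ hs (b k p) ≤ M ^ 2

/-- domination of the edge 02 on the boxes of the sum -/
def Loc02 (N l : ℕ) (R0 R1 R2 : ℤ) (cc : ℕ → ℤ) (M : ℝ) (C0 : GF J0) (C2 : GF J2)
    (c : (k : ℕ) → ℤ × ℤ × ℤ → Matrix (IL J0 k) (IL J2 k) ℝ) : Prop :=
  ∀ k ∈ Icc (l + 1) N, ∀ p ∈ bx N R0 R1 R2 k (cc k),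
    (C0.X k k p.2.2 p.1 - c k p * (c k p)ᵀ).PosSemidef ∧
    (C2.X k k p.1 p.2.2 - (c k p)ᵀ * c k p).PosSemidef ∧ hs (c k p) ≤ M ^ 2

theorem t1_smul (N : ℕ) (R S : ℤ) (l : ℕ) (A : GF J) {κ : ℝ} (hκ : 0 ≤ κ) :
    t1 N R S l (A.smul κ hκ) = κ * t1 N R S l A := by
  unfold t1
  simp only [GF.smul_X, trace_smul, smul_eq_mul, ← mul_sum]
  ring

theorem t2_smul (N : ℕ) (R S : ℤ) (l : ℕ) (A : GF J) {κ : ℝ} (hκ : 0 ≤ κ) :
    t2 N R S l (A.smul κ hκ) = κ ^ 2 * t2 N R S l A := by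
  unfold t2
  simp only [GF.smul_X, Matrix.smul_mul, Matrix.mul_smul, trace_smul, smul_eq_mul, ← mul_sum]
  ring

theorem scale_dom {P Q : Type} [Fintype P] [DecidableEq P] [Fintype Q] [DecidableEq Q] {M : ℝ}
    (hM : 0 < M) {X0 : Matrix P P ℝ} {X1 : Matrix Q Q ℝ} {a : Matrix P Q ℝ}
    (h0 : (X0 - a * aᵀ).PosSemidef) (h1 : (X1 - aᵀ * a).PosSemidef) (h : hs a ≤ M ^ 2) :
    ((M ^ 2)⁻¹ • X0 - (M⁻¹ • a) * (M⁻¹ • a)ᵀ).PosSemidef ∧
    ((M ^ 2)⁻¹ • X1 - (M⁻¹ • a)ᵀ * (M⁻¹ • a)).PosSemidef ∧ OB 1 (M⁻¹ • a) := by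
  have e : M⁻¹ * M⁻¹ = (M ^ 2)⁻¹ := by rw [pow_two, mul_inv]
  refine ⟨?_, ?_, ?_⟩
  · rw [transpose_smul, Matrix.smul_mul, Matrix.mul_smul, smul_smul, e, ← smul_sub]
    exact h0.smul (by positivity)
  · rw [transpose_smul, Matrix.smul_mul, Matrix.mul_smul, smul_smul, e, ← smul_sub]
    exact h1.smul (by positivity)
  · refine ob_of_hs ?_
    have e2 : hs (M⁻¹ • a) = (M ^ 2)⁻¹ * hs a := by
      rw [hs, hs, transpose_smul, Matrix.smul_mul, Matrix.mul_smul, smul_smul, e, trace_smul,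
        smul_eq_mul]
    rw [e2, inv_mul_le_iff₀ (by positivity), mul_one]
    exact h

/-- **(4, 2, 4)**, localised, with Hilbert-Schmidt bounds `MA`, `MB`, `MC` of the three matrices. -/
theorem tri424' {N l : ℕ} {R0 R1 R2 : ℤ} {cc : ℕ → ℤ}
    {A0 : GF J0} {A1 : GF J1} {B1 : GF J1} {B2 : GF J2} {C0 : GF J0} {C2 : GF J2}
    {a : (k : ℕ) → ℤ × ℤ × ℤ → Matrix (IL J0 k) (IL J1 k) ℝ}
    {b : (k : ℕ) → ℤ × ℤ × ℤ → Matrix (IL J1 k) (IL J2 k) ℝ}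
    {c : (k : ℕ) → ℤ × ℤ × ℤ → Matrix (IL J0 k) (IL J2 k) ℝ}
    (hl : l ≤ N) (hcc : H588.Pl cc) {MA MB MC : ℝ} (hMA : 0 < MA) (hMB : 0 < MB) (hMC : 0 < MC)
    (ha : Loc01 N l R0 R1 R2 cc MA A0 A1 a)
    (hb : Loc12 N l R0 R1 R2 cc MB B1 B2 b)
    (hc : Loc02 N l R0 R1 R2 cc MC C0 C2 c) {u w β α γ : ℝ} (hu : 0 < u) (hw : 0 < w) (hβ : 0 < β)
    (hA1 : t2 N R0 R1 l A1 ≤ u ^ 2) (hA0 : t2 N R1 R0 l A0 ≤ u ^ 2)
    (hB1 : t1 N R2 R1 l B1 ≤ β) (hB2 : t1 N R1 R2 l B2 ≤ β)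
    (hC0 : t2 N R2 R0 l C0 ≤ w ^ 2) (hC2 : t2 N R0 R2 l C2 ≤ w ^ 2)
    (hα : t1 N R0 R1 l A1 ≤ α) (hγ : t1 N R2 R0 l C0 ≤ γ) (L : ℕ) :
    WS N l R0 R1 R2 cc (fun k p => |LF a b c k p|) ≤
      57375 * (L + 1) ^ 3 * Real.sqrt (β * u * w)
      + (N - l : ℕ) * (1 / 2) ^ L * (MA * Real.sqrt (β * γ) + MB * Real.sqrt (α * γ)
        + MC * Real.sqrt (α * β)) := by
  classical
  have hα0 : 0 ≤ α := (t1_nonneg ..).trans hα
  have hγ0 : 0 ≤ γ := (t1_nonneg ..).trans hγ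
  have iA : 0 < (MA ^ 2)⁻¹ := by positivity
  have iB : 0 < (MB ^ 2)⁻¹ := by positivity
  have iC : 0 < (MC ^ 2)⁻¹ := by positivity
  let In : ℕ → ℤ × ℤ × ℤ → Prop := fun k p => k ∈ Icc (l + 1) N ∧ p ∈ bx N R0 R1 R2 k (cc k)
  let a' : (k : ℕ) → ℤ × ℤ × ℤ → Matrix (IL J0 k) (IL J1 k) ℝ := fun k p =>
    if In k p then MA⁻¹ • a k p else 0
  let b' : (k : ℕ) → ℤ × ℤ × ℤ → Matrix (IL J1 k) (IL J2 k) ℝ := fun k p =>
    if In k p then MB⁻¹ • b k p else 0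
  let c' : (k : ℕ) → ℤ × ℤ × ℤ → Matrix (IL J0 k) (IL J2 k) ℝ := fun k p =>
    if In k p then MC⁻¹ • c k p else 0
  have ob0 : ∀ {P Q : Type} [Fintype P] [DecidableEq P] [Fintype Q] [DecidableEq Q],
      OB 1 (0 : Matrix P Q ℝ) := by
    intro P Q _ _ _ _
    refine ⟨?_, ?_⟩
    · rw [transpose_zero, Matrix.mul_zero, sub_zero, one_smul]; exact PosSemidef.one
    · rw [transpose_zero, Matrix.mul_zero, sub_zero, one_smul]; exact PosSemidef.one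
  have ha' : Dom01 (A0.smul _ iA.le) (A1.smul _ iA.le) a' := by
    intro k p
    by_cases h : In k p
    · have e : a' k p = MA⁻¹ • a k p := if_pos h
      rw [e]
      obtain ⟨h0, h1, h2⟩ := ha k h.1 p h.2
      exact scale_dom hMA h0 h1 h2
    · have e : a' k p = 0 := if_neg h
      rw [e, transpose_zero, Matrix.mul_zero, Matrix.mul_zero, sub_zero, sub_zero]
      exact ⟨(A0.smul _ iA.le).psd .., (A1.smul _ iA.le).psd .., ob0⟩
  have hb' : Dom12 (B1.smul _ iB.le) (B2.smul _ iB.le) b' := by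
    intro k p
    by_cases h : In k p
    · have e : b' k p = MB⁻¹ • b k p := if_pos h
      rw [e]
      obtain ⟨h0, h1, h2⟩ := hb k h.1 p h.2
      exact scale_dom hMB h0 h1 h2
    · have e : b' k p = 0 := if_neg h
      rw [e, transpose_zero, Matrix.mul_zero, Matrix.mul_zero, sub_zero, sub_zero]
      exact ⟨(B1.smul _ iB.le).psd .., (B2.smul _ iB.le).psd .., ob0⟩
  have hc' : Dom02 (C0.smul _ iC.le) (C2.smul _ iC.le) c' := by
    intro k p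
    by_cases h : In k p
    · have e : c' k p = MC⁻¹ • c k p := if_pos h
      rw [e]
      obtain ⟨h0, h1, h2⟩ := hc k h.1 p h.2
      exact scale_dom hMC h0 h1 h2
    · have e : c' k p = 0 := if_neg h
      rw [e, transpose_zero, Matrix.mul_zero, Matrix.mul_zero, sub_zero, sub_zero]
      exact ⟨(C0.smul _ iC.le).psd .., (C2.smul _ iC.le).psd .., ob0⟩
  have sm : ∀ {x y M : ℝ}, 0 < M → x ≤ y ^ 2 → ((M ^ 2)⁻¹) ^ 2 * x ≤ (y / M ^ 2) ^ 2 := by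
    intro x y M hM h
    rw [div_pow, inv_pow, inv_mul_eq_div]
    gcongr
  have sm1 : ∀ {x y M : ℝ}, 0 < M → x ≤ y → (M ^ 2)⁻¹ * x ≤ y / M ^ 2 := by
    intro x y M hM h
    rw [inv_mul_eq_div]
    gcongr
  have key := tri424 (L := L) (N := N) (l := l) (R0 := R0) (R1 := R1) (R2 := R2) (cc := cc)
    hl hcc ha' hb' hc' (u := u / MA ^ 2) (w := w / MC ^ 2) (β := β / MB ^ 2) (α := α / MA ^ 2)
    (γ := γ / MC ^ 2) (by positivity) (by positivity) (by positivity)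
    (by rw [t2_smul]; exact sm hMA hA1) (by rw [t2_smul]; exact sm hMA hA0)
    (by rw [t1_smul]; exact sm1 hMB hB1) (by rw [t1_smul]; exact sm1 hMB hB2)
    (by rw [t2_smul]; exact sm hMC hC0) (by rw [t2_smul]; exact sm hMC hC2)
    (by rw [t1_smul]; exact sm1 hMA hα) (by rw [t1_smul]; exact sm1 hMC hγ)
  have e0 : ∀ k p, In k p → |LF a b c k p| = (MA * MB * MC) * |LF a' b' c' k p| := by
    intro k p hIn
    have ea : a' k p = MA⁻¹ • a k p := if_pos hIn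
    have eb : b' k p = MB⁻¹ • b k p := if_pos hIn
    have ec : c' k p = MC⁻¹ • c k p := if_pos hIn
    have e2 : LF a' b' c' k p = (MA * MB * MC)⁻¹ * LF a b c k p := by
      unfold LF
      rw [ea, eb, ec]
      unfold TF
      simp only [transpose_smul, Matrix.mul_smul, Matrix.smul_mul, trace_smul, smul_eq_mul]
      rw [mul_inv, mul_inv]
      ring
    have hpos : 0 < MA * MB * MC := by positivity
    rw [e2, abs_mul, abs_of_pos (inv_pos.mpr hpos), ← mul_assoc, mul_inv_cancel₀ hpos.ne', one_mul]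
  have e1 : WS N l R0 R1 R2 cc (fun k p => |LF a b c k p|)
      = (MA * MB * MC) * WS N l R0 R1 R2 cc (fun k p => |LF a' b' c' k p|) := by
    unfold WS
    rw [mul_sum]
    refine sum_congr rfl fun k hk => ?_
    have e3 : ∑ p ∈ bx N R0 R1 R2 k (cc k), |LF a b c k p|
        = (MA * MB * MC) * ∑ p ∈ bx N R0 R1 R2 k (cc k), |LF a' b' c' k p| := by
      rw [mul_sum]
      refine sum_congr rfl fun p hp => ?_
      exact e0 k p ⟨hk, hp⟩
    rw [e3]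
    ring
  have q1 : Real.sqrt (β / MB ^ 2 * (u / MA ^ 2) * (w / MC ^ 2))
      = Real.sqrt (β * u * w) / (MA * MB * MC) := by
    have : β / MB ^ 2 * (u / MA ^ 2) * (w / MC ^ 2) = (β * u * w) / (MA * MB * MC) ^ 2 := by
      field_simp
    rw [this, Real.sqrt_div (by positivity), Real.sqrt_sq (by positivity)]
  have q2 : ∀ {x y M M' : ℝ}, 0 < M → 0 < M' → 0 ≤ x → 0 ≤ y →
      Real.sqrt (x / M ^ 2 * (y / M' ^ 2)) = Real.sqrt (x * y) / (M * M') := by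
    intro x y M M' hM hM' hx hy
    have : x / M ^ 2 * (y / M' ^ 2) = (x * y) / (M * M') ^ 2 := by
      field_simp
    rw [this, Real.sqrt_div (by positivity), Real.sqrt_sq (by positivity)]
  rw [q1, q2 hMB hMC hβ.le hγ0, q2 hMA hMC hα0 hγ0, q2 hMA hMB hα0 hβ.le] at key
  rw [e1]
  refine (mul_le_mul_of_nonneg_left key (by positivity)).trans (le_of_eq ?_)
  field_simp

/-! ### vectors of functions -/

/-- the vector of functions `D i`, the index `i` being an outer label -/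
def vec (D : ι → J' → J → ℤ → ℤ → ℝ) : ι × J' → J → ℤ → ℤ → ℝ := fun q => D q.1 q.2

theorem gX_vec (a b : ℕ) (D : ι → J' → J → ℤ → ℤ → ℝ) (n m : ℤ) :
    gX a b (vec D) n m = ∑ i, gX a b (D i) n m := by
  ext y y'
  rw [Matrix.sum_apply]
  simp only [gX_apply]
  rw [← mul_sum]
  congr 1
  have h1 : ∀ D' : J' → J → ℤ → ℤ → ℝ, ∑ x : IL J' a, D' (lb a x) (lb b y) (2 ^ a * n + vl a x)
      (2 ^ b * m + vl b y) * D' (lb a x) (lb b y') (2 ^ a * n + vl a x) (2 ^ b * m + vl b y')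
      = ∑ j : J', ∑ x ∈ iv a n, D' j (lb b y) x (2 ^ b * m + vl b y)
        * D' j (lb b y') x (2 ^ b * m + vl b y') :=
    fun D' => sum_IL_iv a n (fun j x => D' j (lb b y) x (2 ^ b * m + vl b y)
        * D' j (lb b y') x (2 ^ b * m + vl b y'))
  simp only [h1]
  have h2 : ∑ x : IL (ι × J') a, vec D (lb a x) (lb b y) (2 ^ a * n + vl a x)
      (2 ^ b * m + vl b y) * vec D (lb a x) (lb b y') (2 ^ a * n + vl a x) (2 ^ b * m + vl b y')
      = ∑ j : ι × J', ∑ x ∈ iv a n, vec D j (lb b y) x (2 ^ b * m + vl b y)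
        * vec D j (lb b y') x (2 ^ b * m + vl b y') :=
    sum_IL_iv a n (fun j x => vec D j (lb b y) x (2 ^ b * m + vl b y)
        * vec D j (lb b y') x (2 ^ b * m + vl b y'))
  rw [h2, Fintype.sum_prod_type]
  rfl

theorem gX_psd (a b : ℕ) (F : J' → J → ℤ → ℤ → ℝ) (n m : ℤ) : (gX a b F n m).PosSemidef :=
  (ofFun F).psd a b n m

/-- a component is dominated by the vector -/
theorem gX_vec_dom (a b : ℕ) (D : ι → J' → J → ℤ → ℤ → ℝ) (n m : ℤ) (i : ι) :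
    (gX a b (vec D) n m - gX a b (D i) n m).PosSemidef := by
  rw [gX_vec, ← Finset.sum_erase_add _ _ (mem_univ i), add_sub_cancel_right]
  exact Matrix.posSemidef_sum _ fun j _ => gX_psd ..

/-- component selected by `o` (zero if `none`) -/
def cmp {V : Type*} [Zero V] (D : ι → V) : Option ι → V
  | none => 0
  | some i => D i

/-- **Moving (4, 2, 4).** -/
theorem mov424 {N l : ℕ} {R0 R1 R2 : ℤ} {cc : ℕ → ℤ} (hl : l ≤ N) (hcc : H588.Pl cc)
    {S : ℕ} (DA : ℕ → ι → J0 → J1 → ℤ → ℤ → ℝ) (DB : ℕ → ι → J1 → J2 → ℤ → ℤ → ℝ)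
    (DC : ℕ → ι → J0 → J2 → ℤ → ℤ → ℝ) (σA σB σC : ℕ → ℕ → ℤ × ℤ × ℤ → Option ι)
    (A : ℕ → ℤ × ℤ × ℤ → J0 → J1 → ℤ → ℤ → ℝ) (B : ℕ → ℤ × ℤ × ℤ → J1 → J2 → ℤ → ℤ → ℝ)
    (C : ℕ → ℤ × ℤ × ℤ → J0 → J2 → ℤ → ℤ → ℝ)
    (eA : ∀ k ∈ Icc (l + 1) N, ∀ p ∈ bx N R0 R1 R2 k (cc k),
      A k p = ∑ s ∈ range S, cmp (DA s) (σA s k p))
    (eB : ∀ k ∈ Icc (l + 1) N, ∀ p ∈ bx N R0 R1 R2 k (cc k),
      B k p = ∑ s ∈ range S, cmp (DB s) (σB s k p))
    (eC : ∀ k ∈ Icc (l + 1) N, ∀ p ∈ bx N R0 R1 R2 k (cc k),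
      C k p = ∑ s ∈ range S, cmp (DC s) (σC s k p))
    {MA MB MC : ℝ} (hMA : 0 < MA) (hMB : 0 < MB) (hMC : 0 < MC)
    (mA : ∀ s ∈ range S, ∀ i, ∀ k ∈ Icc (l + 1) N, ∀ p ∈ bx N R0 R1 R2 k (cc k),
      hs (mat k (DA s i) p.1 p.2.1) ≤ MA ^ 2)
    (mB : ∀ s ∈ range S, ∀ i, ∀ k ∈ Icc (l + 1) N, ∀ p ∈ bx N R0 R1 R2 k (cc k),
      hs (mat k (DB s i) p.2.1 p.2.2) ≤ MB ^ 2)
    (mC : ∀ s ∈ range S, ∀ i, ∀ k ∈ Icc (l + 1) N, ∀ p ∈ bx N R0 R1 R2 k (cc k),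
      hs (mat k (DC s i) p.1 p.2.2) ≤ MC ^ 2)
    {u w β α γ : ℝ} (hu : 0 < u) (hw : 0 < w) (hβ : 0 < β)
    (hA1 : ∀ s ∈ range S, t2 N R0 R1 l (ofFun (vec (DA s))) ≤ u ^ 2)
    (hA0 : ∀ s ∈ range S, t2 N R1 R0 l (ofFun (vec fun i => fl (DA s i))) ≤ u ^ 2)
    (hB1 : ∀ s ∈ range S, t1 N R2 R1 l (ofFun (vec fun i => fl (DB s i))) ≤ β)
    (hB2 : ∀ s ∈ range S, t1 N R1 R2 l (ofFun (vec (DB s))) ≤ β)
    (hC0 : ∀ s ∈ range S, t2 N R2 R0 l (ofFun (vec fun i => fl (DC s i))) ≤ w ^ 2)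
    (hC2 : ∀ s ∈ range S, t2 N R0 R2 l (ofFun (vec (DC s))) ≤ w ^ 2)
    (hα : ∀ s ∈ range S, t1 N R0 R1 l (ofFun (vec (DA s))) ≤ α)
    (hγ : ∀ s ∈ range S, t1 N R2 R0 l (ofFun (vec fun i => fl (DC s i))) ≤ γ) (L : ℕ) :
    WS N l R0 R1 R2 cc (fun k p => ((8 : ℝ) ^ k)⁻¹ * |tri3 k p (A k p) (B k p) (C k p)|) ≤
      (S : ℝ) ^ 3 * (57375 * (L + 1) ^ 3 * Real.sqrt (β * u * w)
      + (N - l : ℕ) * (1 / 2) ^ L * (MA * Real.sqrt (β * γ) + MB * Real.sqrt (α * γ)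
        + MC * Real.sqrt (α * β))) := by
  have mat_zero : ∀ {J' J : Type} [Fintype J'] [DecidableEq J'] [Fintype J] [DecidableEq J]
      (k : ℕ) (n m : ℤ), mat k (0 : J' → J → ℤ → ℤ → ℝ) n m = 0 := by
    intro J' J _ _ _ _ k n m
    ext i j
    simp [mat, smp]
  have mat_sum : ∀ {J' J : Type} [Fintype J'] [DecidableEq J'] [Fintype J] [DecidableEq J]
      (k : ℕ) (n m : ℤ) (F : ℕ → J' → J → ℤ → ℤ → ℝ),
      mat k (∑ s ∈ range S, F s) n m = ∑ s ∈ range S, mat k (F s) n m := by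
    intro J' J _ _ _ _ k n m F
    ext i j
    rw [Matrix.sum_apply]
    simp only [mat, smp, Matrix.smul_apply, smul_eq_mul, Finset.sum_apply, mul_sum]
  have dom : ∀ {J' J : Type} [Fintype J'] [DecidableEq J'] [Fintype J] [DecidableEq J]
      (D : ι → J' → J → ℤ → ℤ → ℝ) (k : ℕ) (n m : ℤ) (o : Option ι),
      (gX k k (vec D) n m - (mat k (cmp D o) n m)ᵀ * mat k (cmp D o) n m).PosSemidef ∧
      (gX k k (vec fun i => fl (D i)) m n
        - mat k (cmp D o) n m * (mat k (cmp D o) n m)ᵀ).PosSemidef := by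
    intro J' J _ _ _ _ D k n m o
    cases o with
    | none =>
      simp only [cmp, mat_zero, transpose_zero, Matrix.mul_zero, sub_zero]
      exact ⟨gX_psd .., gX_psd ..⟩
    | some i =>
      simp only [cmp]
      rw [mat_col, mat_row]
      exact ⟨gX_vec_dom k k D n m i, gX_vec_dom k k (fun i => fl (D i)) m n i⟩
  have hsz : ∀ {P Q : Type} [Fintype P] [DecidableEq P] [Fintype Q] [DecidableEq Q],
      hs (0 : Matrix P Q ℝ) = 0 := by
    intro P Q _ _ _ _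
    rw [hs, Matrix.zero_mul, trace_zero]
  -- pointwise: trilinear expansion
  have pt : ∀ k ∈ Icc (l + 1) N, ∀ p ∈ bx N R0 R1 R2 k (cc k),
      ((8 : ℝ) ^ k)⁻¹ * |tri3 k p (A k p) (B k p) (C k p)| ≤
      ∑ s ∈ range S, ∑ s' ∈ range S, ∑ s'' ∈ range S,
        |LF (fun k p => mat k (cmp (DA s) (σA s k p)) p.1 p.2.1)
          (fun k p => mat k (cmp (DB s') (σB s' k p)) p.2.1 p.2.2)
          (fun k p => mat k (cmp (DC s'') (σC s'' k p)) p.1 p.2.2) k p| := by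
    intro k hk p hp
    obtain ⟨k', rfl⟩ : ∃ k', k = k' + 1 := ⟨k - 1, by have := (mem_Icc.mp hk).1; omega⟩
    have e1 : ((8 : ℝ) ^ (k' + 1))⁻¹ * |tri3 (k' + 1) p (A (k' + 1) p) (B (k' + 1) p)
        (C (k' + 1) p)| = |TF (hd J0 (k' + 1)) (hd J1 (k' + 1)) (hd J2 (k' + 1))
          (mat (k' + 1) (A (k' + 1) p) p.1 p.2.1) (mat (k' + 1) (B (k' + 1) p) p.2.1 p.2.2)
          (mat (k' + 1) (C (k' + 1) p) p.1 p.2.2)| := by
      rw [TF_mat, abs_mul, abs_of_pos (show (0 : ℝ) < ((8 : ℝ) ^ (k' + 1))⁻¹ by positivity)]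
    rw [e1, eA _ hk p hp, eB _ hk p hp, eC _ hk p hp, mat_sum, mat_sum, mat_sum, TF_sum_a]
    refine (abs_sum_le_sum_abs _ _).trans (sum_le_sum fun s _ => ?_)
    rw [TF_sum_b]
    refine (abs_sum_le_sum_abs _ _).trans (sum_le_sum fun s' _ => ?_)
    rw [TF_sum_c]
    exact abs_sum_le_sum_abs _ _
  have h1 : WS N l R0 R1 R2 cc (fun k p => ((8 : ℝ) ^ k)⁻¹ * |tri3 k p (A k p) (B k p) (C k p)|)
      ≤ WS N l R0 R1 R2 cc (fun k p => ∑ s ∈ range S, ∑ s' ∈ range S, ∑ s'' ∈ range S,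
        |LF (fun k p => mat k (cmp (DA s) (σA s k p)) p.1 p.2.1)
          (fun k p => mat k (cmp (DB s') (σB s' k p)) p.2.1 p.2.2)
          (fun k p => mat k (cmp (DC s'') (σC s'' k p)) p.1 p.2.2) k p|) := by
    unfold WS
    refine sum_le_sum fun k hk => mul_le_mul_of_nonneg_left (sum_le_sum fun p hp => ?_)
      (by positivity)
    exact pt k hk p hp
  refine h1.trans ?_
  rw [WS_sum]
  simp only [WS_sum]
  have h2 : ∀ s ∈ range S, ∀ s' ∈ range S, ∀ s'' ∈ range S,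
      WS N l R0 R1 R2 cc (fun k p => |LF (fun k p => mat k (cmp (DA s) (σA s k p)) p.1 p.2.1)
          (fun k p => mat k (cmp (DB s') (σB s' k p)) p.2.1 p.2.2)
          (fun k p => mat k (cmp (DC s'') (σC s'' k p)) p.1 p.2.2) k p|)
      ≤ 57375 * (L + 1) ^ 3 * Real.sqrt (β * u * w)
      + (N - l : ℕ) * (1 / 2) ^ L * (MA * Real.sqrt (β * γ) + MB * Real.sqrt (α * γ)
        + MC * Real.sqrt (α * β)) := by
    intro s hs' s' hs'' s'' hs'''
    refine tri424' (A0 := ofFun (vec fun i => fl (DA s i))) (A1 := ofFun (vec (DA s)))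
      (B1 := ofFun (vec fun i => fl (DB s' i))) (B2 := ofFun (vec (DB s')))
      (C0 := ofFun (vec fun i => fl (DC s'' i))) (C2 := ofFun (vec (DC s''))) hl hcc hMA hMB hMC
      ?_ ?_ ?_ hu hw hβ (hA1 s hs') (hA0 s hs') (hB1 s' hs'') (hB2 s' hs'') (hC0 s'' hs''')
      (hC2 s'' hs''') (hα s hs') (hγ s'' hs''') L
    · intro k hk p hp
      have d := dom (DA s) k p.1 p.2.1 (σA s k p)
      refine ⟨d.2, d.1, ?_⟩
      change hs (mat k (cmp (DA s) (σA s k p)) p.1 p.2.1) ≤ MA ^ 2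
      cases h : σA s k p with
      | none => simp only [cmp, mat_zero, hsz]; positivity
      | some i => exact mA s hs' i k hk p hp
    · intro k hk p hp
      have d := dom (DB s') k p.2.1 p.2.2 (σB s' k p)
      refine ⟨d.2, d.1, ?_⟩
      change hs (mat k (cmp (DB s') (σB s' k p)) p.2.1 p.2.2) ≤ MB ^ 2
      cases h : σB s' k p with
      | none => simp only [cmp, mat_zero, hsz]; positivity
      | some i => exact mB s' hs'' i k hk p hp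
    · intro k hk p hp
      have d := dom (DC s'') k p.1 p.2.2 (σC s'' k p)
      refine ⟨d.2, d.1, ?_⟩
      change hs (mat k (cmp (DC s'') (σC s'' k p)) p.1 p.2.2) ≤ MC ^ 2
      cases h : σC s'' k p with
      | none => simp only [cmp, mat_zero, hsz]; positivity
      | some i => exact mC s'' hs''' i k hk p hp
  calc _ ≤ ∑ s ∈ range S, ∑ s' ∈ range S, ∑ s'' ∈ range S,
        (57375 * (L + 1) ^ 3 * Real.sqrt (β * u * w)
      + (N - l : ℕ) * (1 / 2) ^ L * (MA * Real.sqrt (β * γ) + MB * Real.sqrt (α * γ)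
        + MC * Real.sqrt (α * β))) :=
        sum_le_sum fun s hs => sum_le_sum fun s' hs' => sum_le_sum fun s'' hs'' =>
          h2 s hs s' hs' s'' hs''
    _ = _ := by
        simp only [sum_const, card_range, nsmul_eq_mul]
        ring

end

end Vale.Agent.P141.PL.H48
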