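import Vale.Agent.P075.Bdl.B1


/-!
# P141: operator bounds and level pieces of rectangular matrices

`OB K M` says `‖M‖² ≤ K` (operator norm) as a two-sided matrix inequality, `hs M = ‖M‖²`
(Hilbert-Schmidt). A matrix `a` is decomposed into the pieces
`a (φ(4κ aᵀa)² - φ(κ aᵀa)²)`, `φ(X) = X (1 + X)⁻¹`, each of which factors as
`φ(κ a aᵀ) m φ(κ aᵀa)` with `‖m‖² ≤ (225/16) κ⁻¹`.
-/

namespace Vale.Agent.P141.PL.H48

set_option linter.unusedSectionVars false

open Matrix Vale.Agent.P075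

noncomputable section

variable {P Q R' : Type} [Fintype P] [DecidableEq P] [Fintype Q] [DecidableEq Q]
  [Fintype R'] [DecidableEq R']

/-- square of the Hilbert-Schmidt norm -/
def hs (M : Matrix P Q ℝ) : ℝ := (M * Mᵀ).trace

omit [DecidableEq P] [DecidableEq Q] in
theorem hs_eq (M : Matrix P Q ℝ) : hs M = ∑ i, ∑ j, M i j ^ 2 := by
  simp only [hs, Matrix.trace, Matrix.diag, Matrix.mul_apply, Matrix.transpose_apply, pow_two]

omit [DecidableEq P] [DecidableEq Q] in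
theorem hs_nonneg (M : Matrix P Q ℝ) : 0 ≤ hs M := by
  rw [hs_eq]; positivity

omit [DecidableEq P] [DecidableEq Q] in
theorem hs_transpose (M : Matrix P Q ℝ) : hs Mᵀ = hs M := by
  rw [hs, hs, transpose_transpose, trace_mul_comm]

omit [DecidableEq P] [DecidableEq Q] in
/-- Cauchy-Schwarz for the trace -/
theorem trace_sq_le_hs (U : Matrix P Q ℝ) (V : Matrix Q P ℝ) :
    (U * V).trace ^ 2 ≤ hs U * hs V := by
  have h : (U * V).trace = ∑ p : P × Q, U p.1 p.2 * V p.2 p.1 := by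
    rw [Fintype.sum_prod_type]
    simp only [Matrix.trace, Matrix.diag, Matrix.mul_apply]
  have h1 : hs U = ∑ p : P × Q, U p.1 p.2 ^ 2 := by rw [hs_eq, Fintype.sum_prod_type]
  have h2 : hs V = ∑ p : P × Q, V p.2 p.1 ^ 2 := by
    rw [← hs_transpose, hs_eq, Fintype.sum_prod_type]
    simp only [Matrix.transpose_apply]
  rw [h, h1, h2]
  exact Finset.sum_mul_sq_le_sq_mul_sq _ _ _

/-- operator norm bound `‖M‖² ≤ K` -/
def OB (K : ℝ) (M : Matrix P Q ℝ) : Prop :=
  (K • (1 : Matrix Q Q ℝ) - Mᵀ * M).PosSemidef ∧ (K • (1 : Matrix P P ℝ) - M * Mᵀ).PosSemidef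

theorem OB.transpose {K : ℝ} {M : Matrix P Q ℝ} (h : OB K M) : OB K Mᵀ := by
  refine ⟨?_, ?_⟩
  · rw [transpose_transpose]; exact h.2
  · rw [transpose_transpose]; exact h.1

theorem OB.mono {K K' : ℝ} (hK : K ≤ K') {M : Matrix P Q ℝ} (h : OB K M) : OB K' M := by
  have h1 : ((K' - K) • (1 : Matrix Q Q ℝ)).PosSemidef := PosSemidef.one.smul (sub_nonneg.mpr hK)
  have h2 : ((K' - K) • (1 : Matrix P P ℝ)).PosSemidef := PosSemidef.one.smul (sub_nonneg.mpr hK)
  refine ⟨?_, ?_⟩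
  · have e : K' • (1 : Matrix Q Q ℝ) - Mᵀ * M
        = (K' - K) • (1 : Matrix Q Q ℝ) + (K • (1 : Matrix Q Q ℝ) - Mᵀ * M) := by
      rw [sub_smul]; abel
    rw [e]; exact h1.add h.1
  · have e : K' • (1 : Matrix P P ℝ) - M * Mᵀ
        = (K' - K) • (1 : Matrix P P ℝ) + (K • (1 : Matrix P P ℝ) - M * Mᵀ) := by
      rw [sub_smul]; abel
    rw [e]; exact h2.add h.2

theorem OB.mul {K L : ℝ} (hK : 0 ≤ K) (hL : 0 ≤ L) {M : Matrix P Q ℝ} {N : Matrix Q R' ℝ}
    (h : OB K M) (h' : OB L N) : OB (K * L) (M * N) := by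
  refine ⟨?_, ?_⟩
  · have e : (K * L) • (1 : Matrix R' R' ℝ) - (M * N)ᵀ * (M * N)
        = Nᵀ * (K • (1 : Matrix Q Q ℝ) - Mᵀ * M) * Nᵀᵀ
          + K • (L • (1 : Matrix R' R' ℝ) - Nᵀ * N) := by
      rw [transpose_transpose, transpose_mul, Matrix.mul_sub, Matrix.sub_mul, smul_sub, smul_smul,
        Matrix.mul_smul, Matrix.mul_one, Matrix.smul_mul]
      simp only [Matrix.mul_assoc]
      abel
    rw [e]
    exact (psd_conj h.1 Nᵀ).add (h'.1.smul hK)
  · have e : (K * L) • (1 : Matrix P P ℝ) - (M * N) * (M * N)ᵀ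
        = M * (L • (1 : Matrix Q Q ℝ) - N * Nᵀ) * Mᵀ
          + L • (K • (1 : Matrix P P ℝ) - M * Mᵀ) := by
      rw [transpose_mul, Matrix.mul_sub, Matrix.sub_mul, smul_sub, smul_smul,
        Matrix.mul_smul, Matrix.mul_one, Matrix.smul_mul, mul_comm L K]
      simp only [Matrix.mul_assoc]
      abel
    rw [e]
    exact (psd_conj h'.2 M).add (h.2.smul hL)

/-- left multiplication and Hilbert-Schmidt norm -/
theorem OB.hs_left {K : ℝ} {M : Matrix P Q ℝ} (h : OB K M) (N : Matrix Q R' ℝ) :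
    hs (M * N) ≤ K * hs N := by
  have h1 : hs (M * N) = ((N * Nᵀ) * (Mᵀ * M)).trace := by
    rw [hs, transpose_mul, trace_mul_comm, Matrix.mul_assoc, ← Matrix.mul_assoc Mᵀ M N,
      trace_mul_comm, Matrix.mul_assoc, trace_mul_comm]
  have h2 := trace_mul_nonneg (psd_mul_transpose N) h.1
  rw [Matrix.mul_sub, trace_sub, Matrix.mul_smul, Matrix.mul_one, trace_smul, smul_eq_mul] at h2
  rw [h1]
  unfold hs
  linarith

/-- right multiplication and Hilbert-Schmidt norm -/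
theorem OB.hs_right {K : ℝ} {M : Matrix P Q ℝ} (h : OB K M) (N : Matrix R' P ℝ) :
    hs (N * M) ≤ K * hs N := by
  have := h.transpose.hs_left Nᵀ
  rwa [← transpose_mul, hs_transpose, hs_transpose] at this

theorem ob_refl {r : Matrix P P ℝ} (hr : rᵀ = r) (hr2 : r * r = 1) : OB 1 r := by
  refine ⟨?_, ?_⟩ <;> rw [hr, hr2, one_smul, sub_self] <;> exact PosSemidef.zero

theorem ob_phi {X : Matrix P P ℝ} (hX : X.PosSemidef) : OB 1 (phi X) := by
  have h : (1 - phi X * phi X).PosSemidef := by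
    have e : 1 - phi X * phi X = (1 - phi X) + (phi X - phi X * phi X) := by abel
    rw [e]; exact (one_sub_phi_psd hX).add (phi_sub_sq_psd hX)
  refine ⟨?_, ?_⟩ <;> rw [phi_symm hX, one_smul] <;> exact h

/-- column Gram matrix -/
def XC (κ : ℝ) (a : Matrix P Q ℝ) : Matrix Q Q ℝ := κ • (aᵀ * a)

/-- row Gram matrix -/
def XR (κ : ℝ) (a : Matrix P Q ℝ) : Matrix P P ℝ := κ • (a * aᵀ)

omit [Fintype Q] [DecidableEq Q] [DecidableEq P] in
theorem XC_transpose (κ : ℝ) (a : Matrix Q P ℝ) [Fintype Q] : XC κ aᵀ = XR κ a := by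
  rw [XC, XR, transpose_transpose]

omit [DecidableEq Q] in
theorem XC_psd {κ : ℝ} (hκ : 0 ≤ κ) (a : Matrix P Q ℝ) : (XC κ a).PosSemidef :=
  (psd_transpose_mul a).smul hκ

omit [DecidableEq P] in
theorem XR_psd {κ : ℝ} (hκ : 0 ≤ κ) (a : Matrix P Q ℝ) : (XR κ a).PosSemidef :=
  (psd_mul_transpose a).smul hκ

/-- push-through identity -/
theorem push_res {κ : ℝ} (hκ : 0 ≤ κ) (a : Matrix P Q ℝ) :
    a * res (XC κ a) = res (XR κ a) * a := by
  have h1 := one_add_mul_res (XC_psd hκ a)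
  have h2 := res_mul_one_add (XR_psd hκ a)
  have h3 : (1 + XR κ a) * a = a * (1 + XC κ a) := by
    simp only [XR, XC, Matrix.add_mul, Matrix.mul_add, Matrix.one_mul, Matrix.mul_one,
      Matrix.smul_mul, Matrix.mul_smul, Matrix.mul_assoc]
  calc a * res (XC κ a) = (res (XR κ a) * (1 + XR κ a)) * a * res (XC κ a) := by
        rw [h2, Matrix.one_mul]
    _ = res (XR κ a) * ((1 + XR κ a) * a) * res (XC κ a) := by
        simp only [Matrix.mul_assoc]
    _ = res (XR κ a) * a * ((1 + XC κ a) * res (XC κ a)) := by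
        rw [h3]; simp only [Matrix.mul_assoc]
    _ = res (XR κ a) * a := by rw [h1, Matrix.mul_one]

theorem push_phi {κ : ℝ} (hκ : 0 ≤ κ) (a : Matrix P Q ℝ) :
    a * phi (XC κ a) = phi (XR κ a) * a := by
  rw [phi, phi, Matrix.mul_sub, Matrix.sub_mul, push_res hκ, Matrix.mul_one, Matrix.one_mul]

/-- `‖a (1 + κ aᵀa)⁻¹‖² ≤ 1 / (4 κ)` -/
theorem ob_res {κ : ℝ} (hκ : 0 < κ) (a : Matrix P Q ℝ) : OB (4 * κ)⁻¹ (a * res (XC κ a)) := by
  have key : ∀ {P Q : Type} [Fintype P] [DecidableEq P] [Fintype Q] [DecidableEq Q]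
      (a : Matrix P Q ℝ), ((4 * κ)⁻¹ • (1 : Matrix Q Q ℝ)
        - (a * res (XC κ a))ᵀ * (a * res (XC κ a))).PosSemidef := by
    intro P Q _ _ _ _ a
    have hX := XC_psd hκ.le a
    have hs := res_symm hX
    have e : (4 * κ)⁻¹ • (1 : Matrix Q Q ℝ) - (a * res (XC κ a))ᵀ * (a * res (XC κ a))
        = κ⁻¹ • (((1 / 2 : ℝ) • (1 : Matrix Q Q ℝ) - res (XC κ a))
          * ((1 / 2 : ℝ) • (1 : Matrix Q Q ℝ) - res (XC κ a))) := by
      have e1 : (a * res (XC κ a))ᵀ * (a * res (XC κ a))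
          = κ⁻¹ • (res (XC κ a) - res (XC κ a) * res (XC κ a)) := by
        rw [res_sub_sq hX, transpose_mul, hs]
        have e2 : XC κ a = κ • (aᵀ * a) := rfl
        conv_rhs => rw [e2]
        rw [Matrix.mul_smul, Matrix.smul_mul, smul_smul, inv_mul_cancel₀ hκ.ne', one_smul, ← e2]
        simp only [Matrix.mul_assoc]
      have e3 : (4 * κ)⁻¹ = κ⁻¹ * (1 / 4) := by rw [mul_inv]; ring
      rw [e1, e3, mul_smul, ← smul_sub]
      congr 1
      simp only [Matrix.sub_mul, Matrix.mul_sub, Matrix.smul_mul, Matrix.mul_smul, Matrix.one_mul,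
        Matrix.mul_one]
      module
    rw [e]
    refine (psd_sq ?_).smul (by positivity)
    rw [transpose_sub, transpose_smul, transpose_one, hs]
  refine ⟨key a, ?_⟩
  have h := key aᵀ
  rw [XC_transpose] at h
  have e : a * res (XC κ a) = (aᵀ * res (XR κ a))ᵀ := by
    rw [transpose_mul, transpose_transpose, res_symm (XR_psd hκ.le a), push_res hκ.le]
  rw [e, transpose_transpose]
  exact h

/-- `p` factors through `φ` on both sides with a middle factor of norm² `≤ K` -/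
def Fac (κ K : ℝ) (a p : Matrix P Q ℝ) : Prop :=
  ∃ m : Matrix P Q ℝ, p = phi (XR κ a) * m * phi (XC κ a) ∧ OB K m

/-- smooth truncation at level `κ` -/
def tr (κ : ℝ) (a : Matrix P Q ℝ) : Matrix P Q ℝ := a * (phi (XC κ a) * phi (XC κ a))

theorem fac_tr {κ K : ℝ} (hκ : 0 ≤ κ) {a : Matrix P Q ℝ} (h : OB K a) : Fac κ K a (tr κ a) := by
  refine ⟨a, ?_, h⟩
  rw [tr, ← Matrix.mul_assoc, push_phi hκ]

theorem fac_step {κ : ℝ} (hκ : 0 < κ) (a : Matrix P Q ℝ) :
    Fac κ ((225 / 16) * κ⁻¹) a (tr (4 * κ) a - tr κ a) := by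
  have hX := XC_psd hκ.le a
  have h4 : 0 < 4 * κ := by linarith
  have hX4 := XC_psd h4.le a
  have h44 : XC (4 * κ) a = (4 : ℝ) • XC κ a := by rw [XC, XC, smul_smul]
  set A := res (XC κ a) with hA
  set B := res (XC (4 * κ) a) with hB
  have p1 : XC κ a * A = 1 - A := mul_res hX
  have p2 : A * XC κ a = 1 - A := res_mul hX
  have q1 : (4 : ℝ) • (XC κ a * B) = 1 - B := by
    rw [← Matrix.smul_mul, ← h44]; exact mul_res hX4
  have q2 : (4 : ℝ) • (B * XC κ a) = 1 - B := by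
    rw [← Matrix.mul_smul, ← h44]; exact res_mul hX4
  -- `A - B = 3 (1 - A) B = 3 B (1 - A)`
  have e1 : A - B = (3 : ℝ) • ((1 - A) * B) := by
    have : A * ((4 : ℝ) • (XC κ a * B)) = (4 : ℝ) • ((1 - A) * B) := by
      rw [Matrix.mul_smul, ← Matrix.mul_assoc, p2]
    rw [q1, Matrix.mul_sub, Matrix.mul_one, Matrix.sub_mul, Matrix.one_mul] at this
    rw [Matrix.sub_mul, Matrix.one_mul]
    have h5 : A - A * B = (4 : ℝ) • (B - A * B) := this
    have h6 : A - B = (A - A * B) - (B - A * B) := by abel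
    rw [h6, h5]; module
  have e2 : A - B = (3 : ℝ) • (B * (1 - A)) := by
    have : ((4 : ℝ) • (B * XC κ a)) * A = (4 : ℝ) • (B * (1 - A)) := by
      rw [Matrix.smul_mul, Matrix.mul_assoc, p1]
    rw [q2, Matrix.sub_mul, Matrix.one_mul, Matrix.mul_sub, Matrix.mul_one] at this
    rw [Matrix.mul_sub, Matrix.mul_one]
    have h5 : A - B * A = (4 : ℝ) • (B - B * A) := this
    have h6 : A - B = (A - B * A) - (B - B * A) := by abel
    rw [h6, h5]; module
  have hc : (1 - A) * B = B * (1 - A) := by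
    have h7 : (3 : ℝ) • ((1 - A) * B) = (3 : ℝ) • (B * (1 - A)) := by rw [← e1, e2]
    have h8 := congrArg (fun M => (1 / 3 : ℝ) • M) h7
    simpa [smul_smul] using h8
  have hAB : A * B = B * A := by
    rw [Matrix.sub_mul, Matrix.mul_sub, Matrix.one_mul, Matrix.mul_one] at hc
    have : B - (B - A * B) = B - (B - B * A) := by rw [hc]
    simpa using this
  -- the difference of squares
  have e3 : (1 - B) * (1 - B) - (1 - A) * (1 - A)
      = (1 - A) * (B * ((9 : ℝ) • B + (6 : ℝ) • (1 : Matrix Q Q ℝ))) * (1 - A) := by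
    have h1 : (1 - B) * (1 - B) - (1 - A) * (1 - A) = (A - B) * (2 - A - B) := by
      have : (A - B) * (2 - A - B) = (1 - B) * (1 - B) - (1 - A) * (1 - A)
          + (B * A - A * B) := by noncomm_ring
      rw [this, hAB]; abel
    have h2 : ((9 : ℝ) • B + (6 : ℝ) • (1 : Matrix Q Q ℝ)) * (1 - A) = (3 : ℝ) • (2 - A - B) := by
      have h3 : (9 : ℝ) • (B * (1 - A)) = (3 : ℝ) • (A - B) := by rw [e2, smul_smul]; norm_num
      have h4 : ((2 : Matrix Q Q ℝ)) = (2 : ℝ) • (1 : Matrix Q Q ℝ) := by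
        rw [two_smul]; norm_num
      rw [Matrix.add_mul, Matrix.smul_mul, Matrix.smul_mul, Matrix.one_mul, h3, h4]
      module
    rw [h1, Matrix.mul_assoc, Matrix.mul_assoc, h2, Matrix.mul_smul, Matrix.mul_smul,
      ← Matrix.mul_assoc, ← Matrix.smul_mul, ← e1]
  refine ⟨a * B * ((9 : ℝ) • B + (6 : ℝ) • (1 : Matrix Q Q ℝ)), ?_, ?_⟩
  · have e4 : phi (XC κ a) = 1 - A := rfl
    have e5 : phi (XC (4 * κ) a) = 1 - B := rfl
    have e6 : phi (XR κ a) * a = a * (1 - A) := by rw [← push_phi hκ.le, e4]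
    rw [tr, tr, ← Matrix.mul_sub, e4, e5, e3]
    simp only [← Matrix.mul_assoc]
    rw [e6]
  · have b1 : OB (4 * (4 * κ))⁻¹ (a * B) := ob_res h4 a
    have b2 : OB 225 ((9 : ℝ) • B + (6 : ℝ) • (1 : Matrix Q Q ℝ)) := by
      have hs : ((9 : ℝ) • B + (6 : ℝ) • (1 : Matrix Q Q ℝ))ᵀ
          = (9 : ℝ) • B + (6 : ℝ) • (1 : Matrix Q Q ℝ) := by
        rw [transpose_add, transpose_smul, transpose_smul, transpose_one, res_symm hX4]
      have e : (225 : ℝ) • (1 : Matrix Q Q ℝ) - ((9 : ℝ) • B + (6 : ℝ) • (1 : Matrix Q Q ℝ))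
          * ((9 : ℝ) • B + (6 : ℝ) • (1 : Matrix Q Q ℝ))
          = (189 : ℝ) • (1 - B) + (81 : ℝ) • (B - B * B) := by
        simp only [Matrix.add_mul, Matrix.mul_add, Matrix.smul_mul, Matrix.mul_smul,
          Matrix.one_mul, Matrix.mul_one]
        module
      have hp : ((189 : ℝ) • (1 - B) + (81 : ℝ) • (B - B * B)).PosSemidef :=
        ((one_sub_res_psd hX4).smul (by norm_num)).add ((res_sub_sq_psd hX4).smul (by norm_num))
      refine ⟨?_, ?_⟩ <;> rw [hs, e] <;> exact hp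
    have b3 := b1.mul (by positivity) (by norm_num) b2
    have e : (4 * (4 * κ))⁻¹ * 225 = (225 / 16) * κ⁻¹ := by
      rw [mul_inv, mul_inv]; ring
    rwa [e] at b3

/-- the remainder of the truncation -/
theorem ob_rem {κ : ℝ} (hκ : 0 < κ) (a : Matrix P Q ℝ) : OB κ⁻¹ (a - tr κ a) := by
  have hX := XC_psd hκ.le a
  set A := res (XC κ a) with hA
  have e1 : a - tr κ a = a * A * ((2 : ℝ) • (1 : Matrix Q Q ℝ) - A) := by
    have e4 : phi (XC κ a) = 1 - A := rfl
    rw [tr, e4]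
    simp only [Matrix.mul_sub, Matrix.sub_mul, Matrix.mul_one, Matrix.one_mul, Matrix.mul_smul,
      Matrix.mul_assoc]
    module
  have b1 : OB (4 * κ)⁻¹ (a * A) := ob_res hκ a
  have b2 : OB 4 ((2 : ℝ) • (1 : Matrix Q Q ℝ) - A) := by
    have hs : ((2 : ℝ) • (1 : Matrix Q Q ℝ) - A)ᵀ = (2 : ℝ) • (1 : Matrix Q Q ℝ) - A := by
      rw [transpose_sub, transpose_smul, transpose_one, res_symm hX]
    have e : (4 : ℝ) • (1 : Matrix Q Q ℝ) - ((2 : ℝ) • (1 : Matrix Q Q ℝ) - A)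
        * ((2 : ℝ) • (1 : Matrix Q Q ℝ) - A) = (3 : ℝ) • A + (A - A * A) := by
      simp only [Matrix.sub_mul, Matrix.mul_sub, Matrix.smul_mul, Matrix.mul_smul,
        Matrix.one_mul, Matrix.mul_one]
      module
    have hp : ((3 : ℝ) • A + (A - A * A)).PosSemidef :=
      ((res_psd hX).smul (by norm_num)).add (res_sub_sq_psd hX)
    refine ⟨?_, ?_⟩ <;> rw [hs, e] <;> exact hp
  have b3 := b1.mul (by positivity) (by norm_num) b2
  rw [e1]
  have e : (4 * κ)⁻¹ * 4 = κ⁻¹ := by rw [mul_inv]; ring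
  rwa [e] at b3

/-- the truncation does not increase the Hilbert-Schmidt norm -/
theorem hs_tr_le {κ : ℝ} (hκ : 0 ≤ κ) (a : Matrix P Q ℝ) : hs (tr κ a) ≤ hs a := by
  have hX := XC_psd hκ a
  have h := (ob_phi hX).mul zero_le_one zero_le_one (ob_phi hX)
  have := h.hs_right a
  rw [tr]
  linarith

end

end Vale.Agent.P141.PL.H48
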