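import Vale.Agent.P141.PL.H48.Bd

/-!
# P141: the greedy lattice path (real arithmetic)
-/

namespace Vale.Agent.P141.PL.H48

open Finset

noncomputable section

/-- square root of the level weight -/
def sq (i : ℕ) : ℝ := 2 ^ (i - 1)

theorem sq_pos (i : ℕ) : 0 < sq i := by unfold sq; positivity

theorem lv_eq_sq (i : ℕ) : lv i = sq i * sq i := by
  unfold lv sq
  rw [← mul_pow]; norm_num

theorem sqrt_lv (i : ℕ) : Real.sqrt (lv i) = sq i := by
  rw [lv_eq_sq, Real.sqrt_mul_self (sq_pos i).le]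

theorem lv_le_succ (i : ℕ) : lv i ≤ lv (i + 1) := by
  unfold lv
  exact pow_le_pow_right₀ (by norm_num) (by omega)

theorem lv_succ_le (i : ℕ) : lv (i + 1) ≤ 4 * lv i := by
  unfold lv
  rw [← pow_succ']
  exact pow_le_pow_right₀ (by norm_num) (by omega)

theorem sq_succ_le (i : ℕ) : sq (i + 1) ≤ 2 * sq i := by
  unfold sq
  rw [← pow_succ']
  exact pow_le_pow_right₀ (by norm_num) (by omega)

theorem sq_le_succ (i : ℕ) : sq i ≤ sq (i + 1) := by
  unfold sq
  exact pow_le_pow_right₀ (by norm_num) (by omega)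

/-- one greedy step -/
def gst (u w b : ℝ) (p : ℕ × ℕ × ℕ) : ℕ × ℕ × ℕ :=
  open scoped Classical in
  if lv p.1 * u < sq p.2.1 * b then (p.1 + 1, p.2.1, p.2.2)
  else if lv p.2.2 * w < sq p.2.1 * b then (p.1, p.2.1, p.2.2 + 1)
  else (p.1, p.2.1 + 1, p.2.2)

/-- the greedy path -/
def gpath (u w b : ℝ) : ℕ → ℕ × ℕ × ℕ
  | 0 => (0, 0, 0)
  | n + 1 => gst u w b (gpath u w b n)

/-- invariants of the greedy path -/
def Inv (u w b : ℝ) (n : ℕ) (p : ℕ × ℕ × ℕ) : Prop :=
  p.1 + p.2.1 + p.2.2 = n ∧ lv p.1 * u ≤ max u (4 * (sq p.2.1 * b)) ∧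
    lv p.2.2 * w ≤ max w (4 * (sq p.2.1 * b)) ∧ sq p.2.1 * b ≤ max b (2 * (lv p.1 * u)) ∧
    sq p.2.1 * b ≤ max b (2 * (lv p.2.2 * w))

theorem gpath_inv {u w b : ℝ} (hu : 0 < u) (hw : 0 < w) (hb : 0 < b) (n : ℕ) :
    Inv u w b n (gpath u w b n) := by
  induction n with
  | zero =>
    have e1 : lv 0 = 1 := by simp [lv]
    have e2 : sq 0 = 1 := by simp [sq]
    refine ⟨rfl, ?_, ?_, ?_, ?_⟩ <;> simp only [gpath, e1, e2, one_mul]
    · exact le_max_left _ _
    · exact le_max_left _ _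
    · exact le_max_left _ _
    · exact le_max_left _ _
  | succ n ih =>
    obtain ⟨h0, h1, h2, h3, h4⟩ := ih
    rw [gpath]
    generalize gpath u w b n = p at *
    obtain ⟨i, j, k⟩ := p
    simp only at h0 h1 h2 h3 h4
    unfold gst
    simp only
    split_ifs with c1 c2
    · refine ⟨by simp only; omega, ?_, h2, ?_, h4⟩ <;> simp only
      · refine le_trans ?_ (le_max_right _ _)
        have := mul_le_mul_of_nonneg_right (lv_succ_le i) hu.le
        linarith
      · refine h3.trans (max_le_max le_rfl ?_)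
        have := mul_le_mul_of_nonneg_right (lv_le_succ i) hu.le
        linarith
    · refine ⟨by simp only; omega, h1, ?_, h3, ?_⟩ <;> simp only
      · refine le_trans ?_ (le_max_right _ _)
        have := mul_le_mul_of_nonneg_right (lv_succ_le k) hw.le
        linarith
      · refine h4.trans (max_le_max le_rfl ?_)
        have := mul_le_mul_of_nonneg_right (lv_le_succ k) hw.le
        linarith
    · have m1 := mul_le_mul_of_nonneg_right (sq_le_succ j) hb.le
      have m2 := mul_le_mul_of_nonneg_right (sq_succ_le j) hb.le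
      push Not at c1 c2
      refine ⟨by simp only; omega, ?_, ?_, ?_, ?_⟩ <;> simp only
      · exact h1.trans (max_le_max le_rfl (by linarith))
      · exact h2.trans (max_le_max le_rfl (by linarith))
      · exact le_trans (by linarith) (le_max_right _ _)
      · exact le_trans (by linarith) (le_max_right _ _)

/-- bound along the path -/
theorem gpath_le {S : ℕ → ℕ → ℕ → ℝ} {u w b c : ℝ}
    (ha : ∀ i j k, lv i * u ≤ sq j * b → S i j k ≤ S (i + 1) j k + c)
    (hc : ∀ i j k, lv k * w ≤ sq j * b → S i j k ≤ S i j (k + 1) + c)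
    (hb : ∀ i j k, sq j * b ≤ lv i * u → sq j * b ≤ lv k * w → S i j k ≤ S i (j + 1) k + c)
    (n : ℕ) : S 0 0 0 ≤ S (gpath u w b n).1 (gpath u w b n).2.1 (gpath u w b n).2.2 + n * c := by
  induction n with
  | zero => simp [gpath]
  | succ n ih =>
    rw [gpath]
    generalize gpath u w b n = p at *
    obtain ⟨i, j, k⟩ := p
    simp only at ih
    unfold gst
    simp only
    push_cast
    split_ifs with c1 c2
    · have := ha i j k c1.le
      simp only; linarith
    · have := hc i j k c2.le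
      simp only; linarith
    · push Not at c1 c2
      have := hb i j k c1 c2
      simp only; linarith

/-- the middle index is large at the end of the greedy path -/
theorem inv_large {u w b : ℝ} (hu : 0 < u) (hw : 0 < w) (hb0 : 0 < b) (L : ℕ) {i j k : ℕ}
    (h : Inv u w b (7 * L + 6) (i, j, k)) (h1 : u ≤ 2 ^ L * b) (h2 : w ≤ 2 ^ L * b)
    (h3 : b ≤ 2 ^ L * u) (h4 : b ≤ 2 ^ L * w) : 3 * L + 2 ≤ j := by
  obtain ⟨i0, i1, i2, i3, i4⟩ := h
  simp only at i0 i1 i2 i3 i4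
  by_contra hj
  push Not at hj
  have sj : sq j ≤ 2 ^ (3 * L) := by
    unfold sq
    exact pow_le_pow_right₀ (by norm_num) (by omega)
  have sj' := mul_le_mul_of_nonneg_right sj hb0.le
  have key : ∀ (v : ℝ) (i : ℕ), 0 < v → v ≤ 2 ^ L * b → b ≤ 2 ^ L * v →
      lv i * v ≤ max v (4 * (sq j * b)) → i ≤ 2 * L + 2 := by
    intro v i hv q1 q2 q3
    by_contra hi
    push Not at hi
    have l1 : (4 : ℝ) ^ (2 * L + 2) ≤ lv i := by
      unfold lv
      exact pow_le_pow_right₀ (by norm_num) (by omega)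
    have e1 : (4 : ℝ) ^ (2 * L + 2) = 2 ^ L * (2 ^ (3 * L) * 16) := by
      rw [show (4 : ℝ) = 2 ^ 2 by norm_num, ← pow_mul, show 2 * (2 * L + 2) = L + (3 * L + 4) by ring,
        pow_add, pow_add (2 : ℝ) (3 * L) 4]
      norm_num
    have l2 := mul_le_mul_of_nonneg_right l1 hv.le
    have l3 : 2 ^ (3 * L) * 16 * b ≤ (4 : ℝ) ^ (2 * L + 2) * v := by
      rw [e1]
      have := mul_le_mul_of_nonneg_left q2 (by positivity : (0 : ℝ) ≤ 2 ^ (3 * L) * 16)
      calc _ ≤ _ := this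
        _ = _ := by ring
    have l4 : max v (4 * (sq j * b)) ≤ 2 ^ (3 * L) * 4 * b := by
      refine max_le ?_ (by linarith)
      refine q1.trans ?_
      refine mul_le_mul_of_nonneg_right ?_ hb0.le
      have : (2 : ℝ) ^ L ≤ 2 ^ (3 * L) := pow_le_pow_right₀ (by norm_num) (by omega)
      have h0 : (0 : ℝ) < 2 ^ (3 * L) := by positivity
      linarith
    have h0 : (0 : ℝ) < 2 ^ (3 * L) * b := by positivity
    linarith
  have ki := key u i hu h1 h3 i1
  have kk := key w k hw h2 h4 i2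
  omega

/-- the tail at the end of the path -/
theorem tail_arith {b κ μ ν s u w α γ p : ℝ} (hb0 : 0 < b)
    (hκ : 0 < κ) (hν : 0 < ν) (hu : 0 < u) (hw : 0 < w) (hs : 0 < s) (hμ : μ = s * s) (hp : 1 ≤ p)
    (h5 : α ≤ p * (u * b)) (h6 : γ ≤ p * (w * b)) (y1 : p * 2 * b ≤ s * b)
    (x4 : κ * u ≤ 4 * (s * b)) (z4 : ν * w ≤ 4 * (s * b))
    (yx : s * b ≤ 2 * (κ * u)) (yz : s * b ≤ 2 * (ν * w)) :
    (κ * α + μ * b ^ 2 + ν * γ) / Real.sqrt (κ * μ * ν) ≤ 10 * Real.sqrt (b ^ 2 * u * w) := by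
  have p0 : 0 < p := by linarith
  have hμ0 : 0 < μ := by rw [hμ]; positivity
  obtain ⟨y, hy⟩ : ∃ y, y = s * b := ⟨_, rfl⟩
  obtain ⟨x, hx⟩ : ∃ x, x = κ * u := ⟨_, rfl⟩
  obtain ⟨z, hz⟩ : ∃ z, z = ν * w := ⟨_, rfl⟩
  rw [← hy] at y1 x4 z4 yx yz
  rw [← hx] at x4 yx
  rw [← hz] at z4 yz
  have y0 : 0 < y := lt_of_lt_of_le (by positivity) y1
  have x0 : 0 < x := by linarith
  have z0 : 0 < z := by linarith
  have n1 : κ * α ≤ p * x * b := by
    have := mul_le_mul_of_nonneg_left h5 hκ.le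
    calc _ ≤ _ := this
      _ = _ := by rw [hx]; ring
  have n3 : ν * γ ≤ p * z * b := by
    have := mul_le_mul_of_nonneg_left h6 hν.le
    calc _ ≤ _ := this
      _ = _ := by rw [hz]; ring
  have n2 : μ * b ^ 2 = y ^ 2 := by rw [hy, hμ]; ring
  have q : p * b ≤ y / 2 := by linarith
  have n1' : p * x * b ≤ 2 * y ^ 2 := by
    calc p * x * b = x * (p * b) := by ring
      _ ≤ (4 * y) * (y / 2) := mul_le_mul x4 q (by positivity) (by positivity)
      _ = _ := by ring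
  have n3' : p * z * b ≤ 2 * y ^ 2 := by
    calc p * z * b = z * (p * b) := by ring
      _ ≤ (4 * y) * (y / 2) := mul_le_mul z4 q (by positivity) (by positivity)
      _ = _ := by ring
  have den : y ^ 2 / 2 ≤ Real.sqrt (κ * μ * ν) * Real.sqrt (b ^ 2 * u * w) := by
    rw [← Real.sqrt_mul (by positivity)]
    refine Real.le_sqrt_of_sq_le ?_
    have e : κ * μ * ν * (b ^ 2 * u * w) = x * z * y ^ 2 := by
      rw [hx, hy, hz, hμ]; ring
    rw [e]
    have h7 : (y / 2) * (y / 2) ≤ x * z := mul_le_mul (by linarith) (by linarith) (by linarith) x0.le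
    have h8 := mul_le_mul_of_nonneg_right h7 (sq_nonneg y)
    calc _ = _ := by ring
      _ ≤ _ := h8
  have D0 : 0 < Real.sqrt (κ * μ * ν) := Real.sqrt_pos.2 (by positivity)
  rw [div_le_iff₀ D0]
  have e : 10 * Real.sqrt (b ^ 2 * u * w) * Real.sqrt (κ * μ * ν)
      = 10 * (Real.sqrt (κ * μ * ν) * Real.sqrt (b ^ 2 * u * w)) := by ring
  rw [e]
  linarith

/-- **Path lemma.** -/
theorem path_arith {S : ℕ → ℕ → ℕ → ℝ} {u w b c c' α γ : ℝ} (hu : 0 < u) (hw : 0 < w) (hb0 : 0 < b)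
    (hc' : 0 ≤ c')
    (ha : ∀ i j k, lv i * u ≤ sq j * b → S i j k ≤ S (i + 1) j k + c)
    (hc : ∀ i j k, lv k * w ≤ sq j * b → S i j k ≤ S i j (k + 1) + c)
    (hb : ∀ i j k, sq j * b ≤ lv i * u → sq j * b ≤ lv k * w → S i j k ≤ S i (j + 1) k + c)
    (ht : ∀ i j k, S i j k ≤ c' * ((lv i * α + lv j * b ^ 2 + lv k * γ)
      / Real.sqrt (lv i * lv j * lv k)))
    (L : ℕ) (h1 : u ≤ 2 ^ L * b) (h2 : w ≤ 2 ^ L * b) (h3 : b ≤ 2 ^ L * u) (h4 : b ≤ 2 ^ L * w)
    (h5 : α ≤ 2 ^ L * (u * b)) (h6 : γ ≤ 2 ^ L * (w * b)) :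
    S 0 0 0 ≤ (7 * L + 6) * c + 10 * c' * Real.sqrt (b ^ 2 * u * w) := by
  have hP := gpath_le ha hc hb (7 * L + 6)
  have hI := gpath_inv hu hw hb0 (7 * L + 6)
  generalize gpath u w b (7 * L + 6) = p at *
  obtain ⟨i, j, k⟩ := p
  have hj := inv_large hu hw hb0 L hI h1 h2 h3 h4
  obtain ⟨i0, i1, i2, i3, i4⟩ := hI
  simp only at hP i0 i1 i2 i3 i4
  have p2 : (0 : ℝ) < 2 ^ L := by positivity
  have sj : (2 : ℝ) ^ (3 * L + 1) ≤ sq j := by
    unfold sq
    exact pow_le_pow_right₀ (by norm_num) (by omega)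
  have e8 : (2 : ℝ) ^ (3 * L + 1) = 2 ^ L * (2 ^ L * 2 ^ L * 2) := by
    rw [show 3 * L + 1 = L + (L + L + 1) by ring, pow_add, pow_add (2 : ℝ) (L + L) 1, pow_add]
    norm_num
  have one_le : (1 : ℝ) ≤ 2 ^ L := one_le_pow₀ (by norm_num)
  have y1 : 2 ^ L * 2 * b ≤ sq j * b := by
    refine mul_le_mul_of_nonneg_right (le_trans ?_ sj) hb0.le
    rw [e8]
    refine mul_le_mul_of_nonneg_left ?_ p2.le
    have := mul_le_mul one_le one_le zero_le_one p2.le
    linarith
  have y2 : 2 * b ≤ sq j * b := by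
    refine le_trans ?_ y1
    refine mul_le_mul_of_nonneg_right ?_ hb0.le
    linarith
  have y3 : 2 ^ L * b ≤ sq j * b := by
    refine le_trans ?_ y1
    refine mul_le_mul_of_nonneg_right ?_ hb0.le
    linarith
  have x4 : lv i * u ≤ 4 * (sq j * b) := i1.trans (max_le (by linarith) le_rfl)
  have z4 : lv k * w ≤ 4 * (sq j * b) := i2.trans (max_le (by linarith) le_rfl)
  have yx : sq j * b ≤ 2 * (lv i * u) := by
    rcases le_max_iff.1 i3 with h | h
    · exfalso; linarith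
    · exact h
  have yz : sq j * b ≤ 2 * (lv k * w) := by
    rcases le_max_iff.1 i4 with h | h
    · exfalso; linarith
    · exact h
  have tail := tail_arith hb0 (lv_pos i) (lv_pos k) hu hw (sq_pos j) (lv_eq_sq j) one_le h5 h6 y1
    x4 z4 yx yz
  have hT := ht i j k
  have t2 := mul_le_mul_of_nonneg_left tail hc'
  push_cast at hP
  linarith

end

end Vale.Agent.P141.PL.H48
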