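import Vale.Agent.P141.PL.H48.PathA

/-!
# P141: summation along the lattice path
-/

namespace Vale.Agent.P141.PL.H48

open Finset

noncomputable section

/-- Values of a trilinear form with remainders `(i, j, k)` on a finite weighted set, vertex
densities. -/
structure PD (Ω : Type) where
  /-- index set -/
  s : Finset Ω
  /-- weights -/
  wt : Ω → ℝ
  wt0 : ∀ ω, 0 ≤ wt ω
  /-- values -/
  T : ℕ → ℕ → ℕ → Ω → ℝ
  /-- densities -/
  D0 : ℕ → ℕ → Ω → ℝ
  /-- densities -/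
  D1 : ℕ → ℕ → Ω → ℝ
  /-- densities -/
  D2 : ℕ → ℕ → Ω → ℝ
  D0n : ∀ i j ω, ω ∈ s → 0 ≤ D0 i j ω
  D1n : ∀ i j ω, ω ∈ s → 0 ≤ D1 i j ω
  D2n : ∀ i j ω, ω ∈ s → 0 ≤ D2 i j ω
  ha : ∀ i j k ω, ω ∈ s → (T i j k ω - T (i + 1) j k ω) ^ 2
    ≤ 225 * (lv i * lv j * lv k)⁻¹ * D0 i k ω * D1 i j ω
  hb : ∀ i j k ω, ω ∈ s → (T i j k ω - T i (j + 1) k ω) ^ 2
    ≤ 225 * (lv i * lv j * lv k)⁻¹ * D1 i j ω * D2 j k ω
  hc : ∀ i j k ω, ω ∈ s → (T i j k ω - T i j (k + 1) ω) ^ 2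
    ≤ 225 * (lv i * lv j * lv k)⁻¹ * D2 j k ω * D0 i k ω
  lim : ∀ i j k, ∀ ε > 0, ∃ n, ∀ ω ∈ s, |T (i + n) (j + n) (k + n) ω| ≤ ε

namespace PD

variable {Ω : Type} (D : PD Ω)

/-- weighted sum -/
def W (g : Ω → ℝ) : ℝ := ∑ ω ∈ D.s, D.wt ω * g ω

/-- the sum of the absolute values -/
def S (i j k : ℕ) : ℝ := D.W fun ω => |D.T i j k ω|

variable {D}

theorem W_mono {g g' : Ω → ℝ} (h : ∀ ω ∈ D.s, g ω ≤ g' ω) : D.W g ≤ D.W g' :=
  sum_le_sum fun ω hω => mul_le_mul_of_nonneg_left (h ω hω) (D.wt0 ω)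

theorem W_nonneg {g : Ω → ℝ} (h : ∀ ω ∈ D.s, 0 ≤ g ω) : 0 ≤ D.W g :=
  sum_nonneg fun ω hω => mul_nonneg (D.wt0 ω) (h ω hω)

theorem W_add (g g' : Ω → ℝ) : D.W (fun ω => g ω + g' ω) = D.W g + D.W g' := by
  unfold W
  simp only [mul_add, sum_add_distrib]

/-- Cauchy-Schwarz -/
theorem W_cs {T u v : Ω → ℝ} {K : ℝ} (hK : 0 ≤ K) (hu : ∀ ω ∈ D.s, 0 ≤ u ω)
    (hv : ∀ ω ∈ D.s, 0 ≤ v ω) (h : ∀ ω ∈ D.s, T ω ^ 2 ≤ K * u ω * v ω) {U V : ℝ}
    (hU : D.W u ≤ U) (hV : D.W v ≤ V) :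
    D.W (fun ω => |T ω|) ≤ Real.sqrt (K * U * V) := by
  refine Real.le_sqrt_of_sq_le ?_
  have h1 : D.W (fun ω => |T ω|) ≤ ∑ ω ∈ D.s, Real.sqrt (K * (D.wt ω * u ω))
      * Real.sqrt (D.wt ω * v ω) := by
    refine sum_le_sum fun ω hω => ?_
    have w0 := D.wt0 ω
    rw [← Real.sqrt_mul (mul_nonneg hK (mul_nonneg w0 (hu ω hω)))]
    refine Real.le_sqrt_of_sq_le ?_
    rw [mul_pow, sq_abs]
    have := mul_le_mul_of_nonneg_left (h ω hω) (sq_nonneg (D.wt ω))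
    calc _ ≤ _ := this
      _ = _ := by ring
  have h0 : 0 ≤ D.W (fun ω => |T ω|) := W_nonneg fun ω _ => abs_nonneg _
  have e1 : ∀ ω ∈ D.s, Real.sqrt (K * (D.wt ω * u ω)) ^ 2 = K * (D.wt ω * u ω) := fun ω hω =>
    Real.sq_sqrt (mul_nonneg hK (mul_nonneg (D.wt0 ω) (hu ω hω)))
  have e2 : ∀ ω ∈ D.s, Real.sqrt (D.wt ω * v ω) ^ 2 = D.wt ω * v ω := fun ω hω =>
    Real.sq_sqrt (mul_nonneg (D.wt0 ω) (hv ω hω))
  have n1 : 0 ≤ D.W u := W_nonneg hu
  have n2 : 0 ≤ D.W v := W_nonneg hv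
  calc _ ≤ (∑ ω ∈ D.s, Real.sqrt (K * (D.wt ω * u ω)) * Real.sqrt (D.wt ω * v ω)) ^ 2 :=
        pow_le_pow_left₀ h0 h1 2
    _ ≤ _ := Finset.sum_mul_sq_le_sq_mul_sq _ _ _
    _ = (K * D.W u) * D.W v := by
        rw [sum_congr rfl e1, sum_congr rfl e2, ← mul_sum]
        rfl
    _ ≤ (K * U) * V := mul_le_mul (mul_le_mul_of_nonneg_left hU hK) hV n2
        (mul_nonneg hK (n1.trans hU))

theorem step_abs {i j k i' j' k' : ℕ} {B : ℝ}
    (h : D.W (fun ω => |D.T i j k ω - D.T i' j' k' ω|) ≤ B) : D.S i j k ≤ D.S i' j' k' + B := by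
  have h1 : D.S i j k ≤ D.W (fun ω => |D.T i' j' k' ω| + |D.T i j k ω - D.T i' j' k' ω|) := by
    refine W_mono fun ω _ => ?_
    have := abs_add_le (D.T i' j' k' ω) (D.T i j k ω - D.T i' j' k' ω)
    rwa [add_sub_cancel] at this
  rw [W_add] at h1
  have : D.S i' j' k' = D.W fun ω => |D.T i' j' k' ω| := rfl
  linarith

theorem lv3_pos (i j k : ℕ) : 0 < lv i * lv j * lv k := by
  have := lv_pos i; have := lv_pos j; have := lv_pos k; positivity

theorem step_a {i j k : ℕ} {U V : ℝ} (hU : D.W (D.D0 i k) ≤ U) (hV : D.W (D.D1 i j) ≤ V) :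
    D.S i j k ≤ D.S (i + 1) j k + Real.sqrt (225 * (lv i * lv j * lv k)⁻¹ * U * V) :=
  step_abs (W_cs (by have := lv3_pos i j k; positivity) (D.D0n i k) (D.D1n i j) (D.ha i j k) hU hV)

theorem step_b {i j k : ℕ} {U V : ℝ} (hU : D.W (D.D1 i j) ≤ U) (hV : D.W (D.D2 j k) ≤ V) :
    D.S i j k ≤ D.S i (j + 1) k + Real.sqrt (225 * (lv i * lv j * lv k)⁻¹ * U * V) :=
  step_abs (W_cs (by have := lv3_pos i j k; positivity) (D.D1n i j) (D.D2n j k) (D.hb i j k) hU hV)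

theorem step_c {i j k : ℕ} {U V : ℝ} (hU : D.W (D.D2 j k) ≤ U) (hV : D.W (D.D0 i k) ≤ V) :
    D.S i j k ≤ D.S i j (k + 1) + Real.sqrt (225 * (lv i * lv j * lv k)⁻¹ * U * V) :=
  step_abs (W_cs (by have := lv3_pos i j k; positivity) (D.D2n j k) (D.D0n i k) (D.hc i j k) hU hV)

/-- crude bound of one step -/
theorem crude {c0 M N E κ μ ν : ℝ} (hc0 : 0 ≤ c0) (hE : 0 < E) (hEE : E * E ≤ κ * μ * ν)
    (hM : 0 ≤ M) (hN : 0 ≤ N) {X : ℝ} (hMX : M ≤ X) (hNX : N ≤ X) :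
    Real.sqrt (225 * (κ * μ * ν)⁻¹ * (c0 * M) * (c0 * N)) ≤ 15 * c0 * X / E := by
  have hX : 0 ≤ X := hM.trans hMX
  refine Real.sqrt_le_iff.2 ⟨by positivity, ?_⟩
  have h1 : (κ * μ * ν)⁻¹ ≤ (E * E)⁻¹ := inv_anti₀ (by positivity) hEE
  have h2 : M * N ≤ X * X := mul_le_mul hMX hNX hN hX
  calc 225 * (κ * μ * ν)⁻¹ * (c0 * M) * (c0 * N) = (225 * c0 ^ 2) * ((κ * μ * ν)⁻¹ * (M * N)) := by
        ring
    _ ≤ (225 * c0 ^ 2) * ((E * E)⁻¹ * (X * X)) := by
        refine mul_le_mul_of_nonneg_left ?_ (by positivity)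
        exact mul_le_mul h1 h2 (mul_nonneg hM hN) (by positivity)
    _ = (15 * c0 * X / E) ^ 2 := by
        field_simp
        ring

theorem lv_add_le (i t : ℕ) : lv (i + t) ≤ 4 ^ t * lv i := by
  unfold lv
  rw [← pow_add]
  exact pow_le_pow_right₀ (by norm_num) (by omega)

theorem le_lv_add (i t : ℕ) : 4 ^ t * lv i ≤ 4 * lv (i + t) := by
  unfold lv
  rw [← pow_add, ← pow_succ']
  exact pow_le_pow_right₀ (by norm_num) (by omega)

/-- the tail bound -/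
theorem tail {c0 α β γ : ℝ} (hc0 : 0 ≤ c0) (hα : 0 ≤ α) (hβ : 0 ≤ β) (hγ : 0 ≤ γ)
    (v0 : ∀ i k, D.W (D.D0 i k) ≤ c0 * (lv i * α + lv k * γ))
    (v1 : ∀ i j, D.W (D.D1 i j) ≤ c0 * (lv i * α + lv j * β))
    (v2 : ∀ j k, D.W (D.D2 j k) ≤ c0 * (lv j * β + lv k * γ)) (i j k : ℕ) :
    D.S i j k ≤ 2880 * c0 * ((lv i * α + lv j * β + lv k * γ)
      / Real.sqrt (lv i * lv j * lv k)) := by
  set N := lv i * α + lv j * β + lv k * γ with hN
  set F := Real.sqrt (lv i * lv j * lv k) with hF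
  have hF0 : 0 < F := Real.sqrt_pos.2 (lv3_pos i j k)
  have hFF : F * F = lv i * lv j * lv k := Real.mul_self_sqrt (lv3_pos i j k).le
  have hN0 : 0 ≤ N := by
    have := lv_pos i; have := lv_pos j; have := lv_pos k; positivity
  -- one diagonal step
  have diag : ∀ t, D.S (i + t) (j + t) (k + t) ≤ D.S (i + t + 1) (j + t + 1) (k + t + 1)
      + 1440 * c0 * (N / F) * (1 / 2) ^ t := by
    intro t
    have p4 : (0 : ℝ) < 4 ^ t := by positivity
    have p8 : (0 : ℝ) < 8 ^ t := by positivity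
    have ui := lv_add_le i (t + 1)
    have uj := lv_add_le j (t + 1)
    have uk := lv_add_le k (t + 1)
    have ui' := lv_add_le i t
    have uj' := lv_add_le j t
    have uk' := lv_add_le k t
    have li := le_lv_add i t
    have lj := le_lv_add j t
    have lk := le_lv_add k t
    rw [← add_assoc, pow_succ] at ui uj uk
    have q1 := lv_pos (i + t)
    have q2 := lv_pos (j + t)
    have q3 := lv_pos (k + t)
    have q1' := lv_pos i
    have q2' := lv_pos j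
    have q3' := lv_pos k
    have r1 := lv_pos (i + t + 1)
    have r2 := lv_pos (j + t + 1)
    have m1 := lv_le_succ (i + t)
    have m2 := lv_le_succ (j + t)
    -- numerators
    have aα : lv (i + t) * α ≤ 4 ^ t * 4 * (lv i * α) := by
      have := mul_le_mul_of_nonneg_right ui' hα
      have h0 : 0 ≤ 4 ^ t * lv i * α := by positivity
      calc _ ≤ 4 ^ t * lv i * α := this
        _ ≤ 4 * (4 ^ t * lv i * α) := by linarith
        _ = _ := by ring
    have aα' : lv (i + t + 1) * α ≤ 4 ^ t * 4 * (lv i * α) := by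
      have := mul_le_mul_of_nonneg_right ui hα
      linarith
    have aβ : lv (j + t) * β ≤ 4 ^ t * 4 * (lv j * β) := by
      have := mul_le_mul_of_nonneg_right uj' hβ
      have h0 : 0 ≤ 4 ^ t * lv j * β := by positivity
      calc _ ≤ 4 ^ t * lv j * β := this
        _ ≤ 4 * (4 ^ t * lv j * β) := by linarith
        _ = _ := by ring
    have aβ' : lv (j + t + 1) * β ≤ 4 ^ t * 4 * (lv j * β) := by
      have := mul_le_mul_of_nonneg_right uj hβ
      linarith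
    have aγ : lv (k + t) * γ ≤ 4 ^ t * 4 * (lv k * γ) := by
      have := mul_le_mul_of_nonneg_right uk' hγ
      have h0 : 0 ≤ 4 ^ t * lv k * γ := by positivity
      calc _ ≤ 4 ^ t * lv k * γ := this
        _ ≤ 4 * (4 ^ t * lv k * γ) := by linarith
        _ = _ := by ring
    have nα : 0 ≤ 4 ^ t * 4 * (lv i * α) := by positivity
    have nβ : 0 ≤ 4 ^ t * 4 * (lv j * β) := by positivity
    have nγ : 0 ≤ 4 ^ t * 4 * (lv k * γ) := by positivity
    have eN : 4 ^ t * 4 * (lv i * α) + 4 ^ t * 4 * (lv j * β) + 4 ^ t * 4 * (lv k * γ)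
        = 4 ^ t * 4 * N := by rw [hN]; ring
    -- denominators
    have hE : 0 < 8 ^ t / 8 * F := by positivity
    have den : (8 ^ t / 8 * F) * (8 ^ t / 8 * F) ≤ lv (i + t) * lv (j + t) * lv (k + t) := by
      have e : (8 ^ t / 8 * F) * (8 ^ t / 8 * F)
          = (4 ^ t * lv i / 4) * (4 ^ t * lv j / 4) * (4 ^ t * lv k / 4) := by
        have e8 : (8 : ℝ) ^ t * 8 ^ t = 4 ^ t * 4 ^ t * 4 ^ t := by
          rw [← mul_pow, ← mul_pow, ← mul_pow]; norm_num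
        calc _ = (8 ^ t * 8 ^ t) * (F * F) / 64 := by ring
          _ = _ := by rw [e8, hFF]; ring
      rw [e]
      refine mul_le_mul (mul_le_mul (by linarith) (by linarith) (by positivity) q1.le)
        (by linarith) (by positivity) (by positivity)
    have den2 : (8 ^ t / 8 * F) * (8 ^ t / 8 * F) ≤ lv (i + t + 1) * lv (j + t) * lv (k + t) := by
      refine den.trans ?_
      refine mul_le_mul_of_nonneg_right (mul_le_mul_of_nonneg_right m1 q2.le) q3.le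
    have den3 : (8 ^ t / 8 * F) * (8 ^ t / 8 * F)
        ≤ lv (i + t + 1) * lv (j + t + 1) * lv (k + t) := by
      refine den2.trans ?_
      refine mul_le_mul_of_nonneg_right (mul_le_mul_of_nonneg_left m2 r1.le) q3.le
    have s1 := step_a (v0 (i + t) (k + t)) (v1 (i + t) (j + t))
    have s2 := step_b (v1 (i + t + 1) (j + t)) (v2 (j + t) (k + t))
    have s3 := step_c (v2 (j + t + 1) (k + t)) (v0 (i + t + 1) (k + t))
    have c1 := crude (c0 := c0) (X := 4 ^ t * 4 * N) hc0 hE den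
      (M := lv (i + t) * α + lv (k + t) * γ) (N := lv (i + t) * α + lv (j + t) * β)
      (by positivity) (by positivity) (by linarith) (by linarith)
    have c2 := crude (c0 := c0) (X := 4 ^ t * 4 * N) hc0 hE den2
      (M := lv (i + t + 1) * α + lv (j + t) * β) (N := lv (j + t) * β + lv (k + t) * γ)
      (by positivity) (by positivity) (by linarith) (by linarith)
    have c3 := crude (c0 := c0) (X := 4 ^ t * 4 * N) hc0 hE den3
      (M := lv (j + t + 1) * β + lv (k + t) * γ) (N := lv (i + t + 1) * α + lv (k + t) * γ)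
      (by positivity) (by positivity) (by linarith) (by linarith)
    have e : 3 * (15 * c0 * (4 ^ t * 4 * N) / (8 ^ t / 8 * F))
        = 1440 * c0 * (N / F) * (1 / 2) ^ t := by
      have e2 : (1 / 2 : ℝ) ^ t = 4 ^ t / 8 ^ t := by rw [← div_pow]; norm_num
      rw [e2]
      field_simp
      ring
    linarith
  -- iterate
  have iter : ∀ n, D.S i j k ≤ D.S (i + n) (j + n) (k + n)
      + 2880 * c0 * (N / F) * (1 - (1 / 2) ^ n) := by
    intro n
    induction n with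
    | zero => simp
    | succ n ih =>
      have := diag n
      rw [← add_assoc, ← add_assoc, ← add_assoc]
      rw [pow_succ]
      linarith
  have hq : 0 ≤ 2880 * c0 * (N / F) := by positivity
  refine le_of_forall_pos_le_add fun ε hε => ?_
  set Z := ∑ ω ∈ D.s, D.wt ω with hZ
  have hZ0 : 0 ≤ Z := sum_nonneg fun ω _ => D.wt0 ω
  obtain ⟨n, hn⟩ := D.lim i j k (ε / (Z + 1)) (by positivity)
  have h1 := iter n
  have h2 : D.S (i + n) (j + n) (k + n) ≤ ε := by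
    have : D.S (i + n) (j + n) (k + n) ≤ ∑ ω ∈ D.s, D.wt ω * (ε / (Z + 1)) :=
      W_mono hn
    rw [← sum_mul, ← hZ] at this
    refine this.trans ?_
    rw [mul_div_assoc', div_le_iff₀ (by positivity)]
    nlinarith
  have h3 : 0 ≤ 2880 * c0 * (N / F) * (1 / 2) ^ n := by positivity
  linarith

/-- **Main bound along the path**, exponents `(4, 2, 4)`. -/
theorem main {c0 u w b α γ : ℝ} (hc0 : 0 ≤ c0) (hu : 0 < u) (hw : 0 < w) (hb0 : 0 < b)
    (hα : 0 ≤ α) (hγ : 0 ≤ γ)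
    (v0 : ∀ i k, D.W (D.D0 i k) ≤ c0 * (lv i * α + lv k * γ))
    (v0' : ∀ i k, D.W (D.D0 i k) ≤ c0 * ((lv i * u) * (lv k * w)))
    (v1 : ∀ i j, D.W (D.D1 i j) ≤ c0 * (lv i * α + lv j * b ^ 2))
    (v1' : ∀ i j, D.W (D.D1 i j) ≤ c0 * ((sq j * b) * max (lv i * u) (sq j * b)))
    (v2 : ∀ j k, D.W (D.D2 j k) ≤ c0 * (lv j * b ^ 2 + lv k * γ))
    (v2' : ∀ j k, D.W (D.D2 j k) ≤ c0 * ((sq j * b) * max (lv k * w) (sq j * b)))
    (L : ℕ) (h1 : u ≤ 2 ^ L * b) (h2 : w ≤ 2 ^ L * b) (h3 : b ≤ 2 ^ L * u) (h4 : b ≤ 2 ^ L * w)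
    (h5 : α ≤ 2 ^ L * (u * b)) (h6 : γ ≤ 2 ^ L * (w * b)) :
    D.S 0 0 0 ≤ 28890 * c0 * (L + 1) * Real.sqrt (b ^ 2 * u * w) := by
  have hE0 : 0 ≤ b ^ 2 * u * w := by positivity
  have cost : ∀ {i j k : ℕ} {U V : ℝ}, U * V ≤ c0 ^ 2 * (b ^ 2 * u * w) * (lv i * lv j * lv k) →
      Real.sqrt (225 * (lv i * lv j * lv k)⁻¹ * U * V) ≤ 15 * c0 * Real.sqrt (b ^ 2 * u * w) := by
    intro i j k U V h
    refine Real.sqrt_le_iff.2 ⟨by positivity, ?_⟩
    rw [mul_pow, Real.sq_sqrt hE0]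
    have h3 := lv3_pos i j k
    generalize lv i * lv j * lv k = X at *
    have := mul_le_mul_of_nonneg_left h (by positivity : 0 ≤ 225 * X⁻¹)
    calc _ = 225 * X⁻¹ * (U * V) := by ring
      _ ≤ _ := this
      _ = _ := by
        field_simp
        ring
  have ha : ∀ i j k, lv i * u ≤ sq j * b →
      D.S i j k ≤ D.S (i + 1) j k + 15 * c0 * Real.sqrt (b ^ 2 * u * w) := by
    intro i j k h
    have h' := v1' i j
    rw [max_eq_right h] at h'
    refine (step_a (v0' i k) h').trans (add_le_add_right (cost (le_of_eq ?_)) _)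
    rw [lv_eq_sq j]
    ring
  have hc : ∀ i j k, lv k * w ≤ sq j * b →
      D.S i j k ≤ D.S i j (k + 1) + 15 * c0 * Real.sqrt (b ^ 2 * u * w) := by
    intro i j k h
    have h' := v2' j k
    rw [max_eq_right h] at h'
    refine (step_c h' (v0' i k)).trans (add_le_add_right (cost (le_of_eq ?_)) _)
    rw [lv_eq_sq j]
    ring
  have hb : ∀ i j k, sq j * b ≤ lv i * u → sq j * b ≤ lv k * w →
      D.S i j k ≤ D.S i (j + 1) k + 15 * c0 * Real.sqrt (b ^ 2 * u * w) := by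
    intro i j k h h'
    have e1 := v1' i j
    have e2 := v2' j k
    rw [max_eq_left h] at e1
    rw [max_eq_left h'] at e2
    refine (step_b e1 e2).trans (add_le_add_right (cost (le_of_eq ?_)) _)
    rw [lv_eq_sq j]
    ring
  have ht := fun i j k => tail (D := D) hc0 hα (sq_nonneg b) hγ v0 v1 v2 i j k
  have h := path_arith hu hw hb0 (by positivity : 0 ≤ 2880 * c0) ha hc hb ht L h1 h2 h3 h4 h5 h6
  have hs : 0 ≤ c0 * Real.sqrt (b ^ 2 * u * w) := by positivity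
  have hL : (0 : ℝ) ≤ L := Nat.cast_nonneg L
  have hLs := mul_nonneg hL hs
  calc _ ≤ _ := h
    _ = (105 * L + 28890) * (c0 * Real.sqrt (b ^ 2 * u * w)) := by ring
    _ ≤ (28890 * L + 28890) * (c0 * Real.sqrt (b ^ 2 * u * w)) := by
        refine mul_le_mul_of_nonneg_right ?_ hs
        linarith
    _ = _ := by ring

end PD

end

end Vale.Agent.P141.PL.H48
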