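import Vale.Agent.P141.PL.H48.GAsm

/-!
# P141: row averages of arbitrary families, the plane shift for them
-/

namespace Vale.Agent.P141.PL.H48

set_option linter.unusedSectionVars false

open Finset Matrix Vale.Agent.P075 Vale.Agent.P141.PL

noncomputable section

variable {P : Type} [Fintype P] [DecidableEq P]

theorem phi_zero : phi (0 : Matrix P P ℝ) = 0 := by
  have h := mul_res (X := (0 : Matrix P P ℝ)) PosSemidef.zero
  rw [Matrix.zero_mul] at h
  rw [phi]
  exact h.symm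

theorem GX_zero : GX (0 : Matrix P P ℝ) = 0 := by
  simp [GX, ld]

/-- **Gradient inequality**: `G` is convex with gradient `φ`. -/
theorem GX_grad {X Y : Matrix P P ℝ} (hX : X.PosSemidef) (hY : Y.PosSemidef) :
    GX X + (phi X * (Y - X)).trace ≤ GX Y := by
  have h := det_mul_le_exp (res_psd hX) (posDef_one_add hY).posSemidef
  have e : (res X * (1 + Y)).trace - (Fintype.card P : ℝ) = (res X * (Y - X)).trace := by
    have e1 : res X * (1 + Y) = res X * (1 + X) + res X * (Y - X) := by noncomm_ring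
    rw [e1, trace_add, res_mul_one_add hX, trace_one]; ring
  rw [e] at h
  have hpos1 : 0 < (res X).det := (res_posDef hX).det_pos
  have hpos2 : 0 < (1 + Y).det := det_pos_one_add hY
  have hlog := Real.log_le_log (mul_pos hpos1 hpos2) h
  rw [Real.log_exp, Real.log_mul hpos1.ne' hpos2.ne', log_det_res hX] at hlog
  have hld : Real.log (1 + Y).det = ld Y := rfl
  rw [hld] at hlog
  have e2 : (phi X * (Y - X)).trace = Y.trace - X.trace - (res X * (Y - X)).trace := by
    rw [phi, Matrix.sub_mul, Matrix.one_mul, trace_sub, trace_sub]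
  rw [e2, GX, GX]
  linarith

/-- `tr φ(Z) X ≤ 2 G(Z) + 6 G(X)` -/
theorem trace_phi_mul_le {X Z : Matrix P P ℝ} (hX : X.PosSemidef) (hZ : Z.PosSemidef) :
    (phi Z * X).trace ≤ 2 * GX Z + 6 * GX X := by
  -- `tr (X - φ X) ≤ 4 G(X)`
  have hY : ((1 / 2 : ℝ) • X).PosSemidef := hX.smul (by norm_num)
  have h1 := GX_grad hY hX
  have e0 : X - (1 / 2 : ℝ) • X = (1 / 2 : ℝ) • X := by module
  rw [e0, Matrix.mul_smul, trace_smul, smul_eq_mul] at h1
  have h2 := phi_two hY
  have e2 : (2 : ℝ) • ((1 / 2 : ℝ) • X) = X := by rw [smul_smul]; norm_num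
  rw [e2] at h2
  have h3 := trace_mul_le_left hX h2
  rw [Matrix.smul_mul, trace_smul, smul_eq_mul] at h3
  have h4 := H588.GX_nonneg' hY
  have e3 : X - phi X = phi X * X := by
    rw [phi, Matrix.sub_mul, Matrix.one_mul, res_mul hX]
  have e4 : (X - phi X).PosSemidef := by
    have h5 : X - phi X = X * res X * X := by
      have : X - phi X = X * phi X := by
        rw [phi, Matrix.mul_sub, Matrix.mul_one, mul_res hX]
      rw [this, phi, Matrix.mul_sub, Matrix.mul_one]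
      have : X - X * res X = X - (1 - res X) := by rw [mul_res hX]
      rw [this, mul_res hX, Matrix.sub_mul, Matrix.one_mul, res_mul hX]
    rw [h5]
    exact psd_conj_symm (res_psd hX) (psd_isSymm hX)
  -- `tr φ(Z) (X - φ X) ≤ tr (X - φ X)`
  have h5 : (phi Z * (X - phi X)).trace ≤ (1 * (X - phi X)).trace :=
    trace_mul_le_left e4 (one_sub_phi_psd hZ)
  have h6 := H588.trace_mul_le_half (phi_symm hZ) (phi_symm hX)
  have h7 := H588.phi_sq_le_GX hZ
  have h8 := H588.phi_sq_le_GX hX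
  rw [Matrix.one_mul, e3] at h5
  have e5 : (phi Z * X).trace = (phi Z * phi X).trace + (phi Z * (phi X * X)).trace := by
    rw [← trace_add, ← Matrix.mul_add, ← e3, add_sub_cancel]
  rw [e5]
  linarith

/-! ### row averages -/

/-- row averages -/
def rav (F : ℤ → Matrix P P ℝ) : ℕ → ℤ → Matrix P P ℝ
  | 0, n => F n
  | r + 1, n => (1 / 2 : ℝ) • (rav F r (2 * n) + rav F r (2 * n + 1))

theorem rav_succ (F : ℤ → Matrix P P ℝ) (r : ℕ) (n : ℤ) :
    rav F (r + 1) n = (1 / 2 : ℝ) • (rav F r (2 * n) + rav F r (2 * n + 1)) := rfl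

theorem rav_psd {F : ℤ → Matrix P P ℝ} (hF : ∀ n, (F n).PosSemidef) (r : ℕ) (n : ℤ) :
    (rav F r n).PosSemidef := by
  induction r generalizing n with
  | zero => exact hF n
  | succ r ih => exact ((ih _).add (ih _)).smul (by norm_num)

theorem rav_sub (F G : ℤ → Matrix P P ℝ) (r : ℕ) (n : ℤ) :
    rav (fun n => F n - G n) r n = rav F r n - rav G r n := by
  induction r generalizing n with
  | zero => rfl
  | succ r ih => rw [rav_succ, rav_succ, rav_succ, ih, ih]; module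

theorem rav_rav (F : ℤ → Matrix P P ℝ) (r : ℕ) (n : ℤ) :
    rav (fun n => (1 / 2 : ℝ) • (F (2 * n) + F (2 * n + 1))) r n = rav F (r + 1) n := by
  induction r generalizing n with
  | zero => rfl
  | succ r ih => rw [rav_succ, ih, ih]; rfl

theorem rav_sum (F Φ : ℤ → Matrix P P ℝ) (r l : ℕ) (R : ℤ) :
    2 ^ r * ∑ n ∈ iv l R, (Φ n * rav F r n).trace
      = ∑ n ∈ iv (l + r) R, (Φ (n / 2 ^ r) * F n).trace := by
  induction r generalizing F Φ l with
  | zero => simp [rav]
  | succ r ih =>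
    rw [← add_assoc, H103.sum_iv_pair]
    have e : ∀ n : ℤ, (Φ ((2 * n) / 2 ^ (r + 1)) * F (2 * n)).trace
        + (Φ ((2 * n + 1) / 2 ^ (r + 1)) * F (2 * n + 1)).trace
        = 2 * (Φ (n / 2 ^ r) * ((1 / 2 : ℝ) • (F (2 * n) + F (2 * n + 1)))).trace := by
      intro n
      rw [pow_succ', ← Int.ediv_ediv_of_nonneg (by norm_num),
        ← Int.ediv_ediv_of_nonneg (by norm_num)]
      have h1 : (2 * n) / 2 = n := by omega
      have h2 : (2 * n + 1) / 2 = n := by omega
      rw [h1, h2, Matrix.mul_smul, Matrix.mul_add, trace_smul, trace_add, smul_eq_mul]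
      ring
    simp only [e]
    rw [← mul_sum, ← ih (fun n => (1 / 2 : ℝ) • (F (2 * n) + F (2 * n + 1))) Φ l]
    simp only [rav_rav]
    rw [pow_succ]
    ring

/-- row averages of numbers -/
def avg (f : ℤ → ℝ) : ℕ → ℤ → ℝ
  | 0, n => f n
  | r + 1, n => (1 / 2) * (avg f r (2 * n) + avg f r (2 * n + 1))

theorem avg_succ (f : ℤ → ℝ) (r : ℕ) (n : ℤ) :
    avg f (r + 1) n = (1 / 2) * (avg f r (2 * n) + avg f r (2 * n + 1)) := rfl

/-- row convexity -/
theorem GX_rav_le {F : ℤ → Matrix P P ℝ} (hF : ∀ n, (F n).PosSemidef) (r : ℕ) (n : ℤ) :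
    GX (rav F r n) ≤ avg (fun n => GX (F n)) r n := by
  induction r generalizing n with
  | zero => exact le_rfl
  | succ r ih =>
    rw [rav_succ, avg_succ]
    have h := R.GX_row (rav_psd hF r (2 * n)) (rav_psd hF r (2 * n + 1))
    have h2 : 0 ≤ (delt (rav F r (2 * n)) (rav F r (2 * n + 1))).trace :=
      (delt_psd (rav_psd hF ..) (rav_psd hF ..)).trace_nonneg
    have h3 := ih (2 * n)
    have h4 := ih (2 * n + 1)
    linarith

theorem avg_nonneg {f : ℤ → ℝ} (hf : ∀ n, 0 ≤ f n) (r : ℕ) (n : ℤ) : 0 ≤ avg f r n := by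
  induction r generalizing n with
  | zero => exact hf n
  | succ r ih =>
    rw [avg_succ]
    have := ih (2 * n)
    have := ih (2 * n + 1)
    linarith

/-- sums of averages over a family of functions -/
theorem avg_sum_le {ι : Type} (s : Finset ι) (f : ι → ℤ → ℝ) {C : ℝ}
    (h : ∀ n, ∑ i ∈ s, f i n ≤ C) (r : ℕ) (n : ℤ) : ∑ i ∈ s, avg (f i) r n ≤ C := by
  induction r generalizing n with
  | zero => exact h n
  | succ r ih =>
    simp only [avg_succ, ← mul_sum, sum_add_distrib]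
    have := ih (2 * n)
    have := ih (2 * n + 1)
    linarith

/-! ### the shift -/

/-- level energy -/
def eg (F : ℤ → Matrix P P ℝ) (d : ℕ) (R : ℤ) (r : ℕ) : ℝ :=
  2 ^ r * ∑ n ∈ iv (d - r) R, GX (rav F r n)

/-- the energy which pays for a shift -/
def SG (F : ℤ → Matrix P P ℝ) (d : ℕ) (R : ℤ) : ℝ :=
  ∑ r ∈ range d, (3 / 4) ^ r * (eg F d R r - eg F d R (r + 1)) + (3 / 4) ^ d * eg F d R d

/-- plane sum -/
def alg (F H : ℤ → Matrix P P ℝ) (d : ℕ) (R T s : ℤ) : ℝ :=
  ∑ n ∈ iv d R, if s - n ∈ iv d T then (phi (F n) * phi (H (s - n))).trace else 0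

/-- multiscale family -/
def fG (F : ℤ → Matrix P P ℝ) (d : ℕ) (R : ℤ) (r : ℕ) (n : ℤ) : Matrix P P ℝ :=
  if n ∈ iv d R then phi (rav F r (n / 2 ^ r)) else 0

theorem fG_symm {F : ℤ → Matrix P P ℝ} (hF : ∀ n, (F n).PosSemidef) (d : ℕ) (R : ℤ) (r : ℕ)
    (n : ℤ) : (fG F d R r n)ᵀ = fG F d R r n := by
  unfold fG
  split_ifs
  · exact phi_symm (rav_psd hF ..)
  · exact transpose_zero

theorem fG_fs (F : ℤ → Matrix P P ℝ) (d : ℕ) (R : ℤ) (r : ℕ) : H103.FSM (fG F d R r) :=
  ⟨iv d R, fun n hn => by unfold fG; rw [if_neg hn]⟩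

theorem fG_blk (F : ℤ → Matrix P P ℝ) (d : ℕ) (R : ℤ) {r : ℕ} (hr : r ≤ d) (n : ℤ) :
    fG F d R r n = fG F d R r (2 ^ r * (n / 2 ^ r)) := by
  have h1 : (2 ^ r * (n / 2 ^ r)) / 2 ^ r = n / 2 ^ r :=
    Int.mul_ediv_cancel_left _ (by positivity)
  have h2 : (2 ^ r * (n / 2 ^ r)) ∈ iv d R ↔ n ∈ iv d R := by
    rw [mem_iv, mem_iv, ix, ix]
    obtain ⟨l, hl⟩ := Nat.exists_eq_add_of_le hr
    rw [hl, pow_add, ← Int.ediv_ediv_of_nonneg (by positivity),
      ← Int.ediv_ediv_of_nonneg (by positivity), h1]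
  unfold fG
  rw [h1]
  simp only [h2]

theorem cv_eq_alg (F H : ℤ → Matrix P P ℝ) (d : ℕ) (R T s : ℤ) :
    H103.cv (fG F d R 0) (fG H d T 0) s = alg F H d R T s := by
  unfold H103.cv alg
  rw [tsum_eq_sum (s := iv d R)]
  · refine Finset.sum_congr rfl fun n hn => ?_
    unfold fG
    rw [if_pos hn]
    simp only [pow_zero, Int.ediv_one]
    split_ifs
    · rfl
    · rw [Matrix.mul_zero, trace_zero]
  · intro n hn
    unfold fG
    rw [if_neg hn, Matrix.zero_mul, trace_zero]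

/-- one level of the multiscale energy -/
theorem levelG_le {F : ℤ → Matrix P P ℝ} (hF : ∀ n, (F n).PosSemidef) (d : ℕ) (R : ℤ) {r : ℕ}
    (hr : r < d) :
    ∑' n, ((fG F d R r n - fG F d R (r + 1) n) * (fG F d R r n - fG F d R (r + 1) n)).trace
      ≤ 4 * (eg F d R r - eg F d R (r + 1)) := by
  have h1 : ∑' n, ((fG F d R r n - fG F d R (r + 1) n)
        * (fG F d R r n - fG F d R (r + 1) n)).trace
      = ∑ n ∈ iv d R, ((phi (rav F r (n / 2 ^ r)) - phi (rav F (r + 1) (n / 2 ^ r / 2)))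
        * (phi (rav F r (n / 2 ^ r)) - phi (rav F (r + 1) (n / 2 ^ r / 2)))).trace := by
    rw [tsum_eq_sum (s := iv d R)]
    · refine Finset.sum_congr rfl fun n hn => ?_
      unfold fG
      rw [if_pos hn, if_pos hn]
      have : n / 2 ^ (r + 1) = n / 2 ^ r / 2 := by
        rw [pow_succ, ← Int.ediv_ediv_of_nonneg (by positivity)]
      rw [this]
    · intro n hn
      unfold fG
      rw [if_neg hn, if_neg hn, sub_zero, Matrix.mul_zero, trace_zero]
  obtain ⟨l, hl⟩ : ∃ l, d = (l + 1) + r := ⟨d - r - 1, by omega⟩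
  have hl1 : d - r = l + 1 := by omega
  have hl2 : d - (r + 1) = l := by omega
  rw [h1, eg, eg, hl1, hl2]
  conv_lhs => rw [hl]
  rw [H103.sum_iv_div (l + 1) r R (fun n =>
      ((phi (rav F r n) - phi (rav F (r + 1) (n / 2)))
        * (phi (rav F r n) - phi (rav F (r + 1) (n / 2)))).trace)]
  rw [H103.sum_iv_pair, H103.sum_iv_pair l R (fun n => GX (rav F r n))]
  have h2 : ∀ n : ℤ, 2 * n / 2 = n := fun n => by omega
  have h3 : ∀ n : ℤ, (2 * n + 1) / 2 = n := fun n => by omega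
  simp only [h2, h3]
  have key : ∑ n ∈ iv l R,
      (((phi (rav F r (2 * n)) - phi (rav F (r + 1) n))
        * (phi (rav F r (2 * n)) - phi (rav F (r + 1) n))).trace
      + ((phi (rav F r (2 * n + 1)) - phi (rav F (r + 1) n))
        * (phi (rav F r (2 * n + 1)) - phi (rav F (r + 1) n))).trace)
      ≤ ∑ n ∈ iv l R, (4 * ((GX (rav F r (2 * n)) + GX (rav F r (2 * n + 1)))
        - 2 * GX (rav F (r + 1) n))) := by
    refine Finset.sum_le_sum fun n _ => ?_
    exact H103.row_dist (rav_psd hF r (2 * n)) (rav_psd hF r (2 * n + 1))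
  rw [← Finset.mul_sum, Finset.sum_sub_distrib, ← Finset.mul_sum] at key
  have hp : (0 : ℝ) ≤ 2 ^ r := by positivity
  refine (mul_le_mul_of_nonneg_left key hp).trans (le_of_eq ?_)
  ring

/-- the last level -/
theorem lastG_le {F : ℤ → Matrix P P ℝ} (hF : ∀ n, (F n).PosSemidef) (d : ℕ) (R : ℤ) :
    ∑' n, (fG F d R d n * fG F d R d n).trace ≤ 4 * eg F d R d := by
  have h1 : ∑' n, (fG F d R d n * fG F d R d n).trace
      = ∑ n ∈ iv (0 + d) R, (fun n => (phi (rav F d n) * phi (rav F d n)).trace) (n / 2 ^ d) := by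
    rw [zero_add, tsum_eq_sum (s := iv d R)]
    · refine Finset.sum_congr rfl fun n hn => ?_
      unfold fG
      rw [if_pos hn]
    · intro n hn
      unfold fG
      rw [if_neg hn, Matrix.mul_zero, trace_zero]
  rw [h1, H103.sum_iv_div 0 d R (fun n => (phi (rav F d n) * phi (rav F d n)).trace)]
  have hp : (0 : ℝ) ≤ 2 ^ d := by positivity
  have : ∑ n ∈ iv 0 R, (phi (rav F d n) * phi (rav F d n)).trace
      ≤ ∑ n ∈ iv 0 R, 4 * GX (rav F d n) :=
    Finset.sum_le_sum fun n _ => H103.phi_sq_le_GX (rav_psd hF ..)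
  rw [← Finset.mul_sum] at this
  rw [eg, Nat.sub_self]
  refine (mul_le_mul_of_nonneg_left this hp).trans (le_of_eq ?_)
  ring

theorem MM_le {F : ℤ → Matrix P P ℝ} (hF : ∀ n, (F n).PosSemidef) (d : ℕ) (R : ℤ) :
    H103.MM d (fG F d R) ≤ 4 * SG F d R := by
  unfold H103.MM SG
  rw [mul_add, mul_sum]
  refine add_le_add (Finset.sum_le_sum fun r hr => ?_) ?_
  · have := mul_le_mul_of_nonneg_left (levelG_le hF d R (mem_range.1 hr))
      (by positivity : (0 : ℝ) ≤ (3 / 4) ^ r)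
    linarith
  · have := mul_le_mul_of_nonneg_left (lastG_le hF d R) (by positivity : (0 : ℝ) ≤ (3 / 4) ^ d)
    linarith

/-- **Shift by one plane.** -/
theorem shift1 {F H : ℤ → Matrix P P ℝ} (hF : ∀ n, (F n).PosSemidef) (hH : ∀ n, (H n).PosSemidef)
    (d : ℕ) (R T t : ℤ) :
    |alg F H d R T (t + 1) - alg F H d R T t| ≤ 16 * (SG F d R + SG H d T) := by
  rw [← cv_eq_alg, ← cv_eq_alg]
  have h := H103.first_diff_mat d (fun r hr n => fG_blk F d R hr n) (fun r hr n => fG_blk H d T hr n)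
    (fun r _ n => fG_symm hF d R r n) (fun r _ n => fG_symm hH d T r n)
    (fun r _ => fG_fs F d R r) (fun r _ => fG_fs H d T r) t
  have h1 := MM_le hF d R
  have h2 := MM_le hH d T
  linarith

/-- **Shift**, general form: `|t' - t| ≤ D`. -/
theorem shiftD {F H : ℤ → Matrix P P ℝ} (hF : ∀ n, (F n).PosSemidef) (hH : ∀ n, (H n).PosSemidef)
    (d : ℕ) (R T : ℤ) (t t' : ℤ) (D : ℕ) (hD : |t' - t| ≤ D) :
    |alg F H d R T t' - alg F H d R T t| ≤ 32 * D * (SG F d R + SG H d T) := by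
  have hm := abs_le.1 hD
  obtain ⟨i, hi⟩ : ∃ i : ℕ, t' = t - D + i := ⟨(t' - t + D).toNat, by omega⟩
  have h := H103.abs_sub_le_range (fun l : ℕ => alg F H d R T (t - D + l)) (2 * D) i D
    (by omega) (by omega)
  have e1 : t - D + (D : ℕ) = t := by omega
  have e2 : ∀ l : ℕ, t - D + ((l + 1 : ℕ) : ℤ) = t - D + l + 1 := fun l => by
    push_cast; ring
  simp only [e1, e2] at h
  rw [hi]
  refine h.trans ((Finset.sum_le_sum fun (l : ℕ) _ => shift1 hF hH d R T (t - D + l)).trans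
    (le_of_eq ?_))
  rw [Finset.sum_const, Finset.card_range, nsmul_eq_mul]
  push_cast
  ring

theorem eg_nonneg {F : ℤ → Matrix P P ℝ} (hF : ∀ n, (F n).PosSemidef) (d : ℕ) (R : ℤ) (r : ℕ) :
    0 ≤ eg F d R r :=
  mul_nonneg (by positivity) (sum_nonneg fun n _ => H588.GX_nonneg' (rav_psd hF r n))

theorem eg_succ_le {F : ℤ → Matrix P P ℝ} (hF : ∀ n, (F n).PosSemidef) {d r : ℕ} (hr : r < d)
    (R : ℤ) : eg F d R (r + 1) ≤ eg F d R r := by
  have e : d - r = (d - (r + 1)) + 1 := by omega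
  unfold eg
  rw [e, H103.sum_iv_pair, pow_succ, mul_assoc]
  refine mul_le_mul_of_nonneg_left ?_ (by positivity)
  rw [mul_sum]
  refine sum_le_sum fun n _ => ?_
  have h := Vale.Agent.P075.R.GX_row (rav_psd hF r (2 * n)) (rav_psd hF r (2 * n + 1))
  have h2 : 0 ≤ (delt (rav F r (2 * n)) (rav F r (2 * n + 1))).trace :=
    (delt_psd (rav_psd hF ..) (rav_psd hF ..)).trace_nonneg
  rw [rav_succ]
  linarith

theorem eg_le_zero {F : ℤ → Matrix P P ℝ} (hF : ∀ n, (F n).PosSemidef) {d r : ℕ} (hr : r ≤ d)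
    (R : ℤ) : eg F d R r ≤ eg F d R 0 := by
  induction r with
  | zero => exact le_rfl
  | succ r ih => exact (eg_succ_le hF (by omega) R).trans (ih (by omega))

end

end Vale.Agent.P141.PL.H48
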