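import Vale.Agent.P141.PL.H48.Dens

/-!
# P141: the labelled triangle, exponents (4, 2, 4), absolute values, leaf norms

Vertices `0, 1, 2` with static labels `J0, J1, J2`. On every box `p = (n0, n1, n2)` of every scale
`k` there are matrices `a k p` (edge 01), `b k p` (edge 12), `c k p` (edge 02), dominated by static
Gram families at the two ends of the edge. They may depend on the scale and on the box.
-/

namespace Vale.Agent.P141.PL.H48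

set_option linter.unusedSectionVars false

open Finset Matrix Vale.Agent.P075 Vale.Agent.P141.PL

noncomputable section

/-! ### weighted sums over boxes -/

/-- weighted sum over all boxes of the planes `c k`, scales `l < k ≤ N` -/
def WS (N l : ℕ) (R0 R1 R2 : ℤ) (c : ℕ → ℤ) (g : ℕ → ℤ × ℤ × ℤ → ℝ) : ℝ :=
  ∑ k ∈ Icc (l + 1) N, (4 : ℝ) ^ k * ∑ p ∈ bx N R0 R1 R2 k (c k), g k p

section WS

variable {N l : ℕ} {R0 R1 R2 : ℤ} {c : ℕ → ℤ}

theorem WS_mono {g g' : ℕ → ℤ × ℤ × ℤ → ℝ} (h : ∀ k p, g k p ≤ g' k p) :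
    WS N l R0 R1 R2 c g ≤ WS N l R0 R1 R2 c g' :=
  sum_le_sum fun k _ => mul_le_mul_of_nonneg_left (sum_le_sum fun p _ => h k p) (by positivity)

theorem WS_nonneg {g : ℕ → ℤ × ℤ × ℤ → ℝ} (h : ∀ k p, 0 ≤ g k p) : 0 ≤ WS N l R0 R1 R2 c g :=
  sum_nonneg fun k _ => mul_nonneg (by positivity) (sum_nonneg fun p _ => h k p)

theorem WS_add (g g' : ℕ → ℤ × ℤ × ℤ → ℝ) :
    WS N l R0 R1 R2 c (fun k p => g k p + g' k p)
      = WS N l R0 R1 R2 c g + WS N l R0 R1 R2 c g' := by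
  unfold WS
  simp only [sum_add_distrib, mul_add]

theorem WS_sum {ι : Type*} (s : Finset ι) (g : ι → ℕ → ℤ × ℤ × ℤ → ℝ) :
    WS N l R0 R1 R2 c (fun k p => ∑ i ∈ s, g i k p) = ∑ i ∈ s, WS N l R0 R1 R2 c (g i) := by
  unfold WS
  rw [sum_comm]
  refine sum_congr rfl fun k _ => ?_
  rw [← mul_sum]
  congr 1
  exact sum_comm

/-- Cauchy-Schwarz -/
theorem WS_cs {T u v : ℕ → ℤ × ℤ × ℤ → ℝ} {K : ℝ} (hK : 0 ≤ K) (hu : ∀ k p, 0 ≤ u k p)
    (hv : ∀ k p, 0 ≤ v k p) (h : ∀ k p, T k p ^ 2 ≤ K * u k p * v k p) :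
    WS N l R0 R1 R2 c (fun k p => |T k p|) ^ 2
      ≤ K * WS N l R0 R1 R2 c u * WS N l R0 R1 R2 c v := by
  have e : ∀ g : ℕ → ℤ × ℤ × ℤ → ℝ, WS N l R0 R1 R2 c g
      = ∑ x ∈ (Icc (l + 1) N).sigma (fun k => bx N R0 R1 R2 k (c k)),
        (4 : ℝ) ^ x.1 * g x.1 x.2 := by
    intro g
    unfold WS
    rw [sum_sigma]
    exact sum_congr rfl fun k _ => mul_sum _ _ _
  rw [e, e, e]
  have h1 : ∑ x ∈ (Icc (l + 1) N).sigma (fun k => bx N R0 R1 R2 k (c k)),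
        (4 : ℝ) ^ x.1 * |T x.1 x.2|
      ≤ ∑ x ∈ (Icc (l + 1) N).sigma (fun k => bx N R0 R1 R2 k (c k)),
        Real.sqrt (K * ((4 : ℝ) ^ x.1 * u x.1 x.2)) * Real.sqrt ((4 : ℝ) ^ x.1 * v x.1 x.2) := by
    refine sum_le_sum fun x _ => ?_
    have h4 : (0 : ℝ) ≤ 4 ^ x.1 := by positivity
    rw [← Real.sqrt_mul (mul_nonneg hK (mul_nonneg h4 (hu _ _)))]
    refine Real.le_sqrt_of_sq_le ?_
    rw [mul_pow, sq_abs]
    have := mul_le_mul_of_nonneg_left (h x.1 x.2) (sq_nonneg ((4 : ℝ) ^ x.1))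
    calc _ ≤ _ := this
      _ = _ := by ring
  have h0 : 0 ≤ ∑ x ∈ (Icc (l + 1) N).sigma (fun k => bx N R0 R1 R2 k (c k)),
        (4 : ℝ) ^ x.1 * |T x.1 x.2| :=
    sum_nonneg fun x _ => mul_nonneg (by positivity) (abs_nonneg _)
  refine (pow_le_pow_left₀ h0 h1 2).trans ?_
  refine (Finset.sum_mul_sq_le_sq_mul_sq _ _ _).trans (le_of_eq ?_)
  have e1 : ∀ x : (Σ _ : ℕ, ℤ × ℤ × ℤ), Real.sqrt (K * ((4 : ℝ) ^ x.1 * u x.1 x.2)) ^ 2
      = K * ((4 : ℝ) ^ x.1 * u x.1 x.2) := fun x =>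
    Real.sq_sqrt (mul_nonneg hK (mul_nonneg (by positivity) (hu _ _)))
  have e2 : ∀ x : (Σ _ : ℕ, ℤ × ℤ × ℤ), Real.sqrt ((4 : ℝ) ^ x.1 * v x.1 x.2) ^ 2
      = (4 : ℝ) ^ x.1 * v x.1 x.2 := fun x =>
    Real.sq_sqrt (mul_nonneg (by positivity) (hv _ _))
  simp only [e1, e2, ← mul_sum]

end WS

/-! ### levels of a matrix -/

section levels

variable {P Q : Type} [Fintype P] [DecidableEq P] [Fintype Q] [DecidableEq Q]

/-- weight of the level `i` -/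
def lv (i : ℕ) : ℝ := 4 ^ (i - 1)

theorem lv_pos (i : ℕ) : 0 < lv i := by unfold lv; positivity

/-- piece of level `i` -/
def pcs (i : ℕ) (a : Matrix P Q ℝ) : Matrix P Q ℝ :=
  match i with
  | 0 => tr 1 a
  | i + 1 => tr (4 ^ (i + 1)) a - tr (4 ^ i) a

theorem sum_pcs (L : ℕ) (a : Matrix P Q ℝ) :
    ∑ i ∈ range (L + 1), pcs i a = tr (4 ^ L) a := by
  induction L with
  | zero => simp [pcs]
  | succ L ih =>
    rw [sum_range_succ, ih]
    simp only [pcs]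
    abel

theorem fac_pcs (i : ℕ) {a : Matrix P Q ℝ} (h : OB 1 a) :
    Fac (lv i) ((225 / 16) * (lv i)⁻¹) a (pcs i a) := by
  cases i with
  | zero =>
    have e : lv 0 = 1 := by simp [lv]
    rw [e, inv_one, mul_one]
    exact fac_tr zero_le_one (h.mono (by norm_num))
  | succ i =>
    have e : lv (i + 1) = 4 ^ i := by simp [lv]
    rw [e]
    have h1 := fac_step (κ := (4 : ℝ) ^ i) (by positivity) a
    rw [← pow_succ'] at h1
    exact h1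

/-- a Hilbert-Schmidt bound is an operator bound -/
theorem ob_of_hs {K : ℝ} {a : Matrix P Q ℝ} (h : hs a ≤ K) : OB K a := by
  have key : ∀ {P Q : Type} [Fintype P] [DecidableEq P] [Fintype Q] [DecidableEq Q]
      (a : Matrix P Q ℝ), hs a ≤ K → (K • (1 : Matrix Q Q ℝ) - aᵀ * a).PosSemidef := by
    intro P Q _ _ _ _ a h
    refine Matrix.PosSemidef.of_dotProduct_mulVec_nonneg ?_ ?_
    · rw [IsHermitian, conjTranspose_eq_transpose_of_trivial, transpose_sub, transpose_smul,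
        transpose_one, transpose_mul, transpose_transpose]
    · intro x
      have e1 : star x ⬝ᵥ ((K • (1 : Matrix Q Q ℝ) - aᵀ * a) *ᵥ x)
          = K * (x ⬝ᵥ x) - (a *ᵥ x) ⬝ᵥ (a *ᵥ x) := by
        rw [star_trivial, Matrix.sub_mulVec, dotProduct_sub, Matrix.smul_mulVec, Matrix.one_mulVec,
          dotProduct_smul, smul_eq_mul, ← Matrix.mulVec_mulVec, Matrix.dotProduct_mulVec,
          Matrix.vecMul_transpose]
      rw [e1]
      have h2 : (a *ᵥ x) ⬝ᵥ (a *ᵥ x) ≤ hs a * (x ⬝ᵥ x) := by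
        rw [hs_eq, sum_mul]
        simp only [dotProduct, Matrix.mulVec]
        refine sum_le_sum fun i _ => ?_
        have := Finset.sum_mul_sq_le_sq_mul_sq univ (fun j => a i j) x
        rw [← pow_two]
        calc _ ≤ _ := this
          _ = _ := by simp only [pow_two]
      have h3 : 0 ≤ x ⬝ᵥ x := by
        simp only [dotProduct]
        exact sum_nonneg fun i _ => mul_self_nonneg _
      have h4 := mul_le_mul_of_nonneg_right h h3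
      linarith
  refine ⟨key a h, ?_⟩
  have := key aᵀ (by rw [hs_transpose]; exact h)
  rwa [transpose_transpose] at this

end levels

/-! ### linearity of the trilinear form and trivial bound -/

section TF

variable {P Q R' : Type} [Fintype P] [DecidableEq P] [Fintype Q] [DecidableEq Q]
  [Fintype R'] [DecidableEq R'] (r0 : Matrix P P ℝ) (r1 : Matrix Q Q ℝ) (r2 : Matrix R' R' ℝ)

theorem TF_add_a (a a' : Matrix P Q ℝ) (b : Matrix Q R' ℝ) (c : Matrix P R' ℝ) :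
    TF r0 r1 r2 (a + a') b c = TF r0 r1 r2 a b c + TF r0 r1 r2 a' b c := by
  simp only [TF, Matrix.mul_add, Matrix.add_mul, trace_add]

theorem TF_add_b (a : Matrix P Q ℝ) (b b' : Matrix Q R' ℝ) (c : Matrix P R' ℝ) :
    TF r0 r1 r2 a (b + b') c = TF r0 r1 r2 a b c + TF r0 r1 r2 a b' c := by
  simp only [TF, Matrix.mul_add, Matrix.add_mul, trace_add]

theorem TF_add_c (a : Matrix P Q ℝ) (b : Matrix Q R' ℝ) (c c' : Matrix P R' ℝ) :
    TF r0 r1 r2 a b (c + c') = TF r0 r1 r2 a b c + TF r0 r1 r2 a b c' := by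
  simp only [TF, transpose_add, Matrix.mul_add, trace_add]

theorem TF_sum_a {ι : Type*} (s : Finset ι) (a : ι → Matrix P Q ℝ) (b : Matrix Q R' ℝ)
    (c : Matrix P R' ℝ) : TF r0 r1 r2 (∑ i ∈ s, a i) b c = ∑ i ∈ s, TF r0 r1 r2 (a i) b c := by
  simp only [TF, Matrix.mul_sum, Matrix.sum_mul, trace_sum]

theorem TF_sum_b {ι : Type*} (s : Finset ι) (a : Matrix P Q ℝ) (b : ι → Matrix Q R' ℝ)
    (c : Matrix P R' ℝ) : TF r0 r1 r2 a (∑ i ∈ s, b i) c = ∑ i ∈ s, TF r0 r1 r2 a (b i) c := by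
  simp only [TF, Matrix.mul_sum, Matrix.sum_mul, trace_sum]

theorem TF_sum_c {ι : Type*} (s : Finset ι) (a : Matrix P Q ℝ) (b : Matrix Q R' ℝ)
    (c : ι → Matrix P R' ℝ) : TF r0 r1 r2 a b (∑ i ∈ s, c i) = ∑ i ∈ s, TF r0 r1 r2 a b (c i) := by
  simp only [TF, transpose_sum, Matrix.mul_sum, trace_sum]

variable {r0 r1 r2}

/-- trivial bound: one operator norm, two Hilbert-Schmidt norms -/
theorem TF_triv_a (h0 : r0ᵀ = r0) (h0' : r0 * r0 = 1) (h1 : r1ᵀ = r1) (h1' : r1 * r1 = 1)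
    (h2 : r2ᵀ = r2) (h2' : r2 * r2 = 1) {K : ℝ} (hK : 0 ≤ K) {a : Matrix P Q ℝ} (ha : OB K a)
    (b : Matrix Q R' ℝ) (c : Matrix P R' ℝ) :
    TF r0 r1 r2 a b c ^ 2 ≤ K * hs b * hs c := by
  have e : TF r0 r1 r2 a b c = (((r0 * a * r1) * b) * (r2 * cᵀ)).trace := by
    rw [TF]; congr 1; simp only [Matrix.mul_assoc]
  rw [e]
  refine (trace_sq_le_hs _ _).trans ?_
  have hh : OB (1 * K * 1) (r0 * a * r1) :=
    ((ob_refl h0 h0').mul zero_le_one hK ha).mul (by linarith) zero_le_one (ob_refl h1 h1')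
  have i1 := hh.hs_left b
  have i2 := (ob_refl h2 h2').hs_left cᵀ
  rw [hs_transpose] at i2
  have n1 := hs_nonneg b
  have n2 := hs_nonneg c
  calc _ ≤ (1 * K * 1 * hs b) * (1 * hs c) :=
        mul_le_mul i1 i2 (hs_nonneg _) (by positivity)
    _ = _ := by ring

theorem TF_triv_b (h0 : r0ᵀ = r0) (h0' : r0 * r0 = 1) (h1 : r1ᵀ = r1) (h1' : r1 * r1 = 1)
    (h2 : r2ᵀ = r2) (h2' : r2 * r2 = 1) {K : ℝ} (hK : 0 ≤ K) (a : Matrix P Q ℝ)
    {b : Matrix Q R' ℝ} (hb : OB K b) (c : Matrix P R' ℝ) :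
    TF r0 r1 r2 a b c ^ 2 ≤ K * hs a * hs c := by
  rw [TF_cyc h0 h1 h2]
  have := TF_triv_a (r0 := r1) (r1 := r2) (r2 := r0) h1 h1' h2 h2' h0 h0' hK hb cᵀ aᵀ
  rw [hs_transpose, hs_transpose] at this
  linarith

theorem TF_triv_c (h0 : r0ᵀ = r0) (h0' : r0 * r0 = 1) (h1 : r1ᵀ = r1) (h1' : r1 * r1 = 1)
    (h2 : r2ᵀ = r2) (h2' : r2 * r2 = 1) {K : ℝ} (hK : 0 ≤ K) (a : Matrix P Q ℝ)
    (b : Matrix Q R' ℝ) {c : Matrix P R' ℝ} (hc : OB K c) :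
    TF r0 r1 r2 a b c ^ 2 ≤ K * hs a * hs b := by
  rw [TF_cyc h0 h1 h2, TF_cyc h1 h2 h0, transpose_transpose]
  have := TF_triv_a (r0 := r2) (r1 := r0) (r2 := r1) h2 h2' h0 h0' h1 h1' hK hc.transpose a bᵀ
  rw [hs_transpose] at this
  exact this

/-- truncation error at level `L` -/
theorem TF_trunc (h0 : r0ᵀ = r0) (h0' : r0 * r0 = 1) (h1 : r1ᵀ = r1) (h1' : r1 * r1 = 1)
    (h2 : r2ᵀ = r2) (h2' : r2 * r2 = 1) (L : ℕ) (a : Matrix P Q ℝ)
    (b : Matrix Q R' ℝ) (c : Matrix P R' ℝ) :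
    |TF r0 r1 r2 a b c| ≤
      ∑ i ∈ range (L + 1), ∑ j ∈ range (L + 1), ∑ t ∈ range (L + 1),
        |TF r0 r1 r2 (pcs i a) (pcs j b) (pcs t c)|
      + (1 / 2) ^ L * (Real.sqrt (hs b) * Real.sqrt (hs c) + Real.sqrt (hs a) * Real.sqrt (hs c)
        + Real.sqrt (hs a) * Real.sqrt (hs b)) := by
  have h4 : (0 : ℝ) < 4 ^ L := by positivity
  have hK : (0 : ℝ) ≤ ((4 : ℝ) ^ L)⁻¹ := by positivity
  have e : TF r0 r1 r2 a b c
      = TF r0 r1 r2 (tr (4 ^ L) a) (tr (4 ^ L) b) (tr (4 ^ L) c)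
        + (TF r0 r1 r2 (a - tr (4 ^ L) a) b c + TF r0 r1 r2 (tr (4 ^ L) a) (b - tr (4 ^ L) b) c
        + TF r0 r1 r2 (tr (4 ^ L) a) (tr (4 ^ L) b) (c - tr (4 ^ L) c)) := by
    have q1 := TF_add_a r0 r1 r2 (tr (4 ^ L) a) (a - tr (4 ^ L) a) b c
    have q2 := TF_add_b r0 r1 r2 (tr (4 ^ L) a) (tr (4 ^ L) b) (b - tr (4 ^ L) b) c
    have q3 := TF_add_c r0 r1 r2 (tr (4 ^ L) a) (tr (4 ^ L) b) (tr (4 ^ L) c) (c - tr (4 ^ L) c)
    rw [add_sub_cancel] at q1 q2 q3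
    rw [q1, q2, q3]; ring
  have s1 : TF r0 r1 r2 (tr (4 ^ L) a) (tr (4 ^ L) b) (tr (4 ^ L) c)
      = ∑ i ∈ range (L + 1), ∑ j ∈ range (L + 1), ∑ t ∈ range (L + 1),
        TF r0 r1 r2 (pcs i a) (pcs j b) (pcs t c) := by
    rw [← sum_pcs L a, ← sum_pcs L b, ← sum_pcs L c, TF_sum_a]
    refine sum_congr rfl fun i _ => ?_
    rw [TF_sum_b]
    exact sum_congr rfl fun j _ => TF_sum_c ..
  have s2 : |TF r0 r1 r2 (tr (4 ^ L) a) (tr (4 ^ L) b) (tr (4 ^ L) c)|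
      ≤ ∑ i ∈ range (L + 1), ∑ j ∈ range (L + 1), ∑ t ∈ range (L + 1),
        |TF r0 r1 r2 (pcs i a) (pcs j b) (pcs t c)| := by
    rw [s1]
    refine (abs_sum_le_sum_abs _ _).trans (sum_le_sum fun i _ => ?_)
    refine (abs_sum_le_sum_abs _ _).trans (sum_le_sum fun j _ => ?_)
    exact abs_sum_le_sum_abs _ _
  have sq4 : Real.sqrt (((4 : ℝ) ^ L)⁻¹) = (1 / 2) ^ L := by
    rw [Real.sqrt_eq_iff_mul_self_eq hK (by positivity), ← mul_pow, ← inv_pow]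
    norm_num
  have bound : ∀ {x y z : ℝ}, 0 ≤ y → 0 ≤ z → x ^ 2 ≤ ((4 : ℝ) ^ L)⁻¹ * y * z →
      |x| ≤ (1 / 2) ^ L * (Real.sqrt y * Real.sqrt z) := by
    intro x y z hy hz hx
    have h := Real.sqrt_le_sqrt hx
    rw [Real.sqrt_sq_eq_abs, Real.sqrt_mul (mul_nonneg hK hy), Real.sqrt_mul hK, sq4] at h
    linarith
  have t1 := bound (hs_nonneg b) (hs_nonneg c)
    (TF_triv_a h0 h0' h1 h1' h2 h2' hK (ob_rem h4 a) b c)
  have t2 := bound (hs_nonneg (tr (4 ^ L) a)) (hs_nonneg c)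
    (TF_triv_b h0 h0' h1 h1' h2 h2' hK (tr (4 ^ L) a) (ob_rem h4 b) c)
  have t3 := bound (hs_nonneg (tr (4 ^ L) a)) (hs_nonneg (tr (4 ^ L) b))
    (TF_triv_c h0 h0' h1 h1' h2 h2' hK (tr (4 ^ L) a) (tr (4 ^ L) b) (ob_rem h4 c))
  have ma := Real.sqrt_le_sqrt (hs_tr_le h4.le a)
  have mb := Real.sqrt_le_sqrt (hs_tr_le h4.le b)
  have p2 : (0 : ℝ) ≤ (1 / 2) ^ L := by positivity
  have t2' : (1 / 2 : ℝ) ^ L * (Real.sqrt (hs (tr (4 ^ L) a)) * Real.sqrt (hs c))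
      ≤ (1 / 2) ^ L * (Real.sqrt (hs a) * Real.sqrt (hs c)) :=
    mul_le_mul_of_nonneg_left (mul_le_mul_of_nonneg_right ma (Real.sqrt_nonneg _)) p2
  have t3' : (1 / 2 : ℝ) ^ L * (Real.sqrt (hs (tr (4 ^ L) a)) * Real.sqrt (hs (tr (4 ^ L) b)))
      ≤ (1 / 2) ^ L * (Real.sqrt (hs a) * Real.sqrt (hs b)) :=
    mul_le_mul_of_nonneg_left (mul_le_mul ma mb (Real.sqrt_nonneg _) (Real.sqrt_nonneg _)) p2
  rw [e]
  refine (abs_add_le _ _).trans ?_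
  refine add_le_add s2 ?_
  refine (abs_add_three _ _ _).trans ?_
  rw [mul_add, mul_add]
  linarith

end TF

end

end Vale.Agent.P141.PL.H48
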