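import Vale.Agent.P141.PL.H48.Vert

/-!
# P141: the triangle (4, 2, 4) with labels, stopping families on the three faces, n-uniform
-/

namespace Vale.Agent.P141.PL.H48

set_option linter.unusedSectionVars false

open Finset Matrix Vale.Agent.P075 Vale.Agent.P141.PL

noncomputable section

variable {J0 J1 J2 : Type} [Fintype J0] [DecidableEq J0] [Fintype J1] [DecidableEq J1]
  [Fintype J2] [DecidableEq J2] {J : Type} [Fintype J] [DecidableEq J]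

/-- exchange of the last two indices -/
def fl4 (U : MC) : MC := fun k i n m => U k i m n

theorem Cl4.flip {N : ℕ} {U : MC} (h : Cl4 N U) : Cl4 N (fl4 U) :=
  fun k hk i n m hU => h k hk i m n hU

/-- the mask of a box: edges 01, 12, 02 -/
def mk (UA UB UC : MC) (x : ℤ) (k : ℕ) (p : ℤ × ℤ × ℤ) : Prop :=
  UA k (ix k x) p.1 p.2.1 ∧ UB k (ix k x) p.2.1 p.2.2 ∧ UC k (ix k x) p.1 p.2.2

/-- index type of the boxes -/
abbrev Om : Type := Σ _ : ℤ, Σ _ : ℕ, ℤ × ℤ × ℤ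

open scoped Classical in
/-- the boxes -/
def bM (N l : ℕ) (X R0 R1 R2 : ℤ) (c : ℕ → ℤ → ℤ) (UA UB UC : MC) : Finset Om :=
  (iv N X).sigma fun x => (Icc (l + 1) N).sigma fun k =>
    (bx N R0 R1 R2 k (c k (ix k x))).filter fun p => mk UA UB UC x k p

open scoped Classical in
theorem sum_bM (N l : ℕ) (X R0 R1 R2 : ℤ) (c : ℕ → ℤ → ℤ) (UA UB UC : MC) (g : Om → ℝ) :
    ∑ ω ∈ bM N l X R0 R1 R2 c UA UB UC, (4 : ℝ) ^ ω.2.1 * g ω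
      = ∑ x ∈ iv N X, ∑ k ∈ Icc (l + 1) N, (4 : ℝ) ^ k * ∑ p ∈ bx N R0 R1 R2 k (c k (ix k x)),
        if mk UA UB UC x k p then g ⟨x, k, p⟩ else 0 := by
  unfold bM
  rw [sum_sigma]
  refine sum_congr rfl fun x _ => ?_
  rw [sum_sigma]
  refine sum_congr rfl fun k _ => ?_
  rw [sum_filter, mul_sum]
  refine sum_congr rfl fun p _ => ?_
  split_ifs
  · rfl
  · rw [mul_zero]

/-- Domination on the boxes of a family, edges 01, 12, 02. -/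
structure DomM (s : Finset Om) (A0 : ℤ → GF J0) (A1 : ℤ → GF J1) (B1 : ℤ → GF J1) (B2 : ℤ → GF J2)
    (C0 : ℤ → GF J0) (C2 : ℤ → GF J2)
    (a : (ω : Om) → Matrix (IL J0 ω.2.1) (IL J1 ω.2.1) ℝ)
    (b : (ω : Om) → Matrix (IL J1 ω.2.1) (IL J2 ω.2.1) ℝ)
    (c : (ω : Om) → Matrix (IL J0 ω.2.1) (IL J2 ω.2.1) ℝ) : Prop where
  a0 : ∀ ω ∈ s, ((A0 ω.1).X ω.2.1 ω.2.1 ω.2.2.2.1 ω.2.2.1 - a ω * (a ω)ᵀ).PosSemidef
  a1 : ∀ ω ∈ s, ((A1 ω.1).X ω.2.1 ω.2.1 ω.2.2.1 ω.2.2.2.1 - (a ω)ᵀ * a ω).PosSemidef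
  a2 : ∀ ω ∈ s, OB 1 (a ω)
  b1 : ∀ ω ∈ s, ((B1 ω.1).X ω.2.1 ω.2.1 ω.2.2.2.2 ω.2.2.2.1 - b ω * (b ω)ᵀ).PosSemidef
  b2 : ∀ ω ∈ s, ((B2 ω.1).X ω.2.1 ω.2.1 ω.2.2.2.1 ω.2.2.2.2 - (b ω)ᵀ * b ω).PosSemidef
  b3 : ∀ ω ∈ s, OB 1 (b ω)
  c0 : ∀ ω ∈ s, ((C0 ω.1).X ω.2.1 ω.2.1 ω.2.2.2.2 ω.2.2.1 - c ω * (c ω)ᵀ).PosSemidef
  c2 : ∀ ω ∈ s, ((C2 ω.1).X ω.2.1 ω.2.1 ω.2.2.1 ω.2.2.2.2 - (c ω)ᵀ * c ω).PosSemidef
  c3 : ∀ ω ∈ s, OB 1 (c ω)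

theorem smul_psd_sub {P : Type} [Fintype P] {X Y : Matrix P P ℝ} {κ : ℝ} (hκ : 0 ≤ κ)
    (h : (Y - X).PosSemidef) : (κ • Y - κ • X).PosSemidef := by
  rw [← smul_sub]; exact h.smul hκ

/-- the three steps, one box -/
theorem steps {P Q R' : Type} [Fintype P] [DecidableEq P] [Fintype Q] [DecidableEq Q]
    [Fintype R'] [DecidableEq R'] {r0 : Matrix P P ℝ} {r1 : Matrix Q Q ℝ} {r2 : Matrix R' R' ℝ}
    (h0 : r0ᵀ = r0) (h0' : r0 * r0 = 1) (h1 : r1ᵀ = r1) (h1' : r1 * r1 = 1)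
    (h2 : r2ᵀ = r2) (h2' : r2 * r2 = 1)
    {a : Matrix P Q ℝ} {b : Matrix Q R' ℝ} {c : Matrix P R' ℝ}
    {A0 C0 : Matrix P P ℝ} {A1 B1 : Matrix Q Q ℝ} {B2 C2 : Matrix R' R' ℝ}
    (a0 : (A0 - a * aᵀ).PosSemidef) (a1 : (A1 - aᵀ * a).PosSemidef) (a2 : OB 1 a)
    (b1 : (B1 - b * bᵀ).PosSemidef) (b2 : (B2 - bᵀ * b).PosSemidef) (b3 : OB 1 b)
    (c0 : (C0 - c * cᵀ).PosSemidef) (c2 : (C2 - cᵀ * c).PosSemidef) (c3 : OB 1 c) (i j t : ℕ) :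
    (TF r0 r1 r2 (rm i a) (rm j b) (rm t c) - TF r0 r1 r2 (rm (i + 1) a) (rm j b) (rm t c)) ^ 2
      ≤ 225 * (lv i * lv j * lv t)⁻¹ * vd (lv i • A0) (lv t • C0) r0 * vd (lv i • A1) (lv j • B1) r1
    ∧ (TF r0 r1 r2 (rm i a) (rm j b) (rm t c) - TF r0 r1 r2 (rm i a) (rm (j + 1) b) (rm t c)) ^ 2
      ≤ 225 * (lv i * lv j * lv t)⁻¹ * vd (lv i • A1) (lv j • B1) r1 * vd (lv j • B2) (lv t • C2) r2
    ∧ (TF r0 r1 r2 (rm i a) (rm j b) (rm t c) - TF r0 r1 r2 (rm i a) (rm j b) (rm (t + 1) c)) ^ 2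
      ≤ 225 * (lv i * lv j * lv t)⁻¹ * vd (lv j • B2) (lv t • C2) r2
        * vd (lv i • A0) (lv t • C0) r0 := by
  have hκ := lv_pos i
  have hμ := lv_pos j
  have hν := lv_pos t
  have fa := fac_pcs i a2
  have fb := fac_pcs j b3
  have fc := fac_pcs t c3
  have da := bd_rm i a2
  have db := bd_rm j b3
  have dc := bd_rm t c3
  have k1 : (0 : ℝ) ≤ (225 / 16) * (lv i)⁻¹ := by positivity
  have k2 : (0 : ℝ) ≤ (225 / 16) * (lv j)⁻¹ := by positivity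
  have k3 : (0 : ℝ) ≤ (225 / 16) * (lv t)⁻¹ := by positivity
  have m1 : (0 : ℝ) ≤ 4 * (lv i)⁻¹ := by positivity
  have m2 : (0 : ℝ) ≤ 4 * (lv j)⁻¹ := by positivity
  have m3 : (0 : ℝ) ≤ 4 * (lv t)⁻¹ := by positivity
  have ea := tf_a (r0 := r0) (r1 := r1) (r2 := r2) h0 h1 h2 h2' hκ.le hμ.le hν.le k1 m2 m3 fa db dc
  have eb := tf_b (r0 := r0) (r1 := r1) (r2 := r2) h0 h0' h1 h2 hκ.le hμ.le hν.le m1 k2 m3 da fb dc
  have ec := tf_c (r0 := r0) (r1 := r1) (r2 := r2) h0 h1 h1' h2 hκ.le hμ.le hν.le m1 m2 k3 da db fc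
  have v1 : vd (XC (lv i) a) (XR (lv j) b) r1 ≤ vd (lv i • A1) (lv j • B1) r1 :=
    vd_mono (XC_psd hκ.le _) (XR_psd hμ.le _) (smul_psd_sub hκ.le a1) (smul_psd_sub hμ.le b1) h1
  have v2 : vd (XC (lv j) b) (XC (lv t) c) r2 ≤ vd (lv j • B2) (lv t • C2) r2 :=
    vd_mono (XC_psd hμ.le _) (XC_psd hν.le _) (smul_psd_sub hμ.le b2) (smul_psd_sub hν.le c2) h2
  have v0 : vd (XR (lv i) a) (XR (lv t) c) r0 ≤ vd (lv i • A0) (lv t • C0) r0 :=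
    vd_mono (XR_psd hκ.le _) (XR_psd hν.le _) (smul_psd_sub hκ.le a0) (smul_psd_sub hν.le c0) h0
  have n1 := vd_nonneg (XC_psd hκ.le a) (XR_psd hμ.le b) h1
  have n2 := vd_nonneg (XC_psd hμ.le b) (XC_psd hν.le c) h2
  have n0 := vd_nonneg (XR_psd hκ.le a) (XR_psd hν.le c) h0
  have eK1 : (225 / 16 : ℝ) * (lv i)⁻¹ * (4 * (lv j)⁻¹) * (4 * (lv t)⁻¹)
      = 225 * (lv i * lv j * lv t)⁻¹ := by
    rw [mul_inv, mul_inv]; ring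
  have eK2 : (4 * (lv i)⁻¹) * ((225 / 16 : ℝ) * (lv j)⁻¹) * (4 * (lv t)⁻¹)
      = 225 * (lv i * lv j * lv t)⁻¹ := by
    rw [mul_inv, mul_inv]; ring
  have eK3 : (4 * (lv i)⁻¹) * (4 * (lv j)⁻¹) * ((225 / 16 : ℝ) * (lv t)⁻¹)
      = 225 * (lv i * lv j * lv t)⁻¹ := by
    rw [mul_inv, mul_inv]; ring
  have hK : 0 ≤ 225 * (lv i * lv j * lv t)⁻¹ := by positivity
  rw [eK1] at ea
  rw [eK2] at eb
  rw [eK3] at ec
  have sa : TF r0 r1 r2 (rm i a) (rm j b) (rm t c) - TF r0 r1 r2 (rm (i + 1) a) (rm j b) (rm t c)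
      = TF r0 r1 r2 (pcs i a) (rm j b) (rm t c) := by
    conv_lhs => rw [rm_succ i a, TF_add_a]
    ring
  have sb : TF r0 r1 r2 (rm i a) (rm j b) (rm t c) - TF r0 r1 r2 (rm i a) (rm (j + 1) b) (rm t c)
      = TF r0 r1 r2 (rm i a) (pcs j b) (rm t c) := by
    conv_lhs => rw [rm_succ j b, TF_add_b]
    ring
  have sc : TF r0 r1 r2 (rm i a) (rm j b) (rm t c) - TF r0 r1 r2 (rm i a) (rm j b) (rm (t + 1) c)
      = TF r0 r1 r2 (rm i a) (rm j b) (pcs t c) := by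
    conv_lhs => rw [rm_succ t c, TF_add_c]
    ring
  rw [sa, sb, sc]
  refine ⟨ea.trans ?_, eb.trans ?_, ec.trans ?_⟩
  · exact mul_le_mul (mul_le_mul_of_nonneg_left v0 hK) v1 n1 (mul_nonneg hK (n0.trans v0))
  · exact mul_le_mul (mul_le_mul_of_nonneg_left v1 hK) v2 n2 (mul_nonneg hK (n1.trans v1))
  · exact mul_le_mul (mul_le_mul_of_nonneg_left v2 hK) v0 n0 (mul_nonneg hK (n2.trans v2))

theorem lv_add_ge (i n : ℕ) : (4 : ℝ) ^ n ≤ 4 * lv (i + n) := by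
  unfold lv
  rw [← pow_succ']
  exact pow_le_pow_right₀ (by norm_num) (by omega)

/-- decay of the remainders -/
theorem rm_lim {P Q R' : Type} [Fintype P] [DecidableEq P] [Fintype Q] [DecidableEq Q]
    [Fintype R'] [DecidableEq R'] {r0 : Matrix P P ℝ} {r1 : Matrix Q Q ℝ} {r2 : Matrix R' R' ℝ}
    (h0 : r0ᵀ = r0) (h0' : r0 * r0 = 1) (h1 : r1ᵀ = r1) (h1' : r1 * r1 = 1)
    (h2 : r2ᵀ = r2) (h2' : r2 * r2 = 1)
    (a : Matrix P Q ℝ) (b : Matrix Q R' ℝ) (c : Matrix P R' ℝ) {i n : ℕ} (j t : ℕ)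
    (hn : 1 ≤ i + n) :
    TF r0 r1 r2 (rm (i + n) a) (rm (j + n) b) (rm (t + n) c) ^ 2
      ≤ 64 * hs b * hs c * (1 / 4) ^ n := by
  have h := TF_triv_a h0 h0' h1 h1' h2 h2' (by have := lv_pos (i + n); positivity)
    (ob_rm hn a) (rm (j + n) b) (rm (t + n) c)
  have q1 := hs_rm_le (j + n) b
  have q2 := hs_rm_le (t + n) c
  have p1 := hs_nonneg b
  have p2 := hs_nonneg c
  have hl : (lv (i + n))⁻¹ ≤ 4 * (1 / 4) ^ n := by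
    have h3 := lv_add_ge i n
    have h4 := lv_pos (i + n)
    have h5 : (0 : ℝ) < 4 ^ n := by positivity
    have : (1 / 4 : ℝ) ^ n = (4 ^ n)⁻¹ := by rw [one_div, inv_pow]
    rw [this, inv_le_iff_one_le_mul₀ h4]
    rw [mul_assoc, mul_comm, mul_assoc]
    rw [inv_mul_eq_div, le_div_iff₀ h5]
    linarith
  calc _ ≤ _ := h
    _ ≤ (4 * (1 / 4) ^ n) * (4 * hs b) * (4 * hs c) := by
        refine mul_le_mul (mul_le_mul hl q1 (hs_nonneg _) (by positivity)) q2 (hs_nonneg _)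
          (by positivity)
    _ = _ := by ring

section

variable {N l : ℕ} {X R0 R1 R2 : ℤ} {cc : ℕ → ℤ → ℤ} {UA UB UC : MC}
  {A0 : ℤ → GF J0} {A1 : ℤ → GF J1} {B1 : ℤ → GF J1} {B2 : ℤ → GF J2}
  {C0 : ℤ → GF J0} {C2 : ℤ → GF J2}
  {a : (ω : Om) → Matrix (IL J0 ω.2.1) (IL J1 ω.2.1) ℝ}
  {b : (ω : Om) → Matrix (IL J1 ω.2.1) (IL J2 ω.2.1) ℝ}
  {c : (ω : Om) → Matrix (IL J0 ω.2.1) (IL J2 ω.2.1) ℝ}

/-- the data of the path theorem -/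
def pd (N l : ℕ) (X R0 R1 R2 : ℤ) (cc : ℕ → ℤ → ℤ) (UA UB UC : MC)
    {A0 : ℤ → GF J0} {A1 : ℤ → GF J1} {B1 : ℤ → GF J1} {B2 : ℤ → GF J2}
    {C0 : ℤ → GF J0} {C2 : ℤ → GF J2}
    {a : (ω : Om) → Matrix (IL J0 ω.2.1) (IL J1 ω.2.1) ℝ}
    {b : (ω : Om) → Matrix (IL J1 ω.2.1) (IL J2 ω.2.1) ℝ}
    {c : (ω : Om) → Matrix (IL J0 ω.2.1) (IL J2 ω.2.1) ℝ}
    (h : DomM (bM N l X R0 R1 R2 cc UA UB UC) A0 A1 B1 B2 C0 C2 a b c) : PD Om where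
  s := bM N l X R0 R1 R2 cc UA UB UC
  wt ω := 4 ^ ω.2.1
  wt0 ω := by positivity
  T i j t ω := TF (hd J0 ω.2.1) (hd J1 ω.2.1) (hd J2 ω.2.1) (rm i (a ω)) (rm j (b ω)) (rm t (c ω))
  D0 i t ω := vd (lv i • (A0 ω.1).X ω.2.1 ω.2.1 ω.2.2.2.1 ω.2.2.1)
    (lv t • (C0 ω.1).X ω.2.1 ω.2.1 ω.2.2.2.2 ω.2.2.1) (hd J0 ω.2.1)
  D1 i j ω := vd (lv i • (A1 ω.1).X ω.2.1 ω.2.1 ω.2.2.1 ω.2.2.2.1)
    (lv j • (B1 ω.1).X ω.2.1 ω.2.1 ω.2.2.2.2 ω.2.2.2.1) (hd J1 ω.2.1)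
  D2 j t ω := vd (lv j • (B2 ω.1).X ω.2.1 ω.2.1 ω.2.2.2.1 ω.2.2.2.2)
    (lv t • (C2 ω.1).X ω.2.1 ω.2.1 ω.2.2.1 ω.2.2.2.2) (hd J2 ω.2.1)
  D0n i j ω _ := vd_nonneg (((A0 ω.1).psd ..).smul (lv_pos i).le)
    (((C0 ω.1).psd ..).smul (lv_pos j).le) (hd_symm _)
  D1n i j ω _ := vd_nonneg (((A1 ω.1).psd ..).smul (lv_pos i).le)
    (((B1 ω.1).psd ..).smul (lv_pos j).le) (hd_symm _)
  D2n i j ω _ := vd_nonneg (((B2 ω.1).psd ..).smul (lv_pos i).le)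
    (((C2 ω.1).psd ..).smul (lv_pos j).le) (hd_symm _)
  ha i j t ω hω := (steps (hd_symm _) (hd_sq _) (hd_symm _) (hd_sq _) (hd_symm _) (hd_sq _)
    (h.a0 ω hω) (h.a1 ω hω) (h.a2 ω hω) (h.b1 ω hω) (h.b2 ω hω) (h.b3 ω hω)
    (h.c0 ω hω) (h.c2 ω hω) (h.c3 ω hω) i j t).1
  hb i j t ω hω := (steps (hd_symm _) (hd_sq _) (hd_symm _) (hd_sq _) (hd_symm _) (hd_sq _)
    (h.a0 ω hω) (h.a1 ω hω) (h.a2 ω hω) (h.b1 ω hω) (h.b2 ω hω) (h.b3 ω hω)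
    (h.c0 ω hω) (h.c2 ω hω) (h.c3 ω hω) i j t).2.1
  hc i j t ω hω := (steps (hd_symm _) (hd_sq _) (hd_symm _) (hd_sq _) (hd_symm _) (hd_sq _)
    (h.a0 ω hω) (h.a1 ω hω) (h.a2 ω hω) (h.b1 ω hω) (h.b2 ω hω) (h.b3 ω hω)
    (h.c0 ω hω) (h.c2 ω hω) (h.c3 ω hω) i j t).2.2
  lim i j t ε hε := by
    set Z := ∑ ω ∈ bM N l X R0 R1 R2 cc UA UB UC, 64 * hs (b ω) * hs (c ω) with hZ
    have hZ0 : 0 ≤ Z := sum_nonneg fun ω _ => by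
      have := hs_nonneg (b ω); have := hs_nonneg (c ω); positivity
    obtain ⟨n, hn⟩ := exists_pow_lt_of_lt_one (show 0 < ε ^ 2 / (Z + 1) by positivity)
      (show (1 / 4 : ℝ) < 1 by norm_num)
    refine ⟨n + 1, fun ω hω => ?_⟩
    refine abs_le_of_sq_le_sq ?_ hε.le
    refine (rm_lim (hd_symm _) (hd_sq _) (hd_symm _) (hd_sq _) (hd_symm _) (hd_sq _)
      (a ω) (b ω) (c ω) j t (by omega)).trans ?_
    have h1 : 64 * hs (b ω) * hs (c ω) ≤ Z := by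
      rw [hZ]
      exact single_le_sum (f := fun ω => 64 * hs (b ω) * hs (c ω)) (fun ω _ => by
        have := hs_nonneg (b ω); have := hs_nonneg (c ω); positivity) hω
    have h2 : (1 / 4 : ℝ) ^ (n + 1) ≤ (1 / 4) ^ n :=
      pow_le_pow_of_le_one (by norm_num) (by norm_num) (by omega)
    have h3 : (0 : ℝ) < (1 / 4) ^ (n + 1) := by positivity
    calc _ ≤ Z * (1 / 4) ^ (n + 1) := mul_le_mul_of_nonneg_right h1 h3.le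
      _ ≤ (Z + 1) * (ε ^ 2 / (Z + 1)) :=
          mul_le_mul (by linarith) (h2.trans hn.le) h3.le (by linarith)
      _ = ε ^ 2 := by field_simp

open scoped Classical in
theorem W_eq (h : DomM (bM N l X R0 R1 R2 cc UA UB UC) A0 A1 B1 B2 C0 C2 a b c) (g : Om → ℝ) :
    (pd N l X R0 R1 R2 cc UA UB UC h).W g
      = ∑ x ∈ iv N X, ∑ k ∈ Icc (l + 1) N, (4 : ℝ) ^ k * ∑ p ∈ bx N R0 R1 R2 k (cc k (ix k x)),
        if mk UA UB UC x k p then g ⟨x, k, p⟩ else 0 :=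
  sum_bM N l X R0 R1 R2 cc UA UB UC g

theorem W_D1 (h : DomM (bM N l X R0 R1 R2 cc UA UB UC) A0 A1 B1 B2 C0 C2 a b c) (i j : ℕ) :
    (pd N l X R0 R1 R2 cc UA UB UC h).W ((pd N l X R0 R1 R2 cc UA UB UC h).D1 i j)
      ≤ VM N l X R0 R1 R2 A1 B1 UA (fl4 UB) cc (lv i) (lv j) := by
  classical
  rw [W_eq]
  unfold VM
  refine sum_le_sum fun x _ => sum_le_sum fun k _ => mul_le_mul_of_nonneg_left
    (sum_le_sum fun p _ => ?_) (by positivity)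
  have n0 : 0 ≤ vd (lv i • (A1 x).X k k p.1 p.2.1) (lv j • (B1 x).X k k p.2.2 p.2.1) (hd J1 k) :=
    vd_nonneg (((A1 x).psd ..).smul (lv_pos i).le) (((B1 x).psd ..).smul (lv_pos j).le) (hd_symm k)
  by_cases hm : mk UA UB UC x k p
  · rw [if_pos hm, if_pos (show UA k (ix k x) p.1 p.2.1 ∧ fl4 UB k (ix k x) p.2.2 p.2.1 from
      ⟨hm.1, hm.2.1⟩)]
    exact le_rfl
  · rw [if_neg hm]
    split_ifs
    · exact n0
    · exact le_rfl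

theorem W_D0 (h : DomM (bM N l X R0 R1 R2 cc UA UB UC) A0 A1 B1 B2 C0 C2 a b c) (i t : ℕ) :
    (pd N l X R0 R1 R2 cc UA UB UC h).W ((pd N l X R0 R1 R2 cc UA UB UC h).D0 i t)
      ≤ VM N l X R1 R0 R2 A0 C0 (fl4 UA) (fl4 UC) cc (lv i) (lv t) := by
  classical
  rw [W_eq]
  unfold VM
  refine sum_le_sum fun x _ => sum_le_sum fun k _ => mul_le_mul_of_nonneg_left ?_ (by positivity)
  rw [← sum_bx_102 N R0 R1 R2 k (cc k (ix k x)) (fun q =>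
    if fl4 UA k (ix k x) q.1 q.2.1 ∧ fl4 UC k (ix k x) q.2.2 q.2.1 then
      vd (lv i • (A0 x).X k k q.1 q.2.1) (lv t • (C0 x).X k k q.2.2 q.2.1) (hd J0 k) else 0)]
  refine sum_le_sum fun p _ => ?_
  have n0 : 0 ≤ vd (lv i • (A0 x).X k k p.2.1 p.1) (lv t • (C0 x).X k k p.2.2 p.1) (hd J0 k) :=
    vd_nonneg (((A0 x).psd ..).smul (lv_pos i).le) (((C0 x).psd ..).smul (lv_pos t).le) (hd_symm k)
  by_cases hm : mk UA UB UC x k p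
  · rw [if_pos hm, if_pos (show fl4 UA k (ix k x) p.2.1 p.1 ∧ fl4 UC k (ix k x) p.2.2 p.1 from
      ⟨hm.1, hm.2.2⟩)]
    exact le_rfl
  · rw [if_neg hm]
    split_ifs
    · exact n0
    · exact le_rfl

theorem W_D2 (h : DomM (bM N l X R0 R1 R2 cc UA UB UC) A0 A1 B1 B2 C0 C2 a b c) (j t : ℕ) :
    (pd N l X R0 R1 R2 cc UA UB UC h).W ((pd N l X R0 R1 R2 cc UA UB UC h).D2 j t)
      ≤ VM N l X R1 R2 R0 B2 C2 UB UC cc (lv j) (lv t) := by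
  classical
  rw [W_eq]
  unfold VM
  refine sum_le_sum fun x _ => sum_le_sum fun k _ => mul_le_mul_of_nonneg_left ?_ (by positivity)
  rw [← sum_bx_120 N R0 R1 R2 k (cc k (ix k x)) (fun q =>
    if UB k (ix k x) q.1 q.2.1 ∧ UC k (ix k x) q.2.2 q.2.1 then
      vd (lv j • (B2 x).X k k q.1 q.2.1) (lv t • (C2 x).X k k q.2.2 q.2.1) (hd J2 k) else 0)]
  refine sum_le_sum fun p _ => ?_
  have n0 : 0 ≤ vd (lv j • (B2 x).X k k p.2.1 p.2.2) (lv t • (C2 x).X k k p.1 p.2.2) (hd J2 k) :=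
    vd_nonneg (((B2 x).psd ..).smul (lv_pos j).le) (((C2 x).psd ..).smul (lv_pos t).le) (hd_symm k)
  by_cases hm : mk UA UB UC x k p
  · rw [if_pos hm, if_pos (show UB k (ix k x) p.2.1 p.2.2 ∧ UC k (ix k x) p.1 p.2.2 from
      ⟨hm.2.1, hm.2.2⟩)]
    exact le_rfl
  · rw [if_neg hm]
    split_ifs
    · exact n0
    · exact le_rfl

theorem VM_VB (hl : l ≤ N) (X R S T : ℤ) {A B : ℤ → GF J} {U V : MC}
    (hU : Cl4 N U) (hV : Cl4 N V) (hc : ∀ x, H588.Pl fun k => cc k (ix k x)) {eA eB : ℝ → ℝ}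
    (hA0 : ∀ κ, 0 < κ → 0 ≤ eA κ) (hB0 : ∀ κ, 0 < κ → 0 ≤ eB κ)
    (hA : ∀ κ (hκ : 0 < κ), Hb N l (fun x => (A x).smul κ hκ.le) U (eA κ))
    (hB : ∀ κ (hκ : 0 < κ), Hb N l (fun x => (B x).smul κ hκ.le) V (eB κ)) :
    VB (VM N l X R S T A B U V cc) (4676 * 8 ^ N) eA eB := by
  intro κ κ' μ μ' h1 h2 h3 h4
  exact VM_le hl X R S T hU hV hc h1 h2 h3 h4 (hA0 _ h1) (hB0 _ h3) (hA _ h1) (hB _ h3)

theorem Hb_min {A : ℤ → GF J} {U : MC} {κ α v : ℝ} (hκ : 0 ≤ κ) (h1 : H1 N l A U α)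
    (h2 : H2 N l A U v) : Hb N l (fun x => (A x).smul κ hκ) U (min (κ * α) (κ ^ 2 * v)) := by
  rcases min_choice (κ * α) (κ ^ 2 * v) with h | h
  · rw [h]; exact Hb_of_H1 h1 hκ
  · rw [h]; exact Hb_of_H2 h2 hκ

open scoped Classical in
/-- **Triangle (4, 2, 4) with labels, on arbitrary stopping families, uniformly in the number of
scales.** `α, b², γ` are the densities of the `S₂` energies of the three edges, `u²`, `w²` the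
densities of the `S₄` energies of the edges 01 and 02. -/
theorem tri424M (hl : l ≤ N) (hA : Cl4 N UA) (hB : Cl4 N UB) (hC : Cl4 N UC)
    (hc : ∀ x, H588.Pl fun k => cc k (ix k x))
    (h : DomM (bM N l X R0 R1 R2 cc UA UB UC) A0 A1 B1 B2 C0 C2 a b c)
    {u w s α γ : ℝ} (hu : 0 < u) (hw : 0 < w) (hs : 0 < s) (hα : 0 ≤ α) (hγ : 0 ≤ γ)
    (a0 : H1 N l A0 (fl4 UA) α) (a0' : H2 N l A0 (fl4 UA) (u ^ 2))
    (a1 : H1 N l A1 UA α) (a1' : H2 N l A1 UA (u ^ 2))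
    (b1 : H1 N l B1 (fl4 UB) (s ^ 2)) (b2 : H1 N l B2 UB (s ^ 2))
    (c0 : H1 N l C0 (fl4 UC) γ) (c0' : H2 N l C0 (fl4 UC) (w ^ 2))
    (c2 : H1 N l C2 UC γ) (c2' : H2 N l C2 UC (w ^ 2))
    (L : ℕ) (q1 : u ≤ 2 ^ L * s) (q2 : w ≤ 2 ^ L * s) (q3 : s ≤ 2 ^ L * u) (q4 : s ≤ 2 ^ L * w)
    (q5 : α ≤ 2 ^ L * (u * s)) (q6 : γ ≤ 2 ^ L * (w * s)) :
    ∑ x ∈ iv N X, ∑ k ∈ Icc (l + 1) N, (4 : ℝ) ^ k * ∑ p ∈ bx N R0 R1 R2 k (cc k (ix k x)),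
      (if mk UA UB UC x k p then |TF (hd J0 k) (hd J1 k) (hd J2 k) (a ⟨x, k, p⟩) (b ⟨x, k, p⟩)
        (c ⟨x, k, p⟩)| else 0)
      ≤ 270179280 * (L + 1) * Real.sqrt (s ^ 2 * u * w) * 8 ^ N := by
  have p1 : ∀ κ : ℝ, 0 < κ → 0 ≤ min (κ * α) (κ ^ 2 * u ^ 2) := fun κ hκ =>
    le_min (by positivity) (by positivity)
  have p2 : ∀ κ : ℝ, 0 < κ → 0 ≤ κ * s ^ 2 := fun κ hκ => by positivity
  have p3 : ∀ κ : ℝ, 0 < κ → 0 ≤ min (κ * γ) (κ ^ 2 * w ^ 2) := fun κ hκ =>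
    le_min (by positivity) (by positivity)
  have V1 := VM_VB (cc := cc) hl X R0 R1 R2 hA hB.flip hc p1 p2
    (fun κ hκ => Hb_min hκ.le a1 a1') (fun κ hκ => Hb_of_H1 b1 hκ.le)
  have V0 := VM_VB (cc := cc) hl X R1 R0 R2 hA.flip hC.flip hc p1 p3
    (fun κ hκ => Hb_min hκ.le a0 a0') (fun κ hκ => Hb_min hκ.le c0 c0')
  have V2 := VM_VB (cc := cc) hl X R1 R2 R0 hB hC hc p2 p3
    (fun κ hκ => Hb_of_H1 b2 hκ.le) (fun κ hκ => Hb_min hκ.le c2 c2')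
  have hC0 : (0 : ℝ) ≤ 4676 * 8 ^ N := by positivity
  set D := pd N l X R0 R1 R2 cc UA UB UC h with hD
  have key := PD.main (D := D) (c0 := 2 * (4676 * 8 ^ N)) (by positivity) hu hw hs hα hγ
    (fun i t => (W_D0 h i t).trans (V0.triv hC0 hα hγ (lv_pos i) (lv_pos t)
      (fun κ _ => min_le_left _ _) (fun κ _ => min_le_left _ _)))
    (fun i t => (W_D0 h i t).trans (V0.v44 hC0 (lv_pos i) (lv_pos t) hu hw
      (fun κ _ => min_le_right _ _) (fun κ _ => min_le_right _ _)))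
    (fun i j => (W_D1 h i j).trans (V1.triv hC0 hα (sq_nonneg s) (lv_pos i) (lv_pos j)
      (fun κ _ => min_le_left _ _) (fun κ _ => le_rfl)))
    (fun i j => by
      have := V1.v42 hC0 (lv_pos i) (sq_pos j) hu hs (fun κ _ => min_le_right _ _)
        (fun κ _ => le_rfl)
      rw [← lv_eq_sq] at this
      exact (W_D1 h i j).trans this)
    (fun j t => (W_D2 h j t).trans (V2.triv hC0 (sq_nonneg s) hγ (lv_pos j) (lv_pos t)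
      (fun κ _ => le_rfl) (fun κ _ => min_le_left _ _)))
    (fun j t => by
      have := V2.swap.v42 hC0 (lv_pos t) (sq_pos j) hw hs (fun κ _ => min_le_right _ _)
        (fun κ _ => le_rfl)
      rw [← lv_eq_sq] at this
      exact (W_D2 h j t).trans this)
    L q1 q2 q3 q4 q5 q6
  have e : D.S 0 0 0 = ∑ x ∈ iv N X, ∑ k ∈ Icc (l + 1) N, (4 : ℝ) ^ k
      * ∑ p ∈ bx N R0 R1 R2 k (cc k (ix k x)),
      (if mk UA UB UC x k p then |TF (hd J0 k) (hd J1 k) (hd J2 k) (a ⟨x, k, p⟩) (b ⟨x, k, p⟩)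
        (c ⟨x, k, p⟩)| else 0) :=
    W_eq h (fun ω => |D.T 0 0 0 ω|)
  rw [← e]
  refine key.trans (le_of_eq ?_)
  ring

end

end

end Vale.Agent.P141.PL.H48
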