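import Vale.Agent.P141.PL.H48.PathB
import Vale.Agent.P141.PL.H48.MaskC

/-!
# P141: vertex sums with optimal weights (arithmetic), masked vertex sums
-/

namespace Vale.Agent.P141.PL.H48

set_option linter.unusedSectionVars false

open Finset Matrix Vale.Agent.P075 Vale.Agent.P141.PL

noncomputable section

/-- a vertex sum with weights: scaling -/
def VB (V : ℝ → ℝ → ℝ) (C : ℝ) (eA eB : ℝ → ℝ) : Prop :=
  ∀ κ κ' μ μ' : ℝ, 0 < κ' → κ' ≤ κ → 0 < μ' → μ' ≤ μ →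
    V κ μ ≤ (κ / κ') * (μ / μ') * (C * (eA κ' + eB μ'))

section

variable {V : ℝ → ℝ → ℝ} {C : ℝ} {eA eB : ℝ → ℝ}

theorem VB.swap (h : VB V C eA eB) : VB (fun μ κ => V κ μ) C eB eA := by
  intro μ μ' κ κ' h1 h2 h3 h4
  have := h κ κ' μ μ' h3 h4 h1 h2
  calc _ ≤ _ := this
    _ = _ := by ring

theorem VB.triv (h : VB V C eA eB) (hC : 0 ≤ C) {α β κ μ : ℝ} (hα : 0 ≤ α) (hβ : 0 ≤ β)
    (hκ : 0 < κ) (hμ : 0 < μ)
    (hA : ∀ κ, 0 < κ → eA κ ≤ κ * α) (hB : ∀ μ, 0 < μ → eB μ ≤ μ * β) :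
    V κ μ ≤ 2 * C * (κ * α + μ * β) := by
  have h1 := h κ κ μ μ hκ le_rfl hμ le_rfl
  rw [div_self hκ.ne', div_self hμ.ne', one_mul, one_mul] at h1
  have h2 : C * (eA κ + eB μ) ≤ C * (κ * α + μ * β) :=
    mul_le_mul_of_nonneg_left (add_le_add (hA κ hκ) (hB μ hμ)) hC
  have := mul_nonneg hC (by positivity : 0 ≤ κ * α + μ * β)
  linarith

theorem VB.v42 (h : VB V C eA eB) (hC : 0 ≤ C) {u b κ s : ℝ} (hκ : 0 < κ) (hs : 0 < s) (hu : 0 < u)
    (hb : 0 < b) (hA : ∀ κ, 0 < κ → eA κ ≤ κ ^ 2 * u ^ 2) (hB : ∀ μ, 0 < μ → eB μ ≤ μ * b ^ 2) :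
    V κ (s * s) ≤ 2 * C * ((s * b) * max (κ * u) (s * b)) := by
  have hμ : 0 < s * s := by positivity
  set y := s * b with hy
  have hy0 : 0 < y := by positivity
  have hEB : eB (s * s) ≤ y * y := (hB _ hμ).trans (le_of_eq (by rw [hy]; ring))
  rcases le_or_gt y (κ * u) with h' | h'
  · rw [max_eq_left h']
    have hκ' : 0 < y / u := by positivity
    have h2 : y / u ≤ κ := by rw [div_le_iff₀ hu]; exact h'
    have h1 := h κ _ _ _ hκ' h2 hμ le_rfl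
    have hEA : eA (y / u) ≤ y * y := by
      refine (hA _ hκ').trans (le_of_eq ?_)
      field_simp
    rw [div_self hμ.ne', mul_one] at h1
    have h3 : κ / (y / u) * (C * (eA (y / u) + eB (s * s)))
        ≤ κ / (y / u) * (C * (y * y + y * y)) :=
      mul_le_mul_of_nonneg_left (mul_le_mul_of_nonneg_left (by linarith) hC) (by positivity)
    refine h1.trans (h3.trans (le_of_eq ?_))
    field_simp
    ring
  · rw [max_eq_right h'.le]
    have h1 := h κ κ _ _ hκ le_rfl hμ le_rfl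
    rw [div_self hκ.ne', div_self hμ.ne', one_mul, one_mul] at h1
    have hEA : eA κ ≤ y * y := by
      refine (hA _ hκ).trans ?_
      have : κ ^ 2 * u ^ 2 = (κ * u) * (κ * u) := by ring
      rw [this]
      exact mul_self_le_mul_self (by positivity) h'.le
    have h3 : C * (eA κ + eB (s * s)) ≤ C * (y * y + y * y) :=
      mul_le_mul_of_nonneg_left (by linarith) hC
    linarith

theorem VB.v44 (h : VB V C eA eB) (hC : 0 ≤ C) {u w κ μ : ℝ} (hκ : 0 < κ) (hμ : 0 < μ) (hu : 0 < u)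
    (hw : 0 < w) (hA : ∀ κ, 0 < κ → eA κ ≤ κ ^ 2 * u ^ 2)
    (hB : ∀ μ, 0 < μ → eB μ ≤ μ ^ 2 * w ^ 2) :
    V κ μ ≤ 2 * C * ((κ * u) * (μ * w)) := by
  rcases le_or_gt (κ * u) (μ * w) with h' | h'
  · have hμ' : 0 < κ * u / w := by positivity
    have h2 : κ * u / w ≤ μ := by rw [div_le_iff₀ hw]; exact h'
    have h1 := h κ κ μ _ hκ le_rfl hμ' h2
    have hEA : eA κ ≤ (κ * u) * (κ * u) := (hA κ hκ).trans (le_of_eq (by ring))
    have hEB : eB (κ * u / w) ≤ (κ * u) * (κ * u) := by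
      refine (hB _ hμ').trans (le_of_eq ?_)
      field_simp
    rw [div_self hκ.ne', one_mul] at h1
    have h3 : μ / (κ * u / w) * (C * (eA κ + eB (κ * u / w)))
        ≤ μ / (κ * u / w) * (C * ((κ * u) * (κ * u) + (κ * u) * (κ * u))) :=
      mul_le_mul_of_nonneg_left (mul_le_mul_of_nonneg_left (by linarith) hC) (by positivity)
    refine h1.trans (h3.trans (le_of_eq ?_))
    field_simp
    ring
  · have hκ' : 0 < μ * w / u := by positivity
    have h2 : μ * w / u ≤ κ := by rw [div_le_iff₀ hu]; exact h'.le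
    have h1 := h κ _ _ _ hκ' h2 hμ le_rfl
    have hEA : eA (μ * w / u) ≤ (μ * w) * (μ * w) := by
      refine (hA _ hκ').trans (le_of_eq ?_)
      field_simp
    have hEB : eB μ ≤ (μ * w) * (μ * w) := (hB μ hμ).trans (le_of_eq (by ring))
    rw [div_self hμ.ne', mul_one] at h1
    have h3 : κ / (μ * w / u) * (C * (eA (μ * w / u) + eB μ))
        ≤ κ / (μ * w / u) * (C * ((μ * w) * (μ * w) + (μ * w) * (μ * w))) :=
      mul_le_mul_of_nonneg_left (mul_le_mul_of_nonneg_left (by linarith) hC) (by positivity)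
    refine h1.trans (h3.trans (le_of_eq ?_))
    field_simp
    ring

end

/-! ### masked vertex sums -/

variable {J : Type} [Fintype J] [DecidableEq J]

/-- `S₂` densities -/
def H1 (N l : ℕ) (A : ℤ → GF J) (U : MC) (α : ℝ) : Prop :=
  ∀ k, l ≤ k → k < N → ∀ i n m, ∑ x ∈ iv k i, (mP (A x) (sl U x) k m n).trace ≤ 2 ^ k * α

/-- `S₄` densities -/
def H2 (N l : ℕ) (A : ℤ → GF J) (U : MC) (v : ℝ) : Prop :=
  ∀ k, l ≤ k → k < N → ∀ i n m,
    ∑ x ∈ iv k i, (mP (A x) (sl U x) k m n * mP (A x) (sl U x) k m n).trace ≤ 2 ^ k * v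

theorem mP_smul (κ : ℝ) (hκ : 0 ≤ κ) (A : GF J) (U : MS) (k : ℕ) (m n : ℤ) :
    mP (A.smul κ hκ) U k m n = κ • mP A U k m n := by
  unfold mP
  split_ifs
  · rfl
  · rw [smul_zero]

theorem Hb_of_H1 {N l : ℕ} {A : ℤ → GF J} {U : MC} {α : ℝ} (h : H1 N l A U α) {κ : ℝ}
    (hκ : 0 ≤ κ) : Hb N l (fun x => (A x).smul κ hκ) U (κ * α) := by
  intro k h1 h2 i n m
  have h3 : ∀ x, gP ((A x).smul κ hκ) (sl U x) k m n ≤ κ * (mP (A x) (sl U x) k m n).trace := by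
    intro x
    unfold gP
    rw [mP_smul]
    refine (H588.GX_le_trace ((mP_psd (A x) (sl U x) k m n).smul hκ)).trans (le_of_eq ?_)
    rw [trace_smul, smul_eq_mul]
  refine (sum_le_sum fun x _ => h3 x).trans ?_
  rw [← mul_sum]
  refine (mul_le_mul_of_nonneg_left (h k h1 h2 i n m) hκ).trans (le_of_eq (by ring))

theorem Hb_of_H2 {N l : ℕ} {A : ℤ → GF J} {U : MC} {v : ℝ} (h : H2 N l A U v) {κ : ℝ}
    (hκ : 0 ≤ κ) : Hb N l (fun x => (A x).smul κ hκ) U (κ ^ 2 * v) := by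
  intro k h1 h2 i n m
  have h3 : ∀ x, gP ((A x).smul κ hκ) (sl U x) k m n
      ≤ κ ^ 2 * (mP (A x) (sl U x) k m n * mP (A x) (sl U x) k m n).trace := by
    intro x
    unfold gP
    rw [mP_smul]
    refine (GX_le_sq ((mP_psd (A x) (sl U x) k m n).smul hκ)).trans (le_of_eq ?_)
    rw [Matrix.smul_mul, Matrix.mul_smul, trace_smul, trace_smul, smul_eq_mul, smul_eq_mul,
      ← mul_assoc, ← pow_two]
  refine (sum_le_sum fun x _ => h3 x).trans ?_
  rw [← mul_sum]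
  refine (mul_le_mul_of_nonneg_left (h k h1 h2 i n m) (by positivity)).trans (le_of_eq (by ring))

/-- masked vertex sum with weights -/
def VM (N l : ℕ) (R0 R S T : ℤ) (A B : ℤ → GF J) (U V : MC) (c : ℕ → ℤ → ℤ) (κ μ : ℝ) : ℝ :=
  open scoped Classical in
  ∑ x ∈ iv N R0, ∑ k ∈ Icc (l + 1) N, (4 : ℝ) ^ k * ∑ p ∈ bx N R S T k (c k (ix k x)),
    if U k (ix k x) p.1 p.2.1 ∧ V k (ix k x) p.2.2 p.2.1 then
      vd (κ • (A x).X k k p.1 p.2.1) (μ • (B x).X k k p.2.2 p.2.1) (hd J k) else 0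

open scoped Classical in
theorem nU_eq_bx (N : ℕ) (R S T : ℤ) (A B : GF J) (U V : MS) (k : ℕ) (c : ℤ) :
    nU N R S T A B U V k c = (4 : ℝ) ^ k * ∑ p ∈ bx N R S T k c,
      if U k p.1 p.2.1 ∧ V k p.2.2 p.2.1 then
        vd (A.X k k p.1 p.2.1) (B.X k k p.2.2 p.2.1) (hd J k) else 0 := by
  rw [sum_bx]
  rfl

open scoped Classical in
/-- **Masked vertex sum.** -/
theorem VM_le {N l : ℕ} (hl : l ≤ N) (R0 R S T : ℤ) {A B : ℤ → GF J} {U V : MC}
    (hU : Cl4 N U) (hV : Cl4 N V) {c : ℕ → ℤ → ℤ} (hc : ∀ x, H588.Pl fun k => c k (ix k x))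
    {κ κ' μ μ' : ℝ} (hκ' : 0 < κ') (hκ : κ' ≤ κ) (hμ' : 0 < μ') (hμ : μ' ≤ μ) {ε ε' : ℝ}
    (hε : 0 ≤ ε) (hε' : 0 ≤ ε') (hA : Hb N l (fun x => (A x).smul κ' hκ'.le) U ε)
    (hB : Hb N l (fun x => (B x).smul μ' hμ'.le) V ε') :
    VM N l R0 R S T A B U V c κ μ
      ≤ (κ / κ') * (μ / μ') * ((4676 * 8 ^ N) * (ε + ε')) := by
  have hκ0 : 0 < κ := lt_of_lt_of_le hκ' hκ
  have hμ0 : 0 < μ := lt_of_lt_of_le hμ' hμ
  have h1 := pairM hl R0 R S T hU hV hε hε' hA hB hc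
  have h2 : VM N l R0 R S T A B U V c κ μ
      ≤ (κ / κ') * (μ / μ') * ∑ x ∈ iv N R0, ∑ k ∈ Icc (l + 1) N,
        nU N R S T ((A x).smul κ' hκ'.le) ((B x).smul μ' hμ'.le) (sl U x) (sl V x) k
          (c k (ix k x)) := by
    unfold VM
    rw [mul_sum]
    refine sum_le_sum fun x _ => ?_
    rw [mul_sum]
    refine sum_le_sum fun k _ => ?_
    rw [nU_eq_bx, mul_left_comm]
    refine mul_le_mul_of_nonneg_left ?_ (by positivity)
    rw [mul_sum]
    refine sum_le_sum fun p _ => ?_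
    have e : (sl U x k p.1 p.2.1 ∧ sl V x k p.2.2 p.2.1)
        = (U k (ix k x) p.1 p.2.1 ∧ V k (ix k x) p.2.2 p.2.1) := rfl
    by_cases hm : U k (ix k x) p.1 p.2.1 ∧ V k (ix k x) p.2.2 p.2.1
    · rw [if_pos hm, if_pos (by rw [e]; exact hm)]
      exact vd_scale ((A x).psd ..) ((B x).psd ..) (hd_symm k) hκ' hκ hμ' hμ
    · rw [if_neg hm, if_neg (by rw [e]; exact hm), mul_zero]
  refine h2.trans ((mul_le_mul_of_nonneg_left h1 (by positivity)).trans (le_of_eq (by ring)))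

end

end Vale.Agent.P141.PL.H48
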